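import Crest.Agent.X212.Sep15.ClsA
import Crest.Agent.X212.Lns95.Lf

/-! X212 / LENS (helper15): the leaf CLS. -/

set_option autoImplicit false
set_option linter.unusedSectionVars false
set_option maxHeartbeats 200000
noncomputable section
open scoped Manifold ContDiff Topology Real
open Set Function Filter

namespace Crest.Agent.X212.Sep15.Cls
open An Nd18 Num57 Cyf70 Qab60 Lns95
open M (Mf)
open Dr59 (dM)

variable {Y : Mf 3} [CompactSpace Y.M] {κ : Type} [Fintype κ] {lam : Type} [Fintype lam]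
  {D : YD Y.I Y.M κ lam}
  {E : Type} [NormedAddCommGroup E] [NormedSpace ℝ E] [FiniteDimensional ℝ E]
  [MeasurableSpace E] [BorelSpace E]
  {HM : Type} [TopologicalSpace HM] {I : ModelWithCorners ℝ E HM} [I.Boundaryless]
  {M : Type} [TopologicalSpace M] [ChartedSpace HM M] [IsManifold I ∞ M] [T2Space M]
  [MeasurableSpace M] [BorelSpace M] [SecondCountableTopology M]

/-- **LEAF CLS** -/
theorem cls : ClsStmt D I M := fun B G K Ω w f h hf => by
  have en : Qab60.En K Ω := ⟨h.hD, Qd40.volY h.hD.G.vol, h.tam, h.hG, h.one⟩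
  have p := pc en h.cs h.span (by rw [h.sq, neg_lt_zero]; positivity)
  have r : ∀ f, Sl B G Ω f → ∃ ε : ℝ, (ε = 1 ∨ ε = -1) ∧ ∃ α, Fo I 1 α ∧ Off Ω α ∧
      f = (ε / 2) • w + dM I α := fun f hf => by
    obtain ⟨t, α, h1, h2, h3, h4⟩ := rep p h.cs h.span hf.cz hf.sq
    rw [hf.lev, h.sq] at h4
    refine ⟨2 * t, mul_self_eq_one_iff.1 ?_, α, h1, h2, by rwa [mul_div_cancel_left₀ _ two_ne_zero]⟩
    exact mul_right_cancel₀ (pow_ne_zero 2 Real.pi_ne_zero) (by linarith)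
  obtain ⟨ε, hε, α, h1, h2, h3⟩ := r f hf
  refine ⟨?_, fun f' hf' => ?_⟩
  · obtain ⟨T, d, a, k1, k2, k3, k4, k5, k6⟩ := dec en h.hz h1 h2 (sq_d h.cs hf.sq h3) fun x hx => by
      have := hf.asd x (en.mem hx)
      rwa [h3, Qab60.c2_add, Pi.add_apply, c2_of_zero (w := (ε / 2) • w) (by
        rw [Pi.smul_apply, h.off x hx, smul_zero]), zero_add] at this
    exact ⟨ε, T, d, a, hε, k1, k2, k3, k4, k5 ▸ h3, k6⟩
  obtain ⟨ε', hε', α', k1, k2, k3⟩ := r f' hf'
  by_cases e : ε' = ε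
  · exact .inl (uq p h.cs hf.sq hf'.sq hf.asd hf'.asd h1 h2 h3 k1 k2 (e ▸ k3))
  · have e' : ε' = -ε := by
      rcases hε with rfl | rfl <;> rcases hε' with rfl | rfl <;> simp_all
    refine .inr (neg_eq_iff_eq_neg.1 (uq p h.cs hf.sq (f' := -f') (by
      rw [Sq, c2_neg]; exact hf'.sq.neg) hf.asd (fun x hx => by
        rw [c2_neg, Pi.neg_apply, map_neg, hf'.asd x hx, neg_zero]) h1 h2 h3 (k1.smul (-1))
      (k2.smul (-1)) ?_))
    rw [k3, k1.d_smul, e']
    module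

end Crest.Agent.X212.Sep15.Cls
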