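import Crest.Agent.X212.Cay24.Qa

/-! X212 / QA (helper15): gauges `exp (φ ξ)`, parallel unit sections. -/

set_option autoImplicit false
set_option linter.unusedSectionVars false
set_option maxHeartbeats 200000
noncomputable section
open scoped Manifold ContDiff Topology InnerProductSpace
open Set Function Filter

namespace Crest.Agent.X212.Sep15.Qa
open An Nd18 Pj41 Qab60 Sob92 Real
open Wz78 hiding cov dA
open Abel74 (RedOn)
open Eqv71 (cj opL_cj)
open Tmp64 (AdmOn)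
open Dfl49 (PI Flt Sur)
open Bki64 (Cl cov dA dP)

variable {E : Type} [NormedAddCommGroup E] [NormedSpace ℝ E] [FiniteDimensional ℝ E]
  [MeasurableSpace E] [BorelSpace E]
  {HM : Type} [TopologicalSpace HM] {I : ModelWithCorners ℝ E HM} [I.Boundaryless]
  {M : Type} [TopologicalSpace M] [ChartedSpace HM M] [IsManifold I ∞ M] [T2Space M]
  [MeasurableSpace M] [BorelSpace M] [SecondCountableTopology M]
  {ι : Type} [Fintype ι] {lam : Type} [Fintype lam] {B : Base M ι lam} {G : Geo I M ι lam}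
  {F : Fr I M ι} {O : Set M} {x : M} {φ : M → ℝ} {r r' r'' : ℕ} {c : Cfg M ι lam r}
  {c' : Cfg M ι lam r'} {c'' : Cfg M ι lam r''} {u : M → CL c.m.V c'.m.V}

section gx
variable {m : Md M ι lam} {W : m.Cn} {ξ : M → m.A}

theorem xp {η : m.A} (p : CPrj (m.p x)) (h : η ∈ m.gS x) : opL η * m.p x = opL η := by
  have := congrArg Pj41.ad (g_p h)
  rw [ContinuousLinearMap.mul_def, ad_comp, p.herm, ad_skew.2 (g_skw h)] at this
  exact neg_injective ((neg_mul _ _).symm.trans this)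

/-- the gauge `exp (φ ξ)` -/
def gx (m : Md M ι lam) (ξ : M → m.A) (φ : M → ℝ) (x : M) : En (Fin m.N) :=
  cos (φ x) • m.p x + sin (φ x) • opL (ξ x)

theorem sa_cos (h : SA I φ x) : SA I (fun y => cos (φ y)) x := (contDiff_cos.contMDiff _).comp x h
theorem sa_sin (h : SA I φ x) : SA I (fun y => sin (φ y)) x := (contDiff_sin.contMDiff _).comp x h

theorem iso_gx (H : OKOn I B m O) (R : RedOn F m W O ξ) (hφ : ∀ x ∈ O, SA I φ x) :
    Iso0 I m m O (gx m ξ φ) := by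
  have i := Iso0.refl H
  have k : ∀ x ∈ O, ∀ T : En (Fin m.N), T ∘L m.p x = m.p x ∘L T →
      T * opL (ξ x) = opL (ξ x) * T → T ∘L gx m ξ φ x = gx m ξ φ x ∘L T := fun x _ T h1 h2 => by
    simp only [gx, ← ContinuousLinearMap.mul_def, mul_add, add_mul, mul_smul_comm, smul_mul_assoc,
      h2] at h1 ⊢
    rw [h1]
  refine ⟨fun x hx => (SA.smul (sa_cos (hφ x hx)) (H.sp x hx)).add
    (SA.smul (sa_sin (hφ x hx)) (SA.clm opL (R.sm x hx))), fun x hx => ?_,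
    fun x hx => k x hx _ (i.J x hx) (g_J (R.mem x hx)),
    fun x hx b => k x hx _ (i.ρ x hx b) (g_ρ (R.mem x hx) b),
    fun x hx s => k x hx _ (i.j x hx s) (g_j (R.mem x hx) s)⟩
  have e : Pj41.ad (gx m ξ φ x) = cos (φ x) • m.p x - sin (φ x) • opL (ξ x) := by
    rw [gx, ad_add, ad_smul, ad_smul, (H.prj hx).herm, ad_skew.2 (g_skw (R.mem x hx)), smul_neg,
      sub_eq_add_neg]
  refine ⟨e ▸ ?_, e ▸ ?_, ?_⟩ <;>
    simp only [gx, ← ContinuousLinearMap.mul_def, mul_add, add_mul, mul_sub, sub_mul,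
      mul_smul_comm, smul_mul_assoc, H.pidem x hx, g_p (R.mem x hx), xp (H.prj hx) (R.mem x hx),
      R.sq x hx]
  all_goals linear_combination (norm := module) cos_sq_add_sin_sq (φ x) • m.p x

end gx

theorem cov_gx {ξ : M → c.m.A} (a : AdmOn c B G O) (R : RedOn G.F c.m c.W O ξ) (hx : x ∈ O)
    (hφ : SA I φ x) (i : ι) :
    cov G.F c c (gx c.m ξ φ) i x = G.F.D i φ x • (opL (ξ x) ∘L gx c.m ξ φ x) := by
  have p1 := a.conn.par i x hx
  have p2 := opL_nab (e := G.F.e) (W := c.W) i (R.sm x hx)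
  have s := SA.clm opL (R.sm x hx)
  have d1 : dv I (G.F.e i) (fun y => cos (φ y)) x = -sin (φ x) * G.F.D i φ x :=
    (dv_comp hφ.md (hasDerivAt_cos _).hasFDerivAt).trans (by simp [mul_comm, Pre.D_def])
  have d2 : dv I (G.F.e i) (fun y => sin (φ y)) x = cos (φ x) * G.F.D i φ x :=
    (dv_comp hφ.md (hasDerivAt_sin _).hasFDerivAt).trans (by simp [mul_comm, Pre.D_def])
  rw [R.par x hx, map_zero, nabE] at p2
  rw [Pre.D_def] at p1
  rw [cov, Pre.D_def, show gx c.m ξ φ = fun y => cos (φ y) • c.m.p y + sin (φ y) • opL (ξ y) from rfl,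
    dv_add' (SA.smul (sa_cos hφ) (a.ok.sp x hx)) (SA.smul (sa_sin hφ) s),
    dv_smul (sa_cos hφ).md (a.ok.sp x hx).md, dv_smul (sa_sin hφ).md s.md,
    eq_neg_of_add_eq_zero_left p1, eq_neg_of_add_eq_zero_left p2]
  simp only [d1, d2, ← ContinuousLinearMap.mul_def, mul_add, add_mul, mul_smul_comm,
    smul_mul_assoc, R.sq x hx, xp (a.ok.prj hx) (R.mem x hx)]
  module

theorem dA_gx {ξ : M → c.m.A} {ξ' : M → c'.m.A} (a : AdmOn c' B G O) (p : PI G.F c c' O u)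
    (R : RedOn G.F c'.m c'.W O ξ') (hφ : ∀ x ∈ O, SA I φ x) (hx : x ∈ O) (hm : ξ x ∈ c.m.gS x)
    (e : ξ' x = cj (u x) (ξ x)) (α α' : M → Fm ι ℝ) (i : ι) :
    dA G.F (vr c (fun x => tn (α x) (ξ x)) 0) (vr c' (fun x => tn (α' x) (ξ' x)) 0)
      (fun y => gx c'.m ξ' φ y ∘L u y) i x = (G.F.D i φ x + α' x i - α x i) • opL (ξ' x) := by
  have g := iso_gx a.ok R hφ
  have k := p.iso.iso x hx
  have e1 : u x ∘L opL (ξ x) = opL (ξ' x) ∘L u x := by
    rw [e, opL_cj, ← ad_trn, ContinuousLinearMap.comp_assoc, ContinuousLinearMap.comp_assoc, k.src]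
    exact congrArg _ (xp k.prj_src hm).symm
  have e2 : gx c'.m ξ' φ x ∘L opL (ξ' x) = opL (ξ' x) ∘L gx c'.m ξ' φ x := by
    simp only [gx, ← ContinuousLinearMap.mul_def, mul_add, add_mul, mul_smul_comm, smul_mul_assoc,
      g_p (R.mem x hx), xp (a.ok.prj hx) (R.mem x hx)]
  have e3 := Bki64.cov_comp (F := G.F) (c := c) (c' := c') (c'' := c') (p.iso.su x hx) (g.su x hx) i
  rw [cov_gx a R hx (hφ x hx), show cov G.F c c' u i x = 0 from p.par x hx i] at e3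
  have e4 : cov G.F (vr c (fun x => tn (α x) (ξ x)) 0) (vr c' (fun x => tn (α' x) (ξ' x)) 0)
      (fun y => gx c'.m ξ' φ y ∘L u y) i x = (G.F.D i φ x + α' x i - α x i) •
        (opL (ξ' x) ∘L (gx c'.m ξ' φ x ∘L u x)) := by
    change G.F.D i (fun y => gx c'.m ξ' φ y ∘L u y) x + (c'.W i x + opL (α' x i • ξ' x)) ∘L (gx c'.m ξ' φ x ∘L u x) -
      (gx c'.m ξ' φ x ∘L u x) ∘L (c.W i x + opL (α x i • ξ x)) = _
    rw [Bki64.D_eq_cov (c := c) (c' := c'), e3]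
    simp only [map_smul, ContinuousLinearMap.add_comp, ContinuousLinearMap.comp_add,
      ContinuousLinearMap.smul_comp, ContinuousLinearMap.comp_smul, ContinuousLinearMap.comp_zero,
      ContinuousLinearMap.comp_assoc, e1]
    rw [← ContinuousLinearMap.comp_assoc _ (opL _), e2, ContinuousLinearMap.comp_assoc]
    module
  refine (congrArg (fun T : CL c.m.V c'.m.V => T ∘L trn (gx c'.m ξ' φ x ∘L u x)) e4).trans ?_
  beta_reduce
  rw [ContinuousLinearMap.smul_comp, ContinuousLinearMap.comp_assoc, ← ad_trn,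
    ((p.iso.trans g).iso x hx).tgt]
  exact congrArg _ (xp (a.ok.prj hx) (R.mem x hx))

theorem cl_pi {h : M → CL c'.m.V c''.m.V} {ζ : Circle} {k : ℕ} {η : ℝ}
    (H : Cl F c' c'' h (fun _ => ζ) O k η) (p : PI F c c' O u)
    (z : ∀ x ∈ O, c.Φ x = 0 ∧ c'.Φ x = 0) : Cl F c c'' (fun x => h x ∘L u x) (fun _ => ζ) O k η :=
  ⟨H.op, p.iso.trans H.iso, fun a => (H.A a).congr H.op fun x hx => by
    rw [Bki64.dA_comp p.iso H.iso hx, dA.eq_1 F c c', show cov F c c' u a x = 0 from p.par x hx a]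
    simp, H.P.congr H.op fun x hx => by simp only [dP, z x hx, map_zero]⟩

/-- a second parallel unit section -/
theorem exists_orth (hB : B.OK I) (hG : G.OK B) (A : c.Adm B G) (hO : IsOpen O) (hx : x ∈ O)
    (hs : Sur {x} O) (h : ∀ z ∈ O, c.m.Fg G.F c.W z = 0) {ξ : M → c.m.A}
    (R : RedOn G.F c.m c.W O ξ) : ∃ η, RedOn G.F c.m c.W O η ∧ ∀ z ∈ O, ⟪ξ z, η z⟫_ℝ = 0 := by
  have cn := Eqv71.con_adW A.conn
  have sk := adW_skw A.conn
  have s := Std94.sm_pg hB A.ok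
  have hQ : Flt G.F O (c.m.adW c.W) c.m.pg := ⟨hO, fun a x _ => cn.sm a x,
    fun a x _ => by rw [hG.P]; exact cn.proj a x, fun x _ => s x,
    fun a x _ => by rw [pg_par A.ok A.conn s a x, zero_mul], fun a b x hx => by
      ext1 w
      rw [mul_apply_eq_comp, curv_adW_g hB hG A.ok A.conn a b (pg_mem x w), h x hx]
      simp [adc_apply]⟩
  obtain ⟨v, v0, v1⟩ : ∃ v : c.m.gS x, v ≠ 0 ∧ ⟪ξ x, (v : c.m.A)⟫_ℝ = 0 := by
    obtain ⟨v, v1, v0⟩ := (LinearMap.ker (((innerSL ℝ (ξ x)).toLinearMap).comp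
      (c.m.gS x).subtype)).exists_mem_ne_zero_of_ne_bot (LinearMap.ker_ne_bot_of_finrank_lt (by
        rw [Std94.finrank_g hB (Std94.pmx A.ok x)]; norm_num))
    exact ⟨v, v0, v1⟩
  obtain ⟨U, hU, -, -, hl⟩ := hQ.exists_loc hx
  obtain ⟨σ, s1, s2⟩ := hl x (mem_of_mem_nhds hU) ((4 / ‖(v : c.m.A)‖) • v)
    (by rw [map_smul, pg_of_mem v.2])
  obtain ⟨t, t1, t2⟩ := hs _ _ hQ.ls σ (by rintro _ rfl; exact mem_of_superset hU s2)
  have t3 := fun x hx => (t1 x hx).self_of_nhds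
  have nm : ∀ {w : M → c.m.A} {q : ℝ}, (∀ y ∈ O, SA I w y ∧ ∀ a, nab I G.F.e (c.m.adW c.W) a w y = 0) →
      ⟪w x, t x⟫_ℝ = q → ∀ y ∈ O, ⟪w y, t y⟫_ℝ = q := fun {w q} hw h0 =>
    Loc8.sur_prop hs (P := fun x => ⟪w x, t x⟫_ℝ = q) (fun x hx => (Dfl49.par_uniq (F := G.F)
      (A := fun _ _ => (0 : ℝ →L[ℝ] ℝ)) (s := fun y => ⟪w y, t y⟫_ℝ) (s' := fun _ => ⟪w x, t x⟫_ℝ)
      (.of_forall fun y a => ⟨contMDiffAt_const, by simp⟩) (mem_of_superset (hO.mem_nhds hx)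
        fun y hy => ⟨(hw y hy).1.inner (t3 y hy).sm, fun a => by
          rw [nab, dv_inner (e := G.F.e) a (sk a y) (hw y hy).1 (t3 y hy).sm, (t3 y hy).par,
            (hw y hy).2]; simp⟩)
      (.of_forall fun y => ⟨contMDiffAt_const, fun a => by simp [nab]⟩) rfl).mono fun y hy =>
        (congrArg (· = q) hy).to_iff) (by rintro _ rfl; exact h0)
  have mem : ∀ x ∈ O, t x ∈ c.m.gS x := fun x hx => (t3 x hx).mem ▸ pg_mem x _
  refine ⟨t, ⟨fun x hx => (t3 x hx).sm, mem, fun y hy => Abel74.sq_of_norm hB A.ok (mem y hy) ?_,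
    fun x hx => (t3 x hx).par⟩, nm (fun y hy => ⟨R.sm y hy, R.par y hy⟩) (by
      rw [t2 rfl, s1, real_inner_smul_right, v1, mul_zero])⟩
  rw [← real_inner_self_eq_norm_sq]
  refine nm (fun y hy => ⟨(t3 y hy).sm, (t3 y hy).par⟩) ?_ y hy
  rw [t2 rfl, s1, real_inner_self_eq_norm_sq, norm_smul, norm_div, norm_norm,
    div_mul_cancel₀ _ (norm_ne_zero_iff.2 fun e => v0 (Subtype.ext e))]
  norm_num

end Crest.Agent.X212.Sep15.Qa
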