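import Crest.Agent.X212.Sep15.QaF
import Crest.Agent.X212.Sep15.QaG

/-! X212 / QA (helper15): the leaves REF and LIM. -/

set_option autoImplicit false
set_option linter.unusedSectionVars false
set_option maxHeartbeats 200000
noncomputable section
open scoped Manifold ContDiff Topology InnerProductSpace
open Set Function Filter

namespace Crest.Agent.X212.Sep15.Qa
open An Nd18 Wz78 Pj41 Qab60 Cyf70 Real Bki64
open M (Mf)
open Abel74 (Red RedOn)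
open Tmp64 (admOn_univ)
open Dfl49 (PI nk_maps)
open Neck67 (Lb)

variable {Y : Mf 3} [CompactSpace Y.M] {κ : Type} [Fintype κ] {lam : Type} [Fintype lam]
  {D : YD Y.I Y.M κ lam} {β : YC Y.M κ lam} {T d : ℝ}
  {E : Type} [NormedAddCommGroup E] [NormedSpace ℝ E] [FiniteDimensional ℝ E]
  [MeasurableSpace E] [BorelSpace E]
  {HM : Type} [TopologicalSpace HM] {I : ModelWithCorners ℝ E HM} [I.Boundaryless]
  {M : Type} [TopologicalSpace M] [ChartedSpace HM M] [IsManifold I ∞ M] [T2Space M]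
  [MeasurableSpace M] [BorelSpace M] [SecondCountableTopology M]
  {B : Base M (Option κ) lam} {G : Geo I M (Option κ) lam} {K : Nk D B G} {r r' : ℕ}
  {c : Cfg M (Option κ) lam r} {c' : Cfg M (Option κ) lam r'} {S : Set M} {J : Set ℝ}

theorem op_h (t : ℝ) : IsOpen (hZ Y t) := isOpen_univ.prod isOpen_Ioi

theorem red_pb {ξ : M → c.m.A} (R : RedOn G.F c.m c.W S ξ) (h : J ⊆ K.J) (k : K.tm ⁻¹' J ⊆ S) :
    RedOn D.Z (K.pb c).m (K.pb c).W (univ ×ˢ J) fun x => ξ (K.ψ x) :=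
  have mp := nk_maps h k
  ⟨fun _ hx => K.rel.sm (mp hx).1 (R.sm _ (mp hx).2), fun _ hx => R.mem _ (mp hx).2,
    fun _ hx => R.sq _ (mp hx).2, fun _ hx a =>
      (K.rel.nab (mp hx).1 a rfl (.of_forall fun _ => rfl)).trans (R.par _ (mp hx).2 a)⟩

theorem pi_pb {u : M → CL c.m.V c'.m.V} (p : PI G.F c c' S u) (h : J ⊆ K.J) (k : K.tm ⁻¹' J ⊆ S) :
    PI D.Z (K.pb c) (K.pb c') (univ ×ˢ J) fun x => u (K.ψ x) :=
  have mp := nk_maps h k
  ⟨⟨fun _ hx => K.rel.sm (mp hx).1 (p.iso.su _ (mp hx).2), fun _ hx => p.iso.iso _ (mp hx).2,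
    fun _ hx => p.iso.J _ (mp hx).2, fun _ hx => p.iso.ρ _ (mp hx).2,
    fun _ hx => p.iso.j _ (mp hx).2⟩, fun _ hx b => by
      have := p.par _ (mp hx).2 b
      rwa [← K.rel.D (mp hx).1 b (u := fun x => u (K.ψ x)) (.of_forall fun _ => rfl)] at this⟩

theorem adm_pb (A : c.Adm B G) (h : J ⊆ K.J) : Tmp64.AdmOn (K.pb c) D.B D.G (univ ×ˢ J) :=
  (One97.admOn_pb K isOpen_univ (admOn_univ.2 A)).mono (nk_maps h (subset_univ _))

theorem red_cy (hβ : D.Adm β) {s : Y.M × ℝ → β.m.A} (R : RedOn D.Z (cy β).m (cy β).W (hZ Y T) s) :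
    ∃ ξ : Y.M → β.m.A, (Red D.Z (cy β).m (cy β).W fun q => ξ q.1) ∧ ∀ x ∈ hZ Y T, ξ x.1 = s x := by
  have h0 : ∀ y : Y.M, (y, T + 1) ∈ hZ Y T := fun y => ⟨trivial, lt_add_one T⟩
  have ti : ∀ x ∈ hZ Y T, s (x.1, T + 1) = s x := fun x hx => by
    refine isOpen_Ioi.is_const_of_deriv_eq_zero (f := fun t => s (x.1, t)) isPreconnected_Ioi
      (fun t ht => (diff_slice_snd (R.sm (x.1, t) ⟨trivial, ht⟩).md).differentiableWithinAt)
      (fun t ht => ?_) (h0 x.1).2 hx.2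
    have := R.par (x.1, t) ⟨trivial, ht⟩ none
    rw [nab, show (cy β).m.adW (cy β).W none (x.1, t) = 0 from
      (congrArg adc (hβ.tmp _)).trans (map_zero adcL), zero_apply, add_zero] at this
    exact (D_none_at D.F.toPre (R.sm (x.1, t) ⟨trivial, ht⟩).md).symm.trans this
  have sm : Sm Y.I fun y => s (y, T + 1) := fun y => sm_slice (R.sm _ (h0 y))
  refine ⟨fun y => s (y, T + 1), ⟨sm_fst sm, fun x => R.mem _ (h0 x.1), fun x => R.sq _ (h0 x.1),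
    fun a x => ?_⟩, ti⟩
  have e : D.Z.D a (fun x : Y.M × ℝ => s (x.1, T + 1)) x =
      D.Z.D a (fun x => s (x.1, T + 1)) (x.1, T + 1) := by
    cases a with
    | none =>
      have := D_none_fst D.F.toPre sm
      exact (congrFun this x).trans (congrFun this (x.1, T + 1)).symm
    | some a =>
      have := D_some_fst D.F.toPre sm a
      exact (congrFun this x).trans (congrFun this (x.1, T + 1)).symm
  exact (congrArg (fun v : β.m.A => v + adc (β.W a x.1) (s (x.1, T + 1))) e).trans ((nab_congr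
    (u := fun x : Y.M × ℝ => s (x.1, T + 1)) a (Eventually.mono ((op_h T).mem_nhds (h0 x.1)) ti)).trans
      (R.par _ (h0 x.1) a))

/-- **REF** -/
theorem ref : RefStmt D I M := fun r B G K Ω V c ξ T hD hB hG h hV s sc f hT k => by
  have R := h.rd.toRedOn.mono s
  have f' : ∀ z ∈ V, c.m.Fg G.F c.W z = 0 := fun z hz => PiLp.ext fun i => by
    rw [h.rd.Fg_eq hB hG h.adm.ok h.adm.conn (s hz), ← Abel74.k2_fm hG h.adm.conn, Num57.k2, f z hz,
      Num57.e2_zero, zero_smul]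
    rfl
  obtain ⟨η, R', o⟩ : ∃ η, RedOn G.F c.m c.W V η ∧ ∀ z ∈ V, ⟪ξ z, η z⟫_ℝ = 0 := by
    rcases V.eq_empty_or_nonempty with rfl | ⟨x, hx⟩
    exacts [⟨ξ, R, fun _ h => h.elim⟩, exists_orth hB hG h.adm hV hx (sc.2 x hx) f' R]
  have mp := nk_maps hT k
  have a := adm_pb h.adm hT
  obtain ⟨β, u, hβ, fz, p⟩ := Dfl49.exists_cy hD isOpen_Ioi ordConnected_Ioi nonempty_Ioi a
    fun x hx => (K.rel.Fg (mp hx).1 c.W).trans (f' _ (mp hx).2)
  have a' := (admOn_univ.2 hβ.adm).mono (subset_univ (hZ Y T))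
  have tr := fun {ξ} (R : RedOn G.F c.m c.W V ξ) => red_cy hβ
    (Cay24.redOn_iso p.iso a.ok a'.ok a.conn a'.conn p.par (red_pb R hT k))
  obtain ⟨ξ₀, h1, h2⟩ := tr R
  obtain ⟨η₀, h3, h4⟩ := tr R'
  refine ⟨β, ξ₀, ⟨hβ, fz, h1, η₀, h3, fun y => ?_⟩, hT, u, p, h2⟩
  have h0 : (y, T + 1) ∈ hZ Y T := ⟨trivial, lt_add_one T⟩
  rw [h2 _ h0, h4 _ h0]
  exact (Loc66.inner_cj_g p.iso h0 _ (R'.mem _ (mp h0).2)).trans (o _ (mp h0).2)

theorem lb_dc {N : Type} [NormedAddCommGroup N] [NormedSpace ℝ N] {f : Y.M × ℝ → N}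
    (hf : ∀ x ∈ hZ Y T, SA (IC Y.I) f x) (h : Dc D.F T d f) (hd : 0 < d) (k : ℕ) :
    ∃ C, 0 ≤ C ∧ ∀ t ≥ T, Lb D.Z.toPre (hZ Y t) k f (C * exp (-d * t)) := by
  choose C hC using h
  obtain ⟨A, hA⟩ := ((List.finite_length_le (Option κ) k).image C).bddAbove
  refine ⟨|A|, abs_nonneg _, fun t ht => Lb.of_Dw (fun x hx => hf x ⟨trivial, ht.trans_lt hx.2⟩)
    fun w hw x hx => (hC w x ⟨trivial, ht.trans_lt hx.2⟩).trans ?_⟩
  exact mul_le_mul ((hA (mem_image_of_mem C hw)).trans (le_abs_self A))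
    (exp_le_exp.2 (by nlinarith [mem_Ioi.1 hx.2])) (exp_pos _).le (abs_nonneg _)

theorem c1_pm {x : Y.M × ℝ} (hx : x ∈ K.ψ.source) (a : M → R208.F.Ext E) :
    c1 D.Z (Dr59.pm (IC Y.I) I K.ψ a) x = c1 G.F a (K.ψ x) := Map77.fm_ext fun i => by
  change R208.F.evA _ 1 (R208.F.pb _ _) _ = R208.F.evA _ 1 _ _
  rw [R208.F.evA_pb]
  congr 1
  funext j; fin_cases j; exact K.rel.e i x hx

variable {θ : Y.M → Circle} {ϖ : Y.M → Rf65.V3} {ξ : M → c.m.A} {ξ₀ : Y.M → β.m.A} {h : ℝ}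
  {a : M → R208.F.Ext E}

theorem lim_cl (P : Rf65.PR D.F θ ϖ) (A : Ab B G S c ξ) (C : Ctr D β ξ₀) (s : Sd K c ξ β ξ₀ T)
    (k : K.tm ⁻¹' Ioi T ⊆ S) (hd : 0 < d) (N : Nf D θ T d h (Dr59.pm (IC Y.I) I K.ψ a))
    (ζ : Circle) : ∃ v, ∀ j, ∃ Q, ∀ t ≥ T, Cl D.Z (K.pb (ada G.F c ξ a)) (cy (bs D θ β ξ₀ h)) v
      (fun _ => ζ) (hZ Y t) j (Q * exp (-d * t)) := by
  obtain ⟨u, p, e⟩ := s.ex
  obtain ⟨φ, b, h1, h2, -, h3, h4⟩ := N.ex
  have mp := nk_maps s.sub k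
  have a' := (admOn_univ.2 C.adm.adm).mono (subset_univ (hZ Y T))
  have hφ : ∀ x ∈ hZ Y T, SA (IC Y.I) φ x := fun x hx => h1.contMDiffAt ((op_h T).mem_nhds hx)
  refine ⟨fun y => gx (cy β).m (fun q => ξ₀ q.1) φ y ∘L u y, fun j => ?_⟩
  obtain ⟨Q, q0, hQ⟩ := lb_dc (fun x hx => ((PiLp.continuousLinearEquiv 2 ℝ
    fun _ : Option κ => ℝ).symm.contDiff.contMDiff _).comp x (contMDiffAt_pi_space.2 fun i =>
      Num57.sa_k1 D.Z (h2 x hx) i)) h4 hd j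
  obtain ⟨Q', hQ'⟩ : BB D.Z.toPre ⊤ (fun _ : Unit => univ) j fun _ x => opL (ξ₀ x.1) :=
    BB.clm opL (BB.fst (F := D.F.toPre) (.of_forall fun _ => isOpen_univ) j
      fun y => sm_slice (t := 0) (C.red.sm (y, 0)))
  refine ⟨2 ^ j * Q * |Q'|, fun t ht => ?_⟩
  have o := op_h (Y := Y) t
  have w : hZ Y t ⊆ hZ Y T := prod_mono_right (Ioi_subset_Ioi ht)
  refine ⟨o, (p.iso.trans (iso_gx a'.ok (C.red.on _) hφ)).mono w, fun i =>
    ((Lb.smul o (((hQ t ht).clm o (-EuclideanSpace.proj i)).mono (mul_le_of_le_one_left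
      (by positivity) (ContinuousLinearMap.opNorm_le_bound _ zero_le_one fun v => by
        simpa using PiLp.norm_apply_le v i))) (hQ'.exists.choose_spec.2.sub (subset_univ _))).mono
      (le_of_eq ?_)).congr o fun x hx => ?_,
    ((Lb.const o 0).mono (by rw [norm_zero]; positivity)).congr o fun x hx => ?_⟩
  · rw [abs_of_nonneg (by positivity)]; ring
  · refine (dA_gx (c := K.pb c) (c' := cy β) (ξ := fun x => ξ (K.ψ x)) a' p (C.red.on _) hφ (w hx)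
      (A.rd.mem _ (mp (w hx)).2) (e x (w hx)) (fun x => c1 G.F a (K.ψ x))
      (fun x => h • c1 D.Z (aZ θ) (x.1, 0)) i).trans ?_
    have e1 : c1 D.Z (Dr59.pm (IC Y.I) I K.ψ a) x = c1 D.Z (h • aZ θ + Dr59.df (IC Y.I) φ + b) x := by
      unfold c1 Num57.k1; rw [h3 (w hx)]
    rw [← c1_pm (mp (w hx)).1, e1, c1_add, c1_add, c1_smul]
    simp only [Pi.add_apply, Pi.smul_apply, PiLp.add_apply, PiLp.smul_apply, c1_df, c1_aZ P]
    congr 1
    change D.Z.D i φ x + _ - _ = -c1 D.Z b x i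
    ring
  · rw [dP, show (K.pb (ada G.F c ξ a)).Φ x = 0 from (add_zero _).trans (A.z _ (mp (w hx)).2),
      show (cy (bs D θ β ξ₀ h)).Φ x = 0 from (add_zero _).trans (C.fz.Φ x trivial), map_zero]
    simp [cs]

/-- **LIM** -/
theorem lim : LimStmt D I M := fun r B G K Ω c hD hB hG A => by
  refine ⟨fun θ ϖ ξ β ξ₀ T d h a ζ P h1 C s k h0 hd _ N => ?_,
    fun r' c' u β β' ζ ζ' T A' hβ hβ' hT p z ⟨w, L⟩ ⟨w', L'⟩ => ?_⟩
  · obtain ⟨v, hv⟩ := lim_cl P h1 C s k hd N ζ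
    have cls : ∀ {J j η}, IsOpen J → J ⊆ Ioi T → Cl D.Z (K.pb (ada G.F c ξ a)) (cy (bs D θ β ξ₀ h))
        v (fun _ => ζ) (univ ×ˢ J) j η → D.Cls (K.pb (ada G.F c ξ a)) (bs D θ β ξ₀ h) v ζ J j η :=
      fun o hJ H => ⟨o, H.iso.mEq (adm_pb A (hJ.trans s.sub)).ok (OK.on C.adm.adm.ok _),
        fun a => (H.A a).Dw, H.P.Dw⟩
    have sm : ∀ j, ∀ η > 0, ∃ t ≥ T + 1,
        D.Cls (K.pb (ada G.F c ξ a)) (bs D θ β ξ₀ h) v ζ (Ioi t) j η := fun j η hη => by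
      obtain ⟨Q, hQ⟩ := hv j
      have : Tendsto (fun t => Q * exp (-d * t)) atTop (𝓝 0) := by
        simpa using (tendsto_exp_atBot.comp
          (tendsto_id.const_mul_atTop_of_neg (neg_lt_zero.2 hd))).const_mul Q
      obtain ⟨t, t1, t2⟩ := ((this.eventually_le_const hη).and (eventually_ge_atTop (T + 1))).exists
      exact ⟨t, t2, cls isOpen_Ioi (Ioi_subset_Ioi (by linarith))
        ((hQ t (by linarith)).mono (op_h t) Subset.rfl le_rfl t1)⟩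
    have sub : ∀ t ≥ T + 1, Ioi t ⊆ K.J := fun t ht => (Ioi_subset_Ioi (by linarith)).trans s.sub
    obtain ⟨t, t1, t2⟩ := sm 0 1 one_pos
    refine ⟨⟨v, _, Ioi_mem_atTop t, sub t t1, t2, fun j => ?_⟩, v, fun j η hη =>
      let ⟨t, t1, t2⟩ := sm j η hη; ⟨_, Ioi_mem_atTop t, sub t t1, t2⟩⟩
    obtain ⟨Q, hQ⟩ := hv j
    refine ⟨Q * exp d, fun q hq => ?_⟩
    have q1 : t < q := hq ⟨by linarith, by linarith⟩
    refine cls isOpen_Ioo (hq.trans (Ioi_subset_Ioi (by linarith))) ((hQ (q - 1) (by linarith)).mono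
      (win_op q 1) (prod_mono_right Ioo_subset_Ioi_self) le_rfl (le_of_eq ?_))
    rw [abs_of_pos (by linarith), mul_assoc, ← exp_add]
    congr 2
    ring
  · have q := pi_pb p hT Subset.rfl
    obtain ⟨g, hg⟩ := stb_of_eta hβ hβ' one_pos (ξ := ζ) (ξ' := ζ') fun η hη => by
      obtain ⟨s, ⟨s1, s3⟩, s2⟩ := (((cn_of_lim hβ isEnd_top (adm_pb A Subset.rfl) L hη 1).and
        (cn_of_lim hβ' isEnd_top (adm_pb A' Subset.rfl) L' hη 1)).and
          (isEnd_top.ev (Ioi_mem_atTop T) 1)).exists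
      have e : win Y.M s 1 ⊆ univ ×ˢ Ioi T := prod_mono_right (Ioo_subset_Icc_self.trans s2)
      exact ⟨r, K.pb c, s, w, _, ζ, ζ', (adm_pb A hT).mono e, s1, cl_pi s3 (q.mono e)
        fun x hx => z _ (nk_maps hT Subset.rfl (e hx)).2, by simpa using hη.le, by simpa using hη.le⟩
    exact hg.eqv hD hβ hβ'

end Crest.Agent.X212.Sep15.Qa
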