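import Crest.Agent.X212.Qab60.End
import Crest.Agent.X212.Qab60.As
import Crest.Agent.X212.Qd40.Dec
import Crest.Agent.X212.Weil93.Main

/-! X212 / LENS (helper15): anti-self-dual forms on a piece with one end and `b₂ = b⁻ = 1`. -/

set_option autoImplicit false
set_option linter.unusedSectionVars false
set_option maxHeartbeats 200000
noncomputable section
open scoped Manifold ContDiff Topology Real
open Set Function Filter
open Crest.Agent.R208.F (Ext)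

namespace Crest.Agent.X212.Sep15.Cls
open An Nd18 Num57 Cyf70 Qab60
open M (Mf)
open Dr59 (dM df pm Ex Cl Cs HZ)
open Int54 (integ integ_smul)

variable {Y : Mf 3} [CompactSpace Y.M] {κ : Type} [Fintype κ] {lam : Type} [Fintype lam]
  {D : YD Y.I Y.M κ lam}
  {E : Type} [NormedAddCommGroup E] [NormedSpace ℝ E] [FiniteDimensional ℝ E]
  [MeasurableSpace E] [BorelSpace E]
  {HM : Type} [TopologicalSpace HM] {I : ModelWithCorners ℝ E HM} [I.Boundaryless]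
  {M : Type} [TopologicalSpace M] [ChartedSpace HM M] [IsManifold I ∞ M] [T2Space M]
  [MeasurableSpace M] [BorelSpace M] [SecondCountableTopology M]
  {B : Base M (Option κ) lam} {G : Geo I M (Option κ) lam} {K : Nk D B G} {Ω : Set M}
  {w f f' α α' : M → Ext E} {t Q : ℝ}

theorem sq_smul (O w : M → Ext E) (t : ℝ) :
    integ I O ((t • w) * (t • w)) = t ^ 2 * integ I O (w * w) := by
  rw [smul_mul_smul_comm, integ_smul, sq]

theorem pc (h : Qab60.En K Ω) (cs : Cs I 2 Ω w) (sp : ∀ f, Cl I 2 Ω f → ∃ t : ℝ, Ex I Ω (f - t • w))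
    (hq : integ I (vol G.F B.o) (w * w) < 0) : Pc G.F B.o Ω :=
  ⟨h.tam, h.cl, h.bd, Neg.of_span (ori h.tam.ok) h.cl (κ := Unit) (κ' := Empty) (η := 0) (ψ := 0)
    (fun _ => cs) (fun j => j.elim) (fun j => j.elim) (fun j => j.elim) (fun j => j.elim)
    (fun c hc => by
      rw [Fintype.sum_unique, sq_smul]
      exact mul_neg_of_pos_of_neg (sq_pos_of_ne_zero fun e => hc (funext fun _ => e)) hq)
    fun f hf =>
      let ⟨t, ht⟩ := sp f ((hf.fo.cl hf.cl).mono (subset_univ _))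
      ⟨fun _ => t, 0, by simpa using ht⟩⟩

theorem sq_d (cs : Cs I 2 Ω w) (hf : Sq G.F f) (e : f = t • w + dM I α) : Sq G.F (dM I α) := by
  rw [← sub_eq_iff_eq_add'.2 e]
  exact hf.sub (sq_of_hcs ((cz_of_cs cs).smul t).fo.sm (cs.smul t).hc)

theorem rep (p : Pc G.F B.o Ω) (cs : Cs I 2 Ω w)
    (sp : ∀ f, Cl I 2 Ω f → ∃ t : ℝ, Ex I Ω (f - t • w)) (hf : Qab60.Cz I Ω f) (hq : Sq G.F f) :
    ∃ (t : ℝ) (α : M → Ext E), Fo I 1 α ∧ Off Ω α ∧ f = t • w + dM I α ∧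
      integ I (vol G.F B.o) (f * f) = t ^ 2 * integ I (vol G.F B.o) (w * w) := by
  obtain ⟨t, ht⟩ := sp f ((hf.fo.cl hf.cl).mono (subset_univ _))
  have z := (cz_of_cs cs).smul t
  obtain ⟨α, h1, h2, h3⟩ := (hf.sub z).ex p.cl ht
  have e := sub_eq_iff_eq_add'.1 h3
  exact ⟨t, α, h1, h2, e, by
    rw [← sq_smul, ← p.integ_sq z (cs.smul t).hc h1 h2 (sq_d cs hq e), ← e]⟩

theorem uq (p : Pc G.F B.o Ω) (cs : Cs I 2 Ω w) (hq : Sq G.F f) (hq' : Sq G.F f')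
    (k : ∀ x ∈ Ω, hs G.F B.o x (c2 G.F f x) = 0) (k' : ∀ x ∈ Ω, hs G.F B.o x (c2 G.F f' x) = 0)
    (h1 : Fo I 1 α) (h2 : Off Ω α) (e : f = t • w + dM I α) (h1' : Fo I 1 α') (h2' : Off Ω α')
    (e' : f' = t • w + dM I α') : f' = f := by
  have z := (cz_of_cs cs).smul t
  rw [e, e', p.as_uniq (T := 0) (Tf := fun _ => 0) (N := 0) (n := 0)
    ⟨wo_zero, fun u => map_zero _, rp_zero⟩ (by simp) z (sq_of_hcs z.fo.sm (cs.smul t).hc)
    ⟨h1, h2, sq_d cs hq e, e ▸ k⟩ ⟨h1', h2', sq_d cs hq' e', e' ▸ k'⟩]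

/-- a potential which decays -/
theorem dec (h : Qab60.En K Ω) (hz : HZ Y.I 1 (univ : Set Y.M)) (h1 : Fo I 1 α) (h2 : Off Ω α)
    (hq : Sq G.F (dM I α)) (k : ∀ x, 0 < K.tm x → hs G.F B.o x (c2 G.F (dM I α) x) = 0) :
    ∃ (T d : ℝ) (a : M → Ext E), 0 ≤ T ∧ 0 < d ∧ Fo I 1 a ∧ Off Ω a ∧ dM I a = dM I α ∧
      Dc D.F T d (c1 D.Z (pm (IC Y.I) I K.ψ a)) := by
  have op : ∀ T, IsOpen (hZ Y T) := fun T => isOpen_univ.prod isOpen_Ioi
  obtain ⟨d, hd, dec⟩ := Qd40.decStmt D h.hD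
  have A := h.asd le_rfl h1 hq k
  have sub : hZ Y (0 + 1) ⊆ hZ Y 0 := prod_mono_right (Ioi_subset_Ioi (by linarith))
  have as := A.sm.mono sub
  have ad := A.dg.mono sub
  obtain ⟨b, b1, b2, b3, b4⟩ := Qd40.tailStmt D.F (0 + 1) d _ hd
    ⟨fun x hx => (as x hx).dM, ad.dM (op _), fun x hx => (as x hx).dd⟩ (dec 0 _ A)
  obtain ⟨φ, hφ⟩ := Weil93.exists_df (op (0 + 1)) (hz.prod_convex isOpen_univ isOpen_Ioi
    (convex_Ioi _) (pm (IC Y.I) I K.ψ α - b) ⟨as.sub b1, ad.sub b2, fun x hx => by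
      rw [Dr59.dM_sub Dr59.ne0 (as x hx) (b1 x hx), b3 hx, sub_self]⟩) (ad.sub b2)
  obtain ⟨χ, sχ, p, q, hp, c1', c0⟩ := exists_ct 1
  obtain ⟨g, hg⟩ : ∃ g : M → ℝ, g = fun x => (1 - χ (K.tm x)) * φ (K.ψ.symm x) := ⟨_, rfl⟩
  have z : ∀ x, K.tm x < p → g =ᶠ[𝓝 x] fun _ => 0 := fun x hx =>
    mem_of_superset ((isOpen_lt K.cont continuous_const).mem_nhds hx) fun y (hy : _ < p) => by
      simp [hg, c1' _ hy.le]
  have sg : Sm I g := fun x => by
    rcases lt_or_ge (K.tm x) p with hx | hx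
    · exact contMDiffAt_const.congr_of_eventuallyEq (z x hx)
    · have h0 : 0 < K.tm x := by linarith
      rw [hg]
      exact (contMDiffAt_const.sub (sχ.contMDiff.contMDiffAt.comp x (h.sm_tm h0))).mul
        ((hφ _ ⟨trivial, (h.symm2 h0).symm ▸ mem_Ioi.2 (by linarith)⟩).1.comp x
          (K.iso.sm'.contMDiffAt (K.ψ.open_target.mem_nhds (h.tgt h0))))
  have s2 : hZ Y (max q 1) ⊆ hZ Y (0 + 1) := prod_mono_right (Ioi_subset_Ioi (by simp))
  have e : ∀ x ∈ hZ Y (max q 1), c1 D.Z (pm (IC Y.I) I K.ψ (α - df I g)) x = c1 D.Z b x :=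
    fun x hx => by
      have h0 : 0 < x.2 := (sub (s2 hx)).2
      have : pm (IC Y.I) I K.ψ (α - df I g) x = b x := by
        rw [Dr59.pm_sub, Pi.sub_apply, Dr59.pm_df ((h.smψ h0).mdifferentiableAt (by simp))
          ((sg _).mdifferentiableAt (by simp)), df, Dr59.mf_congr (g := φ) ?_, ← df,
          (hφ x (s2 hx)).2, Pi.sub_apply, sub_sub_cancel]
        filter_upwards [(op _).mem_nhds hx] with y hy
        have k0 : 0 < y.2 := (sub (s2 hy)).2
        simp [hg, h.tm k0, K.ψ.left_inv (h.src k0), c0 _ ((le_max_left _ _).trans (le_of_lt hy.2))]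
      unfold Qab60.c1 k1; rw [this]
  refine ⟨max q 1, d, α - df I g, zero_le_one.trans (le_max_right _ _), hd, h1.sub (fo_df sg),
    h2.sub fun x hx => Dr59.df_eq_zero (z x (lt_of_not_ge fun k => hx (h.mem (by linarith)))),
    by rw [h1.d_sub (fo_df sg), d_df sg, sub_zero], fun v => (b4 v).imp fun C hC x hx => ?_⟩
  rw [(Pj41.FRel.refl D.Z isOpen_univ).Dw (mem_univ x) v (u' := c1 D.Z b)
    (mem_of_superset ((op _).mem_nhds hx) e)]
  exact hC x (s2 hx)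

end Crest.Agent.X212.Sep15.Cls
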