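import Crest.Agent.X212.Lix26.Defs
import Crest.Agent.X212.Sep15.ClsA
import Crest.Agent.X212.Dgr80.Lima
import Crest.Agent.X212.Lns95.Cj
import Crest.Agent.X212.Qa50.Add

/-! X212 / LIX (helper15): the leaf AS. -/

set_option autoImplicit false
set_option linter.unusedSectionVars false
set_option maxHeartbeats 200000
noncomputable section
open scoped Manifold ContDiff Topology Real InnerProductSpace
open Set Function Filter MeasureTheory
open Crest.Agent.R208.F (Ext)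

namespace Crest.Agent.X212.Sep15.Lx
open An Nd18 Num57 Cyf70 Qab60 Lns95
open M (Mf)
open Dr59 (dM df pm HZ)
open Abel74 (fm RedOn)
open Neck67 (Lb)

variable {Y : Mf 3} [CompactSpace Y.M] {κ : Type} [Fintype κ] {lam : Type} [Fintype lam]
  {D : YD Y.I Y.M κ lam}
  {E : Type} [NormedAddCommGroup E] [NormedSpace ℝ E] [FiniteDimensional ℝ E]
  [MeasurableSpace E] [BorelSpace E]
  {HM : Type} [TopologicalSpace HM] {I : ModelWithCorners ℝ E HM} [I.Boundaryless]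
  {M : Type} [TopologicalSpace M] [ChartedSpace HM M] [IsManifold I ∞ M] [T2Space M]
  [MeasurableSpace M] [BorelSpace M] [SecondCountableTopology M]
  {B : Base M (Option κ) lam} {G : Geo I M (Option κ) lam} {K : Nk D B G} {Ω : Set M}
  {α a : M → Ext E} {d T : ℝ} {r : ℕ} {c : Cfg M (Option κ) lam r} {ξ : M → c.m.A}

/-- a potential which decays at a given rate -/
theorem dec (h : Qab60.En K Ω) (hz : HZ Y.I 1 (univ : Set Y.M)) (hd : 0 < d)
    (dec : ∀ T a, Asd D T a → Dc D.F (T + 1) d (c2 D.Z (dM (IC Y.I) a)))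
    (h1 : Fo I 1 α) (h2 : Off Ω α)
    (hq : Sq G.F (dM I α)) (k : ∀ x, 0 < K.tm x → hs G.F B.o x (c2 G.F (dM I α) x) = 0) :
    ∃ (T : ℝ) (a : M → Ext E), 0 ≤ T ∧ Fo I 1 a ∧ Off Ω a ∧ dM I a = dM I α ∧
      Dc D.F T d (c1 D.Z (pm (IC Y.I) I K.ψ a)) := by
  have op : ∀ T, IsOpen (hZ Y T) := fun T => isOpen_univ.prod isOpen_Ioi
  have A := h.asd le_rfl h1 hq k
  have sub : hZ Y (0 + 1) ⊆ hZ Y 0 := prod_mono_right (Ioi_subset_Ioi (by linarith))
  have as := A.sm.mono sub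
  have ad := A.dg.mono sub
  obtain ⟨b, b1, b2, b3, b4⟩ := Qd40.tailStmt D.F (0 + 1) d _ hd
    ⟨fun x hx => (as x hx).dM, ad.dM (op _), fun x hx => (as x hx).dd⟩ (dec 0 _ A)
  obtain ⟨φ, hφ⟩ := Weil93.exists_df (op (0 + 1)) (hz.prod_convex isOpen_univ isOpen_Ioi
    (convex_Ioi _) (pm (IC Y.I) I K.ψ α - b) ⟨as.sub b1, ad.sub b2, fun x hx => by
      rw [Dr59.dM_sub Dr59.ne0 (as x hx) (b1 x hx), b3 hx, sub_self]⟩) (ad.sub b2)
  obtain ⟨χ, sχ, p, q, hp, c1', c0⟩ := exists_ct 1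
  obtain ⟨g, hg⟩ : ∃ g : M → ℝ, g = fun x => (1 - χ (K.tm x)) * φ (K.ψ.symm x) := ⟨_, rfl⟩
  have z : ∀ x, K.tm x < p → g =ᶠ[𝓝 x] fun _ => 0 := fun x hx =>
    mem_of_superset ((isOpen_lt K.cont continuous_const).mem_nhds hx) fun y (hy : _ < p) => by
      simp [hg, c1' _ hy.le]
  have sg : Sm I g := fun x => by
    rcases lt_or_ge (K.tm x) p with hx | hx
    · exact contMDiffAt_const.congr_of_eventuallyEq (z x hx)
    · have h0 : 0 < K.tm x := by linarith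
      rw [hg]
      exact (contMDiffAt_const.sub (sχ.contMDiff.contMDiffAt.comp x (h.sm_tm h0))).mul
        ((hφ _ ⟨trivial, (h.symm2 h0).symm ▸ mem_Ioi.2 (by linarith)⟩).1.comp x
          (K.iso.sm'.contMDiffAt (K.ψ.open_target.mem_nhds (h.tgt h0))))
  have s2 : hZ Y (max q 1) ⊆ hZ Y (0 + 1) := prod_mono_right (Ioi_subset_Ioi (by simp))
  have e : ∀ x ∈ hZ Y (max q 1), c1 D.Z (pm (IC Y.I) I K.ψ (α - df I g)) x = c1 D.Z b x :=
    fun x hx => by
      have h0 : 0 < x.2 := (sub (s2 hx)).2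
      have : pm (IC Y.I) I K.ψ (α - df I g) x = b x := by
        rw [Dr59.pm_sub, Pi.sub_apply, Dr59.pm_df ((h.smψ h0).mdifferentiableAt (by simp))
          ((sg _).mdifferentiableAt (by simp)), df, Dr59.mf_congr (g := φ) ?_, ← df,
          (hφ x (s2 hx)).2, Pi.sub_apply, sub_sub_cancel]
        filter_upwards [(op _).mem_nhds hx] with y hy
        have k0 : 0 < y.2 := (sub (s2 hy)).2
        simp [hg, h.tm k0, K.ψ.left_inv (h.src k0), c0 _ ((le_max_left _ _).trans (le_of_lt hy.2))]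
      unfold Qab60.c1 k1; rw [this]
  refine ⟨max q 1, α - df I g, zero_le_one.trans (le_max_right _ _), h1.sub (fo_df sg),
    h2.sub fun x hx => Dr59.df_eq_zero (z x (lt_of_not_ge fun k => hx (h.mem (by linarith)))),
    by rw [h1.d_sub (fo_df sg), d_df sg, sub_zero], fun v => (b4 v).imp fun C hC x hx => ?_⟩
  rw [(Pj41.FRel.refl D.Z isOpen_univ).Dw (mem_univ x) v (u' := c1 D.Z b)
    (mem_of_superset ((op _).mem_nhds hx) e)]
  exact hC x (s2 hx)

/-- a decaying one-form added to a standard end -/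
theorem elim_ada {β : YC Y.M κ lam} {ζ : Circle} (A : c.Adm B G) (hβ : D.Adm β)
    (R : RedOn G.F c.m c.W (K.tm ⁻¹' Ioi T) ξ) (h0 : 0 ≤ T) (d0 : 0 < d) (ha : Fo I 1 a)
    (hd : Dc D.F T d (c1 D.Z (pm (IC Y.I) I K.ψ a))) (H : K.Std c.con β ζ atTop) :
    K.ELim d (ada G.F c ξ a).con β ζ atTop := by
  obtain ⟨u, S, hS, SJ, cl⟩ := H
  have A₀ : c.con.Adm B G := ⟨A.ok, A.conn, contMDiff_const, fun _ => map_zero _, .inl rfl⟩
  have key : ∀ k, ∃ Q, ∀ t ≥ T, ∀ S', IsOpen S' → S' ⊆ S ∩ Ioi t →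
      D.Cls (K.pb (ada G.F c ξ a).con) β u ζ S' k (Q * Real.exp (-d * t)) := fun k => by
    obtain ⟨C, hC⟩ := Dgr80.lb_eta K A₀ hβ k
    choose Ca hCa using hd
    obtain ⟨C', hC'⟩ := ((List.finite_length_le (Option κ) k).image Ca).bddAbove
    refine ⟨2 ^ k * |C'| * |C|, fun t ht S' o1 hs => ?_⟩
    have o : IsOpen ((univ : Set Y.M) ×ˢ S') := isOpen_univ.prod o1
    have sub : (univ : Set Y.M) ×ˢ S' ⊆ univ ×ˢ S := prod_mono_right fun _ h => (hs h).1
    have src : ∀ {x : Y.M × ℝ}, x ∈ univ ×ˢ S' → x ∈ K.ψ.source := fun hx =>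
      K.mem_src.2 (SJ (hs hx.2).1)
    have m : MEq (IC Y.I) (K.pb c.con).m (cy β).m (univ ×ˢ S') id (fun x b a => D.B.P b a x)
        D.B.l u := ⟨cl.m.su.mono sub, fun x hx => cl.m.uu x (sub hx), fun x hx => cl.m.uu' x (sub hx),
      fun x hx => cl.m.J x (sub hx), fun x hx => cl.m.ρ x (sub hx), fun x hx => cl.m.j x (sub hx)⟩
    have zA : ∀ i, Lb D.Z.toPre (univ ×ˢ S') k (D.dA (K.pb c.con) β u i) 0 := fun i =>
      ((Lb.const o 0).mono norm_zero.le).congr o fun x hx =>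
        norm_le_zero_iff.1 (cl.A i [] le_rfl x (sub hx))
    have zP : Lb D.Z.toPre (univ ×ˢ S') k (YD.dP (K.pb c.con) β u ζ) 0 :=
      ((Lb.const o 0).mono norm_zero.le).congr o fun x hx =>
        norm_le_zero_iff.1 (cl.P [] le_rfl x (sub hx))
    obtain ⟨-, l2⟩ := hC ξ u ζ S' (fun _ h => SJ (hs h).1) ⟨o1, m,
      fun i => ((zA i).mono zero_le_one).Dw, (zP.mono zero_le_one).Dw⟩
      (R.mono fun x hx => ht.trans_lt (hs hx).2)
    have la : Lb D.Z.toPre (univ ×ˢ S') k (fun x => Qab60.c1 G.F a (K.ψ x))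
        (|C'| * Real.exp (-d * t)) := by
      have e := fun x (hx : x ∈ univ ×ˢ S') => Dgr80.c1_nk K (src hx) a
      refine Lb.congr o (.of_Dw (fun x hx => (K.rel.sm (src hx) (sm_c1 ha.sm _)).congr_of_eventuallyEq
        ((o.eventually_mem hx).mono e)) fun w hw x hx => (hCa w x ⟨trivial, ht.trans_lt (hs hx.2).2⟩).trans
          (mul_le_mul ((hC' ⟨w, hw, rfl⟩).trans (le_abs_self _)) (Real.exp_le_exp.2
            (mul_le_mul_of_nonpos_left (hs hx.2).2.le (neg_nonpos.2 d0.le))) (Real.exp_pos _).le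
            (abs_nonneg _))) fun x hx => (e x hx).symm
    refine ⟨o1, m, fun i => Lb.Dw ?_, (zP.mono (by positivity)).Dw⟩
    have lb := ((la.clm o (Map77.pj ℝ i)).mono (mul_le_of_le_one_left (by positivity)
      (Dgr80.norm_pj_le i))).smul o l2
    refine (((zA i).sub' o lb).congr o fun x _ => Dgr80.dA_alg (map_smul opL _ _)).mono (le_of_eq ?_)
    rw [abs_of_nonneg (by positivity), abs_of_nonneg (by positivity)]
    ring
  obtain ⟨Q, hQ⟩ := key 0
  have : Tendsto (fun t => Q * Real.exp (-d * t)) atTop (𝓝 0) := by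
    simpa using (Real.tendsto_exp_atBot.comp
      (tendsto_id.const_mul_atTop_of_neg (neg_lt_zero.2 d0))).const_mul Q
  obtain ⟨t, t1, t2⟩ := ((this.eventually_le_const one_pos).and (eventually_ge_atTop (T + 1))).exists
  have k0 := hQ t (by linarith) _ (cl.op.inter isOpen_Ioi) Subset.rfl
  refine ⟨u, S ∩ Ioi t, inter_mem hS (Ioi_mem_atTop t), fun _ h => SJ h.1, ⟨k0.op, k0.m,
    fun i w hw x hx => (k0.A i w hw x hx).trans t1, fun w hw x hx => (k0.P w hw x hx).trans t1⟩,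
    fun j => ?_⟩
  obtain ⟨Q, hQ⟩ := key j
  refine ⟨Q * Real.exp d, fun s hs => ?_⟩
  have q1 : t < s := (hs ⟨by linarith, by linarith⟩).2
  have := hQ (s - 1) (by linarith) _ isOpen_Ioo fun x hx => ⟨(hs hx).1, hx.1⟩
  rwa [abs_of_pos (by linarith), mul_assoc, ← Real.exp_add, show d + -d * s = -d * (s - 1) by ring]

/-- an anti-self-dual abelian point -/
theorem asd_ab {w f : M → Ext E} (h : Ins K Ω w) (A : Ab B G Ω c ξ) (e : fm G.F c.m c.W ξ = f)
    (q : Sq G.F f) (k : ∀ x ∈ Ω, hs G.F B.o x (c2 G.F f x) = 0) :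
    (∀ x ∈ Ω, c.m.p2 B x (c.m.Fg G.F c.W x) = 0) ∧
    IntegrableOn (fun x => ‖c.m.Fg G.F c.W x‖ ^ 2) Ω G.F.μ ∧
    IntegrableOn (c.m.kd B G.F c.W) Ω G.F.μ ∧
    ∫ x in Ω, c.m.kd B G.F c.W x ∂G.F.μ = -(4 * π ^ 2)⁻¹ * Int54.integ I (vol G.F B.o) (f * f) := by
  subst e
  obtain ⟨-, b, z, -⟩ := Qa50.addStmt I M _ lam r B G Ω c ξ h.hB h.hG h.cl A
  have kd : EqOn (c.m.kd B G.F c.W) _ Ω := fun x hx => kd_ab h.hB h.hG A hx
  have ms := h.cl.isOpen.measurableSet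
  have i := ((memLp_two_iff_integrable_sq_norm
    (sm_c2 (F := G.F) z.fo.sm).continuous.aestronglyMeasurable).1 q).integrableOn (s := Ω)
  refine ⟨fun x hx => ?_, IntegrableOn.congr_fun (i.const_mul 16) (fun x hx => ?_) ms,
    IntegrableOn.congr_fun (i.const_mul (8 * π ^ 2)⁻¹) (fun x hx => ?_) ms, ?_⟩
  · have := (b x hx).1
    rw [A.z x hx, k x hx, show c.m.mu B x 0 0 = 0 by
      simp [Md.mu, ← Wz78.qL_apply, WithLp.toLp_zero, Pi.zero_def.symm], sub_zero] at this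
    exact this.trans (PiLp.ext fun s => zero_smul _ _)
  · simp only [PiLp.norm_sq_eq_of_L2, A.rd.Fg_eq h.hB h.hG A.adm.ok A.adm.conn hx, Qab60.c2,
      Abel74.k2_fm h.hG A.adm.conn, norm_smul, mul_pow, Finset.sum_mul,
      Abel74.norm_sq A.adm.ok (A.rd.mem x hx) (A.rd.sq x hx), mul_comm (16 : ℝ)]
  · rw [kd hx]
    simp only [inner_st h.tam.ok, norm_c2_sq h.tam.ok, k x hx]
    simp
  · rw [setIntegral_congr_fun ms kd, integral_const_mul, integ_mul h.tam.ok z.fo.dg,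
      setIntegral_eq_integral_of_forall_compl_eq_zero fun x hx => by
        rw [c2_of_zero (z.off x hx), inner_zero_left]]
    field_simp
    ring

variable (I M) in
/-- **LEAF AS** -/
theorem as_ : Lix26.AsStmt I M D := fun hD => by
  obtain ⟨d, hd, dc⟩ := Qd40.decStmt D hD
  refine ⟨d, hd, fun r B G K Ω w c ξ t β h A e hβ H => ?_⟩
  have en : Qab60.En K Ω := ⟨h.hD, Qd40.volY h.hD.G.vol, h.tam, h.hG, h.one⟩
  have p := Cls.pc en h.cs h.span (by rw [h.sq, neg_lt_zero]; positivity)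
  have z := (cz_of_cs h.cs).smul t
  have q0 : Sq G.F (t • w) := sq_of_hcs z.fo.sm (h.cs.smul t).hc
  obtain ⟨a1, -, a3, -⟩ := Qa50.addStmt I M _ lam r B G Ω c ξ h.hB h.hG h.cl A
  have e' : fm G.F c.m c.W ξ = t • w := funext fun x =>
    (_root_.em (x ∈ Ω)).elim (fun hx => e hx) fun hx => (a3.off x hx).trans (z.off x hx).symm
  obtain ⟨α, h1, h2, h3, h4⟩ := p.exists_as (T := 0) (Tf := fun _ => 0) (N := 0) (n := 0)
    ⟨wo_zero, fun u => map_zero _, rp_zero⟩ (by simp) z q0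
  obtain ⟨T, a, k1, k2, k3, k4, k5⟩ := dec en h.hz hd dc h1 h2 h3 fun x hx => by
    have := h4 x (en.mem hx)
    rwa [Qab60.c2_add, Pi.add_apply, c2_of_zero (w := t • w) (by
      rw [Pi.smul_apply, h.off x hx, smul_zero]), zero_add] at this
  obtain ⟨A', f'⟩ := a1 a k2 k3
  rw [e', k4] at f'
  obtain ⟨b1, b2, b3, b4⟩ := asd_ab (c := ada G.F c ξ a) h A' f' (q0.add h3) h4
  rw [p.integ_sq z (h.cs.smul t).hc h1 h2 h3, Cls.sq_smul, h.sq] at b4
  exact ⟨a, k2, k3, elim_ada A.adm hβ.adm (A.rd.toRedOn.mono fun x hx => en.mem (k1.trans_lt hx))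
    k1 hd k2 k5 H, b1, b2, b3, b4.trans (by field_simp)⟩

end Crest.Agent.X212.Sep15.Lx
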