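import Crest.Agent.X212.Sep15.Spl

/-! SPLIT (helper15): the terms of prisms on the face where `a` is broken. -/

set_option autoImplicit false
set_option linter.unusedSectionVars false
set_option maxHeartbeats 200000
noncomputable section
open scoped Manifold ContDiff Topology InnerProductSpace
open MeasureTheory Set Function Filter Classical

namespace Crest.Agent.X212.Sep15.Spl
open An An.Job M G75 Jb7 Ins26 Nd18

variable {κ lam : Type} [Fintype κ] [Fintype lam] [DecidableEq lam] {Lm : LM κ lam}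
  {y₀ : G75.YD κ lam} {S : Scene Lm} {t : TD y₀ S} {N : ND (yY y₀).M (lam ⊕ lam)} {n : ℕ}
  {D : S.Dat} (F : Pr t N n D)

/-- the terms of the left job -/
abbrev τL (m : ℕ) : TrS S F.Wi (m + 1) 0 := (trZ _).sum ((F.tL m).sum (trZ _))

/-- the terms of the right job -/
abbrev τR (i : S.L) (k : ℕ) : TrS S F.Wi 0 k := (trZ _).sum ((trZ _).sum ((F.tR i k).sum (trZ _)))

variable {F} {c : Cn S.L S.A} {d : ℕ} {i : S.L} {T : ℝ} {m : ℕ} {k : Fin (n + 1)}
  {s : S.A ⊕ Unit → ℝ}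

theorem tm_R (h : F.OK c d T) (hs : s (.inr ()) = 1) :
    TM (F.J c d i m k) (τR F i k) t.a true Fin.elim0 (Pr.eR k) univ s where
  inj := Fin.castLE_injective _
  tw w := by
    rcases w with w | w | w | ρ | w
    · exact .inr ⟨rfl, .inl (h.off i m k w s hs).1⟩
    · exact .inr ⟨rfl, .inr ⟨tm_mp (h.supL m w).1 _ _, rw_mp (fun j => j.elim0) _ _⟩⟩
    · exact .inl ⟨rfl, rfl, (h.supR i k w).1⟩
    · refine .inr ⟨rfl, (_root_.em ((k : ℕ) ≤ ρ)).symm.imp (fun e => if_neg e) fun e => ⟨trivial, ?_⟩⟩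
      rintro ⟨j, rfl⟩
      exact j.2.not_ge e
    · exact .inr ⟨rfl, .inl rfl⟩
  tc l _ w := by
    rcases w with w | w | w | ρ | w
    · exact .inr ⟨rfl, (h.off i m k w s hs).2 l⟩
    · exact .inr ⟨rfl, congrFun ((h.supL m w).2 l) s⟩
    · exact .inl ⟨rfl, rfl, (h.supR i k w).2 l⟩
    · exact .inr ⟨rfl, rfl⟩
    · exact .inr ⟨rfl, rfl⟩

theorem tm_L (h : F.OK c d T) (hs : s (.inr ()) = 1) :
    TM (F.J c d i m k) (τL F m) t.a false (Pr.eL m k) Fin.elim0 ∅ s where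
  inj j := j.elim0
  tw w := by
    have e : ∀ ρ : Fin n, ρ ∉ range (Fin.elim0 : Fin 0 → Fin n) := fun _ ⟨j, _⟩ => j.elim0
    rcases w with w | w | w | ρ | w
    · exact .inr ⟨rfl, .inl (h.off i m k w s hs).1⟩
    · exact .inl ⟨rfl, rfl, (h.supL m w).1⟩
    · exact .inr ⟨rfl, .inr ⟨tm_mp (h.supR i k w).1 _ _, rw_mp (fun _ => e _) _ _⟩⟩
    · exact .inr ⟨rfl, .inr ⟨trivial, e _⟩⟩
    · exact .inr ⟨rfl, .inl rfl⟩
  tc _ j := j.elim

variable {e : S.M.Cl}

variable (c d i m k) in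
/-- the right part -/
abbrev resR (y : (F.J c d i m k).Obc e) : (F.JR c i k).Obc e :=
  res 0 (τR F i k) t.a true Fin.elim0 y

variable (c d i m k) in
/-- the left part -/
abbrev resL (y : (F.J c d i m k).Obc e) : (F.JL c i m).Obc e :=
  res 0 (τL F m) t.a false (Pr.eL m k) y

variable {σ : Cel (S.A ⊕ Unit)} {q : F.Wi →₀ ℝ} {y : (F.J c d i m k).Obc e}
  {P : Set (Reg S.A)} (h : F.OK c d T) (hi : c i ≠ 0) (hσ : σ ∈ cls c i) (ha : t.a ∈ e.1)
  (hs : Sol σ q y)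
include h hi hσ ha hs

theorem one_of : y.s (.inr ()) = 1 := (h.J i hi m k).1.eq_one hσ hs.ov (a := .inr ()) rfl ha

/-- **the right part solves the right job** -/
theorem solR (hP : P ⊆ sdP t e true) (h0 : ∀ π ∈ sdP t e true, π ∉ P → ¬y.TF π) :
    SolOn ((F.JR c i k).prt (shS S) σ e P P y.H) σ q (resR c d i m k y) :=
  solOn (h.J i hi m k).1 (h.R i hi k).1 hσ ha hs (tm_R h (one_of h hi hσ ha hs)) hP subset_rfl h0
    (fun _ j => ⟨j.1, trivial⟩) (fun _ j => j.2) (.inl rfl)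

/-- **the left part solves the left job** -/
theorem solL (hP : P ⊆ sdP t e false) (h0 : ∀ π ∈ sdP t e false, π ∉ P → ¬y.TF π)
    (hz : ‖zf (Pr.eL m k) y.x.z‖ = 1) :
    SolOn ((F.JL c i m).prt (shS S) σ e P P ∅) σ q (resL c d i m k y) :=
  solOn (h.J i hi m k).1 (h.L i hi m).1 hσ ha hs (tm_L h (one_of h hi hσ ha hs)) hP subset_rfl h0
    (fun _ j => j.1.elim) (fun _ j => j.2) (.inr hz)

end Crest.Agent.X212.Sep15.Spl
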