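import Crest.Agent.X212.Sep15.Nst
import Crest.Agent.X212.Glw30.Main
import Crest.Agent.X212.Dg64.Lf

/-! X212 / GL-DG (helper15): the leaves `Ucp` and `Trf`. -/

set_option autoImplicit false
set_option linter.unusedSectionVars false
set_option maxHeartbeats 200000
noncomputable section
open scoped Manifold ContDiff Topology
open Set Function Filter

namespace Crest.Agent.X212.Sep15.Trf
open An An.Job M Nd18 Pj41 Cmp73 Sob92 Gj67 Glw30
open Loc66 (VCv)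
open Met55 (VF)
open Eqv71 (Ad0 ad0 csL cs_mul map_cs)

section gen
variable {E : Type} [NormedAddCommGroup E] [NormedSpace ℝ E] [FiniteDimensional ℝ E]
  [MeasurableSpace E] [BorelSpace E]
  {HM : Type} [TopologicalSpace HM] {I : ModelWithCorners ℝ E HM} [I.Boundaryless]
  {M : Type} [TopologicalSpace M] [ChartedSpace HM M] [IsManifold I ∞ M]
  [MeasurableSpace M] {ι lam : Type} [Fintype ι] [Fintype lam] {α : Type} {l : Filter α} {r : ℕ}
  {B : Base M ι lam} {e : α → ι → VF I M} {e₀ : ι → VF I M} {c : α → Cfg M ι lam r}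
  {c₀ c₁ : Cfg M ι lam r} {u : ∀ i, M → CL (c i).m.V c₀.m.V} {ζ : α → Circle}
  {v : M → CL c₀.m.V c₁.m.V} {ξ : Circle}

theorem cv_bot {N : Type} [NormedAddCommGroup N] [NormedSpace ℝ N] {O : Set M} {f : α → M → N}
    {g : M → N} : Cv I ⊥ O f g :=
  ⟨fun _ _ _ => ⟨0, by rw [bot_prod]; exact eventually_bot⟩, fun _ _ => tendsto_bot⟩

/-- **smooth local limits and exact isomorphisms** -/
theorem ulim_post (h : ULim I B l univ e c c₀ u ζ) (ok : ∀ᶠ i in l, (c i).m.OK I B)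
    (h₀ : c₀.m.OK I B) (h₁ : c₁.m.OK I B) (f : ∀ a, VCv l univ (fun i => e i a) (e₀ a))
    (k : CI e₀ c₀ c₁ v ξ) (s₀ : ∀ a, Sm I (c₀.W a)) (s₁ : ∀ a, Sm I (c₁.W a)) :
    ULim I B l univ e c c₁ (fun i x => v x ∘L u i x) fun i => ξ * ζ i := by
  rcases l.eq_or_neBot with rfl | _
  · exact ⟨fun x _ => ⟨_, isOpen_univ, trivial, eventually_bot⟩, fun _ => cv_bot, cv_bot, tendsto_bot⟩
  have w := (wl_iff ok h₀).1 (ulim_wlim h)
  have sv : Sm I v := fun x => k.m.su x trivial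
  have fv : Cv I l univ (fun _ => v) v := Cv.fixed' sv
  have fa : Cv I l univ (fun _ x => ad (v x)) fun x => ad (v x) := Cv.fixed' fun x => FSm.ad (sv x)
  refine ⟨fun x _ => ?_, fun a => ?_, ?_, k.z ▸ w.post_z ξ⟩
  · obtain ⟨N, h1, h2, h3⟩ := h.m x trivial
    exact ⟨N, h1, h2, (h3.and ok).mono fun i hi => ((Iso0.of_mEq h1 hi.1 (OK.on hi.2 _)
      (OK.on h₀ _)).trans (k.m.mono (subset_univ _))).mEq (OK.on hi.2 _) (OK.on h₁ _)⟩
  · refine ((((((f a).dv isOpen_univ fv).add ((Cv.fixed' (s₁ a)).clm_comp fv)).sub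
      (fv.clm_comp (Cv.fixed' (s₀ a)))).clm_comp fa).add
        (fv.clm_comp ((h.A a).clm_comp fa))).congr (fun x _ => (w.m x).mono fun p hp => ?_)
      fun x _ => ?_
    · simpa only [df, ad_trn] using df_comp (e := e p.1 a) (W := (c p.1).W a) (W' := c₀.W a)
        (W'' := c₁.W a) (hp.su _ rfl) (sv _) (hp.iso _ rfl) (k.m.iso _ trivial)
    · rw [k.W]; simp
  · refine ((Cv.const (csL c₁.m.J ξ)).app (fv.app h.Φ)).congr (fun x _ => .of_forall fun p => ?_)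
      fun x _ => k.Φ x
    exact ((congrArg (cs c₁.m.J ξ) (map_cs (k.m.J _ trivial).symm _ _)).trans
      ((cs_mul h₁.Jsq _ _ _).trans (by rw [Circle.coe_mul]; rfl))).symm

end gen

variable {Wi : Type} {X : Mf 4} {A κ lam : Type} [Fintype A] [Fintype κ] [Fintype lam]
  [DecidableEq lam] {M : Mark X A κ} {W : World M} {L : ML M lam} {Λ : Lns W L}
  {A' h : Type} [Fintype A'] [DecidableEq A'] [Fintype h] {r n : ℕ}
  {J : Job Wi Λ A' h r n} {σ : Cel A'} {a : A'}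
  {U Up R : Type} [NormedAddCommGroup U] [NormedSpace ℝ U] [NormedAddCommGroup Up]
  [NormedSpace ℝ Up] [NormedAddCommGroup R] [NormedSpace ℝ R] {d : Dat J σ a U Up R}
  {q₀ : Wi →₀ ℝ} {δ : ℝ} (H : d.OK q₀ δ)
include H

theorem eq_x {x : A} (hx : x ∈ (J.cf a).1) : x = d.x :=
  Option.some.inj ((show J.hd a = some x from hx).symm.trans H.hd)

theorem hy : Hy J (J.cf a) :=
  ⟨H.ok, H.nW, H.nΛ, ⟨empty_subset _, fun _ hx k => (d.hb true).1 (eq_x H hx ▸ k)⟩,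
    fun _ hx => eq_x H hx ▸ H.ok.mem a _ H.hd (d.hb true).1, H.unc⟩

/-- **LEAF UCP** -/
theorem ucp : d.Ucp := fun _ _ _ _ _ _ _ _ _ a₀ a₁ ok hs k e =>
  have o := (d.hb true).2.2.1
  ulim_post k (ok.mono fun _ k => (hy H).ok_pb k.1.1.ok) a₀.ok a₁.ok
    ((hy H).vcv hs (d.hb true).2.1 o) (G_e o ▸ (ci_iff (Λ.B_ok _ _) (ad0 a₀) (ad0 a₁)).1 e)
    a₀.conn.cc.sm a₁.conn.cc.sm

/-- **LEAF TRF** -/
theorem trf : d.Trf q₀ := by
  intro α l q y y₀ hy' h₀ t e g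
  obtain ⟨s₀, x₀, H₀, ψ₀, β₀, ζ₀, k₀, j₀, l₀⟩ := y₀
  obtain rfl : d.y.s = s₀ := e.1
  have o := H.sol.ok H.ok H.mem
  have o₀ := h₀.ok H.ok H.mem
  have ok := hy'.mono fun i k => k.ok H.ok H.mem
  obtain ⟨-, v, ξ, e1, e2⟩ := e.symm o o₀
  obtain ⟨u, ζ, g1, g2⟩ := g.lim
  refine ⟨g.s, ⟨_, _, ucp H α l y x₀ d.y.x u ζ v ξ h₀.sol.toAdm H.sol.sol.toAdm
    (hy'.mono fun i k => ⟨k.ok H.ok H.mem, k.cell⟩) g.s g1 e1, fun k _ => ?_⟩, g.tight,
    fun x hx η hη => ?_⟩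
  · have hk : k ∈ J.unc (J.cf a) := H.unc ▸ trivial
    obtain ⟨θ, e3⟩ := e2 ⟨k, hk⟩
    obtain ⟨θ', e4⟩ := g2 k ((h₀.H_eq t.1).ge hk)
    refine ⟨fun i => θ * θ' i, ((td_LU d.y.x.m.J (tendsto_const_nhds (x := θ))
      (tendsto_const_nhds (x := v (J.cut _ k).x0)) e4).congr fun i => ?_).mono_right
        (congrArg nhds e3).ge⟩
    exact LU_cs o.1.ok.Jsq (e1.m.J _ trivial) _ _ _ _
  · obtain ⟨-, w, ξ', e3, -⟩ := e
    have a1 : (J.xs x).D.Adm (β₀ x false) := ⟨(h₀.crit x hx false).sol.toAdm, (h₀.crit x hx false).tmp⟩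
    have a2 : (J.xs x).D.Adm (d.y.β x false) :=
      ⟨(H.sol.crit x hx false).sol.toAdm, (H.sol.crit x hx false).tmp⟩
    have ha := H.sol.act H.ok H.mem hx false
    obtain ⟨γ, k⟩ := lim_uniq a1 a2 o.1 Bki64.isEnd_top (Eqv71.lim_pre (Λ.B_ok _ _) isOpen_univ
      (subset_univ _) a1 o.1 o₀.1 e3 (h₀.lim x false ha)) (H.sol.lim x false ha)
    obtain ⟨η', h1, h2⟩ := near_stb (I := (W.Z M.c0).I) (B := J.B M.c0) (r := r) a1 a2 k hη
    exact (g.neck x hx η' h1).imp fun T hT => (hT.and ok).mono fun i hi =>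
      hi.1.imp fun ha k t ht => h2 _ _ _ t hi.2.1 (k t ht)

end Crest.Agent.X212.Sep15.Trf
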