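import Crest.Agent.X212.Mi59.Nf
import Crest.Agent.X212.Sep15.MrA

/-!
# Row 212, FACT (helper15): LEAF MR, the models of the right parts
-/

set_option autoImplicit false
set_option linter.unusedSectionVars false
set_option maxHeartbeats 400000
noncomputable section
open scoped Manifold ContDiff Topology InnerProductSpace
open MeasureTheory Set Function Filter Classical

namespace Crest.Agent.X212.Sep15.Mr
open An M G75 Jb7 Ins26 Nd18 Rf65 Pte3 Fk18 Mi59 Spl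
open An.Job (Sol SolOn StrOn Str)

variable {κ lam : Type} [Fintype κ] [Fintype lam] [DecidableEq lam] {Lm : LM κ lam}
  {y₀ : G75.YD κ lam} {S : Scene Lm} {P : Pk y₀} {z : Z0 P S} {Z : Z1 z} {R : ℕ} {T δ : ℝ}
  {Adm : (Z.F.Wi →₀ ℝ) → Prop} {q : Z.F.Wi →₀ ℝ} {y : Z.Ob} {F : Set (Reg S.A)}

variable (Z) in
/-- the right job -/
abbrev JR := Z.F.JR z.c Z.i z.k

variable (Z) in
/-- the right part -/
abbrev pR (F : Set (Reg S.A)) (H : Set S.ls) : Prt S.A (S.A ⊕ Unit) S.ls :=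
  (JR Z).prt (shS S) Z.ce Z.e F F H

/-- the right object -/
abbrev rs (y : Z.Ob) : (JR Z).Obc Z.e := resR z.c z.d Z.i z.m z.k y

theorem r_ok (h1 : Z.OK T) : (JR Z).OK ∧ LocP (JR Z) (shS S) := h1.F.R _ (c_ne h1) _

theorem mj_R (h0 : z.OK R) (h1 : Z.OK T) (ly : LyStmt Lm) : MJ (JR Z) Z.e z.t.a :=
  Z1.mj (τ := τR Z.F Z.i z.k) h0 h1 ly (r_ok h1).1 (r_ok h1).2

theorem pg_R (h1 : Z.OK T) (sm : Z.Sm) (hF : F ⊆ Z.Ro true) (H : Set S.ls) :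
    PG (JR Z) Z.e Z.ce (pR Z F H) :=
  ⟨(r_ok h1).1, ce_mem h1, (r_ok h1).2.pok _ (ce_mem h1) _ _ _ H
    (fun _ k => (ro_sdP sm (hF k)).1) subset_rfl⟩

/-- right pieces have no left end at `a` -/
theorem not_left (sm : Z.Sm) {π : Reg S.A} (hπ : π ∈ Z.Ro true) : π z.t.a ≠ some false :=
  fun e => let ⟨_, hx⟩ := (S.M.sys.w z.t.a).ne false
    (S.M.sys.w z.t.a).not_mem_sd hx.2 ((ro_sdP sm hπ).2 ((ro_sdP sm hπ).1.adj _ _ e hx))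

/-- no spinor on the other right pieces -/
theorem zero_R (sm : Z.Sm) (lx : Z.LxAt δ Adm) (ha : Adm q) (hy : Sol Z.ce q y) :
    ∀ π ∈ sdP z.t Z.e true, π ∉ y.F (Z.Ro true) → ¬y.TF π := fun π hπ k j => by
  have := S.M.con
  rcases sm.cov π hπ.1 with ⟨_ | _, e⟩ | ⟨l, hl, rfl⟩
  · obtain ⟨x, hx⟩ := hπ.1.toIsReg.nonempty
    exact (S.M.sys.w z.t.a).not_mem_sd (hπ.2 hx) ((ro_sdP sm e).2 hx)
  · exact k ⟨e, j⟩
  · exact (lx q y l ha hy hl).1 j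

/-- the right part of a solution -/
theorem sa_R (h1 : Z.OK T) (sm : Z.Sm) (lx : Z.LxAt δ Adm) (ha : Adm q) (hy : Sol Z.ce q y) :
    SA z.t.a (pR Z (y.F (Z.Ro true)) y.H) Z.ce q (rs y) ∧
      Job.In (pR Z (y.F (Z.Ro true)) y.H) (rs y) :=
  have k : ∀ π ∈ y.F (Z.Ro true), (rs y).TF π := fun _ hπ => (tf_res (ro_sdP sm hπ.1)).2 hπ.2
  ⟨⟨solR h1.F (c_ne h1) (ce_mem h1) h1.a hy (fun _ j => ro_sdP sm j.1) (zero_R sm lx ha hy),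
    fun π hπ => .inr (.inl (k π hπ)), fun ⟨_, j, e⟩ => (not_left sm j.1 e).elim⟩,
    k, fun _ a b => (b a).elim⟩

theorem fixP_rs (sm : Z.Sm) {π : Reg S.A} (hπ : π ∈ Z.Ro true) : FixP (rs y) π ↔ FixP y π :=
  fix_res (ro_sdP sm hπ)

/-- **LEAF MR** -/
theorem mr : MrStmt Lm := fun ja _ _ S z _ Z _ h0 h1 sm _ hδ => by
  have mj := mj_R h0 h1 ja.ly
  obtain ⟨δ, ⟨ix, lx⟩, pm⟩ := (hδ.and (ja.pm _ _ _ _ _ _ _ _ _ mj)).exists
  refine (lx.and pm).mono fun Adm ⟨lx, pm⟩ _ F hF H => ?_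
  have pg := pg_R h1 sm hF H
  obtain ⟨D, hD⟩ := pm _ _ pg (fun q y => SA z.t.a (pR Z F H) Z.ce q y ∧ Job.In (pR Z F H) y ∧
    ∃ π ∈ F, ¬FixP y π) fun q y ha k => ⟨k.1, ja.dnx _ _ _ _ _ _ _ _ _ mj rfl _ _ _ _ _ _ pg rfl
      (fun s hs e π hπ =>
        have j := h1.F.richR _ _ z.k _ h1.c (fc_of h1 hs e) _ e π (ro_sdP sm (hF hπ))
        have j' := j.2 (ro_out h0 (hF hπ))
        ⟨j'.1, j.1, fun π' k' => j'.2 π' (ro_sdP sm (hF k')) (ro_out h0 (hF k'))⟩)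
      ha k.1 k.2.1 k.2.2⟩
  refine ⟨_, pull hD rs (fun q y ha k => ?_) (fun _ _ _ _ _ ⟨_, _, k⟩ e => strOn (j_ok h1).1 e
    (fun _ j => ro_sdP sm (hF j)) fun _ j => k.2.2.1.ge j.1) fun q y d ha k hd => ?_⟩
  · obtain ⟨k, rfl, rfl, π, j, j'⟩ := k
    have s := sa_R h1 sm lx ha k
    exact ⟨s.1, s.2, π, j, mt (fixP_rs sm j.1).1 j'⟩
  · obtain ⟨k, rfl, rfl, π, j, j'⟩ := k
    have s := sa_R h1 sm lx ha k
    exact ok_R (τ := τR Z.F Z.i z.k) h0 h1 ja sm ix lx ha k (r_ok h1) rfl rfl rfl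
      ⟨π, j, mt (fixP_rs sm j.1).1 j'⟩ s.1 s.2 hd

end Crest.Agent.X212.Sep15.Mr
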