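import Crest.Agent.X212.Sep15.SwB
import Crest.Agent.X212.Neck67.Lb

/-!
# X212/Sep15/Hh (helper15): the calculus of functions whose derivatives are square integrable
-/

set_option autoImplicit false
set_option linter.unusedSectionVars false
set_option maxHeartbeats 200000
noncomputable section
open scoped Manifold ContDiff Topology InnerProductSpace
open MeasureTheory Set Function Filter

namespace Crest.Agent.X212.Sep15.S
open An Sw Sob92
open Wz78 (SA)
open Neck67 (Lb)

variable {E : Type} [NormedAddCommGroup E] [NormedSpace ℝ E] [FiniteDimensional ℝ E]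
  [MeasurableSpace E] [BorelSpace E]
  {HM : Type} [TopologicalSpace HM] {I : ModelWithCorners ℝ E HM}
  {M : Type} [TopologicalSpace M] [ChartedSpace HM M] [IsManifold I ∞ M]
  [MeasurableSpace M] [BorelSpace M] [SecondCountableTopology M] {ι : Type} [Fintype ι]
  {N N' N'' : Type} [NormedAddCommGroup N] [NormedSpace ℝ N] [NormedAddCommGroup N']
  [NormedSpace ℝ N'] [NormedAddCommGroup N''] [NormedSpace ℝ N'']
  {F : Pre I M ι} {S : Set M} {k : ℕ} {A : ℝ}

/-- functions with vanishing derivatives are constant -/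
theorem const_of_D [I.Boundaryless] [PreconnectedSpace M] (F : Pre I M ι) {u : M → N} (hu : Sm I u)
    (h : ∀ a x, F.D a u x = 0) (x y : M) : u x = u y := by
  refine ((IsLocallyConstant.iff_eventually_eq u).2 fun x => ?_).apply_eq_of_preconnectedSpace x y
  obtain ⟨r, hr, hb⟩ := Metric.isOpen_iff.1 (isOpen_extChartAt_target (I := I) x) _
    (mem_extChartAt_target x)
  have md : ∀ z ∈ Metric.ball (extChartAt I x x) r,
      MDifferentiableAt 𝓘(ℝ, E) I (extChartAt I x).symm z := fun z hz =>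
    ((contMDiffOn_extChartAt_symm (n := ∞) x).contMDiffAt
      ((isOpen_extChartAt_target x).mem_nhds (hb hz))).mdifferentiableAt (by simp)
  have m0 : ∀ z, mfderiv I 𝓘(ℝ, N) u z = 0 := fun z => ContinuousLinearMap.coe_injective
    (LinearMap.ext_on_range (F.span z) fun a => h a z)
  have k := fun z hz => Metric.isOpen_ball.is_const_of_fderiv_eq_zero (𝕜 := ℝ)
    (f := u ∘ (extChartAt I x).symm) (convex_ball _ r).isPreconnected
    (fun z hz => ((hu.mdifferentiableAt (by simp)).comp z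
      (md z hz)).differentiableAt.differentiableWithinAt)
    (fun z hz => by
      rw [← mfderiv_eq_fderiv, mfderiv_comp z (hu.mdifferentiableAt (by simp)) (md z hz), m0]
      rfl) (x := z) hz (Metric.mem_ball_self hr)
  filter_upwards [extChartAt_source_mem_nhds (I := I) x,
    (continuousAt_extChartAt (I := I) x).eventually (Metric.ball_mem_nhds _ hr)] with z h1 h2
  simpa only [comp_apply, (extChartAt I x).left_inv h1, extChartAt_to_inv] using k _ h2

/-- smooth at the points of `S` and square integrable over `S` -/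
def L0 (F : Pre I M ι) (S : Set M) (f : M → N) : Prop :=
  (∀ x ∈ S, SA I f x) ∧ MemLp f 2 (F.μ.restrict S)

/-- smooth at the points of `S`, derivatives of order `≤ k` square integrable over `S` -/
def Lq (F : Pre I M ι) (S : Set M) : ℕ → (M → N) → Prop
  | 0, f => L0 F S f
  | k + 1, f => L0 F S f ∧ ∀ a, Lq F S k (F.D a f)

variable {f f' : M → N} {g : M → N'}

theorem aesm (hS : IsOpen S) (h : ∀ x ∈ S, SA I f x) : AEStronglyMeasurable f (F.μ.restrict S) :=
  ContinuousOn.aestronglyMeasurable (fun x hx => (h x hx).continuousAt.continuousWithinAt)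
    hS.measurableSet

theorem L0.iff (hS : IsOpen S) (h : ∀ x ∈ S, SA I f x) :
    L0 F S f ↔ IntegrableOn (fun x => ‖f x‖ ^ 2) S F.μ :=
  (and_iff_right h).trans (memLp_two_iff_integrable_sq_norm (aesm hS h))

theorem L0.of_le (hS : IsOpen S) (h : L0 F S g) (hf : ∀ x ∈ S, SA I f x) {c : ℝ}
    (e : ∀ x ∈ S, ‖f x‖ ≤ c * ‖g x‖) : L0 F S f :=
  ⟨hf, h.2.of_le_mul (aesm hS hf) ((ae_restrict_mem hS.measurableSet).mono e)⟩

namespace Lq

theorem zero (h : Lq F S k f) : L0 F S f := by
  cases k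
  exacts [h, h.1]

theorem sm (h : Lq F S k f) {x : M} (hx : x ∈ S) : SA I f x := h.zero.1 x hx

theorem pred : ∀ {k : ℕ} {f : M → N}, Lq F S (k + 1) f → Lq F S k f
  | 0, _, h => h.1
  | _ + 1, _, h => ⟨h.1, fun a => pred (h.2 a)⟩

theorem sub {S' : Set M} (hS : S' ⊆ S) : ∀ {k : ℕ} {f : M → N}, Lq F S k f → Lq F S' k f
  | 0, _, h => ⟨fun x hx => h.1 x (hS hx), h.2.mono_measure (Measure.restrict_mono hS le_rfl)⟩
  | _ + 1, _, h => ⟨sub hS (k := 0) h.1, fun a => sub hS (h.2 a)⟩

theorem congr (hS : IsOpen S) : ∀ {k : ℕ} {f f' : M → N}, Lq F S k f → (∀ x ∈ S, f' x = f x) →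
    Lq F S k f'
  | 0, _, _, h, e => ⟨fun x hx => (h.1 x hx).congr_of_eventuallyEq
      (Eventually.mono (hS.mem_nhds hx) e),
      h.2.ae_eq ((ae_restrict_mem hS.measurableSet).mono fun x hx => (e x hx).symm)⟩
  | _ + 1, _, _, h, e => ⟨congr hS (k := 0) h.1 e, fun a => congr hS (h.2 a) fun _ hx =>
      dv_congr (Eventually.mono (hS.mem_nhds hx) e)⟩

theorem add (hS : IsOpen S) : ∀ {k : ℕ} {f f' : M → N}, Lq F S k f → Lq F S k f' →
    Lq F S k fun x => f x + f' x
  | 0, _, _, h, h' => ⟨fun x hx => (h.1 x hx).add (h'.1 x hx), h.2.add h'.2⟩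
  | _ + 1, _, _, h, h' => ⟨add hS (k := 0) h.1 h'.1, fun a => congr hS (add hS (h.2 a) (h'.2 a))
      fun _ hx => dv_add (h.sm hx).md (h'.sm hx).md⟩

theorem bil (hS : IsOpen S) (B : N →L[ℝ] N' →L[ℝ] N'') : ∀ {k : ℕ} {f : M → N} {g : M → N'},
    Lb F S k f A → Lq F S k g → Lq F S k fun x => B (f x) (g x)
  | 0, _, _, h, h' => L0.of_le hS h' (fun x hx => SA.app (sa_clm B (h.sm hx)) (h'.sm hx))
      (c := ‖B‖ * A) fun x hx => (B.le_opNorm₂ _ _).trans (by have := h.le hx; gcongr)
  | _ + 1, _, _, h, h' => ⟨bil hS B (k := 0) h.zero h'.1, fun a => congr hS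
      (add hS (bil hS B (h.D a) h'.pred) (bil hS B h.pred (h'.2 a)))
      fun _ hx => dv_bil B (h.md hx) (h'.sm hx).md⟩

theorem app (hS : IsOpen S) {L : M → N →L[ℝ] N'} (h : Lb F S k L A) (h' : Lq F S k f) :
    Lq F S k fun x => L x (f x) := bil hS (ContinuousLinearMap.id ℝ (N →L[ℝ] N')) h h'

theorem clm (hS : IsOpen S) (L : N →L[ℝ] N') (h : Lq F S k f) : Lq F S k fun x => L (f x) :=
  app hS (Lb.const hS L) h

theorem neg (hS : IsOpen S) (h : Lq F S k f) : Lq F S k fun x => -f x :=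
  h.clm hS (-ContinuousLinearMap.id ℝ N)

theorem sub' (hS : IsOpen S) (h : Lq F S k f) (h' : Lq F S k f') :
    Lq F S k fun x => f x - f' x := by
  simpa only [sub_eq_add_neg] using add hS h (h'.neg hS)

theorem const0 : ∀ k : ℕ, Lq F S k fun _ => (0 : N)
  | 0 => ⟨fun _ _ => contMDiffAt_const, MemLp.zero⟩
  | k + 1 => ⟨const0 0, fun a => by rw [Pre.D_def, dv_const]; exact const0 k⟩

theorem sum (hS : IsOpen S) {α : Type*} (s : Finset α) {f : α → M → N}
    (h : ∀ i ∈ s, Lq F S k (f i)) : Lq F S k fun x => ∑ i ∈ s, f i x := by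
  classical
  induction s using Finset.induction_on with
  | empty => simpa using const0 k
  | insert a s ha ih =>
    simp only [Finset.sum_insert ha]
    exact add hS (h a (by simp)) (ih fun i hi => h i (by simp [hi]))

theorem Dw : ∀ {k : ℕ} {f : M → N}, Lq F S k f → ∀ w : List ι, w.length ≤ k → L0 F S (F.Dw w f)
  | _, _, h, [], _ => h.zero
  | 0, _, _, _ :: _, hw => absurd hw (by simp)
  | _ + 1, _, h, a :: w, hw => Dw (h.2 a) w (by simpa using hw)

theorem of_hh (hS : IsOpen S) : ∀ (k : ℕ) {f : M → N}, (∀ x ∈ S, SA I f x) → Hh F S f → Lq F S k f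
  | 0, _, hf, h => (L0.iff hS hf).2 (h [])
  | k + 1, _, hf, h => ⟨(L0.iff hS hf).2 (h []), fun a =>
      of_hh hS k (fun x hx => sa_D F (hf x hx) a) fun w => h (a :: w)⟩

theorem hh (hS : IsOpen S) (h : ∀ k, Lq F S k f) : Hh F S f := fun w =>
  (L0.iff hS ((h _).Dw w le_rfl).1).1 ((h _).Dw w le_rfl)

end Lq

/-- a unitary function with bounded logarithmic derivative is bounded in all orders -/
theorem lb_unit (hS : IsOpen S) {u : M → ℂ} {α : ι → M → ℂ} (hu : ∀ x ∈ S, SA I u x ∧ ‖u x‖ = 1)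
    (e : ∀ a, ∀ x ∈ S, F.D a u x = α a x * u x) (h : ∀ k a, ∃ C, Lb F S k (α a) C) (k : ℕ) :
    ∃ C, Lb F S k u C := by
  have z : ∀ {C : ℝ}, 1 ≤ C → Lb F S 0 u C := fun hC x hx => ⟨(hu x hx).1, (hu x hx).2.le.trans hC⟩
  induction k with
  | zero => exact ⟨1, z le_rfl⟩
  | succ k ih =>
    obtain ⟨C', h'⟩ := ih
    choose C hC using fun a => (h k a).elim fun C h => (⟨_, (h.bil' hS
      (ContinuousLinearMap.opNorm_mul_le ℝ ℂ) h').congr hS (e a)⟩ : ∃ C, Lb F S k (F.D a u) C)
    have p := fun a (_ : a ∈ Finset.univ) => abs_nonneg (C a)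
    exact ⟨1 + ∑ a, |C a|, z (le_add_of_nonneg_right (Finset.sum_nonneg p)), fun a =>
      (hC a).abs.mono ((Finset.single_le_sum p (Finset.mem_univ a)).trans (by linarith))⟩

/-- the derivative of a unitary function -/
theorem D_unit {u : M → ℂ} {x : M} (hu : SA I u x) (h1 : ∀ᶠ y in 𝓝 x, ‖u y‖ = 1) (a : ι) :
    F.D a u x = Complex.I * (star (u x) * F.D a u x).im * u x := by
  have h2 : F.D a (fun y => ⟪u y, u y⟫_ℝ) x = 0 :=
    (dv_congr (v := fun _ => (1 : ℝ)) (h1.mono fun y hy => by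
      rw [real_inner_self_eq_norm_sq, hy, one_pow])).trans (congrFun (dv_const _) x)
  have h3 := (dv_bil (e := F.e a) (isBoundedBilinearMap_inner (𝕜 := ℝ) (E := ℂ)).toContinuousLinearMap
    hu.md hu.md).symm.trans h2
  have h4 : Complex.normSq (u x) = 1 := by rw [Complex.normSq_eq_norm_sq, h1.self_of_nhds, one_pow]
  rw [← Pre.D_def] at h3
  simp only [IsBoundedBilinearMap.toContinuousLinearMap_apply, Complex.inner, Complex.mul_re,
    Complex.conj_re, Complex.conj_im] at h3
  rw [Complex.normSq_apply] at h4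
  apply Complex.ext <;> simp only [Complex.mul_re, Complex.mul_im, Complex.I_re, Complex.I_im,
    Complex.ofReal_re, Complex.ofReal_im, Complex.star_def, Complex.conj_re, Complex.conj_im]
  · linear_combination (-(F.D a u x).re) * h4 + ((u x).re / 2) * h3
  · linear_combination (-(F.D a u x).im) * h4 + ((u x).im / 2) * h3

end Crest.Agent.X212.Sep15.S
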