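import Crest.Agent.X212.Sep15.Raw

/-!
# X212/Sep15/Op (helper15): existence of the surgery `Op`; heights in the new end
-/

set_option autoImplicit false
set_option linter.unusedSectionVars false

open Set Filter Topology Function
open scoped ContDiff Manifold
open Crest.Agent.X212.Cyl58

noncomputable section

namespace Crest.Agent.X212.Sep15

variable {Y Y' : CM 3} {R : CM 2} {b b₁ b₂ : R × ℝ → Y} {b₁' b₂' : R × ℝ → Y'}

namespace Raw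

variable {S : Sw b₁ b₂ b₁' b₂'} {C : End Y} {X : Type} [TopologicalSpace X] [ChartedSpace (EE 4) X]
  {i : PartialDiffeomorph (𝓡 4) (𝓡 4) C.X X ∞} {e : R × ℂ → X} (h : Raw S C i e)

include h

theorem j_mem {q : Y × ℝ} : C.j q ∈ i.source ↔ q.1 ∈ S.φ.source ∨ q.2 < 0 := h.src ▸ S.j_mem C

theorem mem_of_notMem {x : C.X} (hx : x ∉ range C.j) : x ∈ i.source :=
  h.src ▸ fun ⟨q, _, e⟩ => hx ⟨q, e⟩

theorem e_mem {p : R × ℂ} : e p ∈ i.target ↔ p.2.im ≠ 0 := by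
  rw [h.tgt, mem_compl_iff, h.oe.inj.mem_set_image]
  rfl

theorem cases (x : X) : (∃ y ∈ i.source, i y = x) ∨ ∃ p : R × ℂ, p.2.im = 0 ∧ e p = x := by
  by_cases hx : x ∈ i.target
  · exact .inl ⟨_, i.map_target hx, i.right_inv hx⟩
  · rw [h.tgt, mem_compl_iff, not_not] at hx
    exact .inr hx

/-- a point of the old manifold lying in the new piece -/
theorem i_eq_e {x : C.X} (hx : x ∈ i.source) {p : R × ℂ} (e1 : i x = e p) :
    (0 < p.2.im ∧ x = C.j (sq b₁ p)) ∨ (p.2.im < 0 ∧ x = C.j (sq b₂ p)) := by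
  have h1 : p.2.im ≠ 0 := h.e_mem.1 (e1 ▸ i.map_source hx)
  rcases h1.lt_or_gt with h2 | h2
  · exact .inr ⟨h2, i.injOn hx (h.j_mem.2 (S.sq₂_mem h1)) (e1.trans (h.dn p h2))⟩
  · exact .inl ⟨h2, i.injOn hx (h.j_mem.2 (S.sq₁_mem h1)) (e1.trans (h.up p h2))⟩

theorem isClosed {s : Set X} {t : Set C.X} (ht : IsClosed t) (h1 : ∀ x ∈ i.source, i x ∈ s ↔ x ∈ t)
    (h2 : IsClosed (e ⁻¹' s)) : IsClosed s := by
  refine isOpen_compl_iff.1 (isOpen_iff_mem_nhds.2 fun x hx => ?_)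
  rcases h.cases x with ⟨y, hy, rfl⟩ | ⟨p, -, rfl⟩
  · have h3 : IsOpen (i '' (i.source ∩ tᶜ)) :=
      i.toOpenPartialHomeomorph.isOpen_image_source_inter ht.isOpen_compl
    filter_upwards [h3.mem_nhds ⟨y, ⟨hy, mt (h1 y hy).2 hx⟩, rfl⟩]
    rintro _ ⟨z, hz, rfl⟩
    exact mt (h1 z hz.1).1 hz.2
  · filter_upwards [(h.oe.isOpen_image h2.isOpen_compl).mem_nhds ⟨p, hx, rfl⟩]
    rintro _ ⟨q, hq, rfl⟩
    exact hq

/-- closed subsets of the strip `|Im z| ≤ 1` have a closed image -/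
theorem isClosed_strip {s : Set (R × ℂ)} (hs : IsClosed s) (h1 : ∀ p ∈ s, |p.2.im| ≤ 1) :
    IsClosed (e '' s) := by
  have cl : ∀ {b : R × ℝ → Y}, Box b → ∀ {s' : Set (R × ℂ)}, IsClosed s' → s' ⊆ s →
      IsClosed (C.j '' (sq b '' s')) := by
    intro b hb s' hs' hh
    refine C.isClosed_image fun T => ?_
    convert ((((isCompact_univ (X := R)).prod (isCompact_sz T)).inter_left hs').image
      (continuous_sq hb)) using 1
    ext q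
    constructor
    · rintro ⟨⟨p, hp, rfl⟩, h⟩
      exact ⟨p, ⟨hp, mem_univ _, h1 p (hh hp), h⟩, rfl⟩
    · rintro ⟨p, hp, rfl⟩
      exact ⟨⟨p, hp.1, rfl⟩, hp.2.2.2⟩
  have c : Continuous fun p : R × ℂ => p.2.im := Complex.continuous_im.comp continuous_snd
  have key : ∀ p : R × ℂ, p.2.im = 0 → ¬((p.2 ^ 2).im ≠ 0 ∨ (p.2 ^ 2).re < 0) := by
    intro p h0 hp
    rw [sq_re, sq_im, h0] at hp
    rcases hp with h | h
    · exact h (mul_zero _)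
    · nlinarith [sq_nonneg p.2.re]
  refine h.isClosed ((cl S.o₁ (hs.inter (isClosed_le continuous_const c (f := fun _ => 0)))
    inter_subset_left).union (cl S.o₂ (hs.inter (isClosed_le c continuous_const (g := fun _ => 0)))
    inter_subset_left)) (fun x hx => ⟨?_, ?_⟩) (by rwa [preimage_image_eq _ h.oe.inj])
  · rintro ⟨p, hp, e1⟩
    rcases h.i_eq_e hx e1.symm with ⟨h2, rfl⟩ | ⟨h2, rfl⟩
    exacts [.inl ⟨_, ⟨p, ⟨hp, h2.le⟩, rfl⟩, rfl⟩, .inr ⟨_, ⟨p, ⟨hp, h2.le⟩, rfl⟩, rfl⟩]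
  · rintro (⟨_, ⟨p, hp, rfl⟩, rfl⟩ | ⟨_, ⟨p, hp, rfl⟩, rfl⟩)
    · exact ⟨p, hp.1, h.up p (lt_of_le_of_ne hp.2 fun h0 =>
        key p h0.symm ((h.j_mem.1 hx).imp S.b₁_mem.1 id))⟩
    · exact ⟨p, hp.1, h.dn p (lt_of_le_of_ne hp.2 fun h0 =>
        key p h0 ((h.j_mem.1 hx).imp S.b₂_mem.1 id))⟩

theorem left (p : R × ℝ) (hp : p.2 ≠ 0) (s : ℝ) :
    i (C.j (S.φ.symm (b₁' p), Real.exp s)) = e (p.1, -rt (p.2, s)) := by
  rcases hp.lt_or_gt with h1 | h1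
  · rw [h.up _ (by simpa using rt_im_neg (p := (p.2, s)) h1), sq_neg, sq_rt, ← S.lo₁ p h1]
    exact congrArg (fun y => i (C.j (y, _))) (S.φ.left_inv (S.b₁_mem.2 hp))
  · rw [h.dn _ (by simpa using rt_im_pos (p := (p.2, s)) h1), sq_neg, sq_rt, ← S.hi₂ p h1]
    exact congrArg (fun y => i (C.j (y, _))) (S.φ.left_inv (S.b₂_mem.2 hp))

theorem right (p : R × ℝ) (hp : p.2 ≠ 0) (s : ℝ) :
    i (C.j (S.φ.symm (b₂' p), Real.exp s)) = e (p.1, rt (p.2, s)) := by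
  rcases hp.lt_or_gt with h1 | h1
  · rw [h.dn _ (rt_im_neg (p := (p.2, s)) h1), sq_rt, ← S.lo₂ p h1]
    exact congrArg (fun y => i (C.j (y, _))) (S.φ.left_inv (S.b₂_mem.2 hp))
  · rw [h.up _ (rt_im_pos (p := (p.2, s)) h1), sq_rt, ← S.hi₁ p h1]
    exact congrArg (fun y => i (C.j (y, _))) (S.φ.left_inv (S.b₁_mem.2 hp))

/-- the new end -/
theorem exists_j : ∃ j : Y' × ℝ → X, IsOE (IR 3) (𝓡 4) j ∧
    (∀ y ∈ S.φ.source, ∀ s, j (S.φ y, s) = i (C.j (y, Real.exp s))) ∧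
    (∀ p s, j (b₁' p, s) = e (p.1, -rt (p.2, s))) ∧ ∀ p s, j (b₂' p, s) = e (p.1, rt (p.2, s)) := by
  let g₀ : Y' × ℝ → X := fun q => i (C.j (S.φ.symm q.1, Real.exp q.2))
  let g₁ : (R × ℝ) × ℝ → X := fun q => e (q.1.1, -rt (q.1.2, q.2))
  let g₂ : (R × ℝ) × ℝ → X := fun q => e (q.1.1, rt (q.1.2, q.2))
  have o₁ := S.o₁'.prodMap (IsOE.id (IA := 𝓘(ℝ, ℝ)) (A := ℝ))
  have o₂ := S.o₂'.prodMap (IsOE.id (IA := 𝓘(ℝ, ℝ)) (A := ℝ))
  let j : Y' × ℝ → X := extend (Prod.map b₁' id) g₁ (extend (Prod.map b₂' id) g₂ g₀)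
  have j₁ : ∀ q, j (Prod.map b₁' id q) = g₁ q := fun q => o₁.inj.extend_apply _ _ q
  have j₂ : ∀ q, j (Prod.map b₂' id q) = g₂ q := fun q =>
    (extend_apply' _ _ _ fun ⟨_, e⟩ => S.dj' _ _ (congrArg Prod.fst e)).trans
      (o₂.inj.extend_apply _ _ q)
  have j₀ : ∀ q : Y' × ℝ, q.1 ∈ S.φ.target → j q = g₀ q := by
    intro q hq
    by_cases h1 : ∃ p, Prod.map b₁' id p = q
    · obtain ⟨p, rfl⟩ := h1
      exact (j₁ p).trans (h.left p.1 (S.b₁'_mem.1 hq) p.2).symm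
    · by_cases h2 : ∃ p, Prod.map b₂' id p = q
      · obtain ⟨p, rfl⟩ := h2
        exact (j₂ p).trans (h.right p.1 (S.b₂'_mem.1 hq) p.2).symm
      · exact (extend_apply' _ _ _ h1).trans (extend_apply' _ _ _ h2)
  have j₀' : ∀ y ∈ S.φ.source, ∀ s, j (S.φ y, s) = i (C.j (y, Real.exp s)) := fun y hy s =>
    (j₀ _ (S.φ.map_source hy)).trans (congrArg (fun y => i (C.j (y, _))) (S.φ.left_inv hy))
  have a₁ : IsOE ((IR 2).prod 𝓘(ℝ, ℝ)) (𝓡 4) g₁ :=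
    (h.oe.comp (IsOE.id.prodMap (isOE_negC.comp isOE_rt))).comp isOE_assoc
  have a₂ : IsOE ((IR 2).prod 𝓘(ℝ, ℝ)) (𝓡 4) g₂ :=
    (h.oe.comp (IsOE.id.prodMap isOE_rt)).comp isOE_assoc
  refine ⟨j, ⟨?_, ?_⟩, j₀', fun p s => j₁ (p, s), fun p s => j₂ (p, s)⟩
  · have n₁ : ∀ x s, j (b₁' (x, 0), s) ∉ i.target := fun x s hx =>
      h.e_mem.1 (j₁ ((x, 0), s) ▸ hx :) (by simpa using rt_im_zero (p := (0, s)) rfl)
    have n₂ : ∀ x s, j (b₂' (x, 0), s) ∉ i.target := fun x s hx =>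
      h.e_mem.1 (j₂ ((x, 0), s) ▸ hx :) (rt_im_zero (p := (0, s)) rfl)
    have n₀ : ∀ y ∈ S.φ.source, ∀ s, j (S.φ y, s) ∈ i.target := fun y hy s =>
      j₀' y hy s ▸ i.map_source (h.j_mem.2 (.inl hy))
    have n₃ : ∀ x s x' s', j (b₁' (x, 0), s) ≠ j (b₂' (x', 0), s') := fun x s x' s' e1 => by
      have e2 := congrArg (fun p : R × ℂ => p.2.re)
        (h.oe.inj ((j₁ ((x, 0), s)).symm.trans (e1.trans (j₂ ((x', 0), s')))))
      simp only [Complex.neg_re] at e2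
      linarith [rt_re_pos (0, s), rt_re_pos (0, s')]
    rintro ⟨y, s⟩ ⟨y', s'⟩ e1
    rcases S.cases' y with ⟨x, hx, rfl⟩ | ⟨x, rfl⟩ | ⟨x, rfl⟩ <;>
      rcases S.cases' y' with ⟨x', hx', rfl⟩ | ⟨x', rfl⟩ | ⟨x', rfl⟩
    · rw [j₀' x hx, j₀' x' hx'] at e1
      obtain ⟨rfl, e2⟩ := Prod.ext_iff.1
        (C.oe.inj (i.injOn (h.j_mem.2 (.inl hx)) (h.j_mem.2 (.inl hx')) e1))
      exact Prod.ext rfl (Real.exp_injective e2)
    · exact (n₁ _ _ (e1 ▸ n₀ x hx s)).elim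
    · exact (n₂ _ _ (e1 ▸ n₀ x hx s)).elim
    · exact (n₁ _ _ (e1 ▸ n₀ x' hx' s')).elim
    · exact congrArg (Prod.map b₁' id)
        (a₁.inj ((j₁ ((x, 0), s)).symm.trans (e1.trans (j₁ ((x', 0), s')))))
    · exact (n₃ _ _ _ _ e1).elim
    · exact (n₂ _ _ (e1 ▸ n₀ x' hx' s')).elim
    · exact (n₃ _ _ _ _ e1.symm).elim
    · exact congrArg (Prod.map b₂' id)
        (a₂.inj ((j₂ ((x, 0), s)).symm.trans (e1.trans (j₂ ((x', 0), s')))))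
  · rintro ⟨y, s⟩
    rcases S.cases' y with ⟨x, hx, rfl⟩ | ⟨x, rfl⟩ | ⟨x, rfl⟩
    · refine ld_of_comp (f := Prod.map S.φ id) (x := (x, s))
        (ld_prodMap (S.φ.isLocalDiffeomorphAt _ _ _ hx) (ld_id s)) ?_
      refine ld_congr (ld_comp (f := C.j ∘ Prod.map id Real.exp)
        (i.isLocalDiffeomorphAt _ _ _ (h.j_mem.2 (.inl hx)))
        ((C.oe.comp (IsOE.id.prodMap isOE_exp)).loc _)) ?_
      filter_upwards [(S.φ.open_source.preimage continuous_fst).mem_nhds hx] with q hq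
      exact j₀' q.1 hq q.2
    · refine ld_of_comp (f := Prod.map b₁' id) (x := ((x, 0), s)) (o₁.loc _) ?_
      rw [show j ∘ Prod.map b₁' id = g₁ from funext j₁]
      exact a₁.loc _
    · refine ld_of_comp (f := Prod.map b₂' id) (x := ((x, 0), s)) (o₂.loc _) ?_
      rw [show j ∘ Prod.map b₂' id = g₂ from funext j₂]
      exact a₂.loc _

variable {j : Y' × ℝ → X} (j₀ : ∀ y ∈ S.φ.source, ∀ s, j (S.φ y, s) = i (C.j (y, Real.exp s)))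
  (j₁ : ∀ p s, j (b₁' p, s) = e (p.1, -rt (p.2, s))) (j₂ : ∀ p s, j (b₂' p, s) = e (p.1, rt (p.2, s)))

include j₀ j₁ j₂

theorem i_mem {s : Set ℝ} {x : C.X} (hx : x ∈ i.source) :
    i x ∈ j '' (univ ×ˢ s) ↔ x ∈ C.j '' (univ ×ˢ (Real.exp '' s)) := by
  constructor
  · rintro ⟨⟨y, t⟩, ht, e1⟩
    rcases S.cases' y with ⟨z, hz, rfl⟩ | ⟨z, rfl⟩ | ⟨z, rfl⟩
    · rw [j₀ z hz] at e1
      exact ⟨_, ⟨mem_univ _, t, ht.2, rfl⟩, i.injOn (h.j_mem.2 (.inl hz)) hx e1⟩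
    · rw [j₁] at e1
      exact (h.e_mem.1 (e1 ▸ i.map_source hx) (by simpa using rt_im_zero (p := (0, t)) rfl)).elim
    · rw [j₂] at e1
      exact (h.e_mem.1 (e1 ▸ i.map_source hx) (rt_im_zero (p := (0, t)) rfl)).elim
  · rintro ⟨⟨y, _⟩, ⟨-, t, ht, rfl⟩, rfl⟩
    exact ⟨(S.φ y, t), ⟨mem_univ _, ht⟩,
      j₀ y ((h.j_mem.1 hx).resolve_right (Real.exp_pos t).not_gt) t⟩

theorem e_mem_j {s : Set ℝ} {p : R × ℂ} :
    e p ∈ j '' (univ ×ˢ s) ↔ (p.2 ^ 2).re ∈ Real.exp '' s := by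
  constructor
  · rintro ⟨⟨y, t⟩, ht, e1⟩
    refine ⟨t, ht.2, ?_⟩
    rcases S.cases' y with ⟨z, hz, rfl⟩ | ⟨z, rfl⟩ | ⟨z, rfl⟩
    · rw [j₀ z hz] at e1
      rcases h.i_eq_e (h.j_mem.2 (.inl hz)) e1 with ⟨-, e2⟩ | ⟨-, e2⟩ <;>
        exact congrArg Prod.snd (C.oe.inj e2)
    · rw [j₁] at e1
      rw [← h.oe.inj e1, neg_sq, rt_sq_re]
    · rw [j₂] at e1
      rw [← h.oe.inj e1, rt_sq_re]
  · rintro ⟨t, ht, e1⟩
    have h1 : 0 < (p.2 ^ 2).re := e1 ▸ Real.exp_pos t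
    have h2 : t = Real.log (p.2 ^ 2).re := by rw [← e1, Real.log_exp]
    have h3 : p.2.re ≠ 0 := fun h0 => by
      rw [sq_re, h0] at h1
      nlinarith [sq_nonneg p.2.im]
    rcases h3.lt_or_gt with h3 | h3
    · refine ⟨(b₁' (p.1, (p.2 ^ 2).im), t), ⟨mem_univ _, ht⟩, ?_⟩
      have := rt_log (z := -p.2) (by rwa [neg_sq]) (by simpa using h3)
      rw [neg_sq] at this
      rw [j₁, h2, this, neg_neg]
    · exact ⟨(b₂' (p.1, (p.2 ^ 2).im), t), ⟨mem_univ _, ht⟩, by rw [j₂, h2, rt_log h1 h3]⟩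

theorem isClosed_j (T : ℝ) : IsClosed (j '' (univ ×ˢ Ici T)) := by
  refine h.isClosed (C.isClosed_Ici (Real.exp T))
    (fun x hx => by rw [h.i_mem j₀ j₁ j₂ hx, Real.image_exp_Ici]) ?_
  convert isClosed_le (continuous_const (y := Real.exp T))
    (contDiff_sz.continuous.snd.comp (continuous_snd (X := R))) using 1
  ext p
  rw [mem_preimage, h.e_mem_j j₀ j₁ j₂, Real.image_exp_Ici]
  rfl

theorem isCompact_j (hj : IsOpen (j '' (univ ×ˢ Ioi 0))) : IsCompact (j '' (univ ×ˢ Ioi 0))ᶜ := by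
  have c : Continuous fun p : R × ℂ => |p.2.im| := (Complex.continuous_im.comp continuous_snd).abs
  let O : Set C.X := C.j '' (sq b₁ '' {p | |p.2.im| < 1} ∪ sq b₂ '' {p | |p.2.im| < 1})
  have op : ∀ {b : R × ℝ → Y}, Box b → IsOpen (sq b '' {p | |p.2.im| < 1}) := by
    intro b hb
    have e1 : sq b '' {p | |p.2.im| < 1} = Prod.map b id ''
        {q : (R × ℝ) × ℝ | q.1.2 ^ 2 < 4 * (q.2 + 1)} := by
      ext q
      constructor
      · rintro ⟨p, hp, rfl⟩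
        refine ⟨((p.1, (p.2 ^ 2).im), (p.2 ^ 2).re), ?_, rfl⟩
        have h1 : p.2.im ^ 2 < 1 := (sq_lt_one_iff_abs_lt_one _).2 hp
        simp only [mem_ofPred_eq, sq_re, sq_im]
        nlinarith [sq_nonneg p.2.re, sq_nonneg p.2.im, mul_nonneg (sq_nonneg p.2.re) (sub_pos.2 h1).le]
      · rintro ⟨⟨⟨x, v⟩, u⟩, hq, rfl⟩
        obtain ⟨z, hz⟩ := IsAlgClosed.exists_pow_nat_eq (⟨u, v⟩ : ℂ) two_pos
        refine ⟨(x, z), (sq_lt_one_iff_abs_lt_one z.im).1 (not_le.1 fun h1 => ?_), by simp [sq, hz]⟩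
        have a := congrArg Complex.re hz
        have b := congrArg Complex.im hz
        simp only [sq_re, sq_im] at a b
        simp only [mem_ofPred_eq, ← a, ← b] at hq
        nlinarith [sq_nonneg z.re, mul_nonneg (sq_nonneg z.re) (sub_nonneg.2 h1)]
    rw [e1]
    exact (hb.prodMap (IsOE.id (IA := 𝓘(ℝ, ℝ)))).isOpen_image (isOpen_lt (by fun_prop) (by fun_prop))
  have hO : IsOpen O := C.oe.isOpen_image ((op S.o₁).union (op S.o₂))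
  have k1 : IsCompact (C.K 1 \ O) := (C.isCompact_K 1).diff hO
  have k2 : C.K 1 \ O ⊆ i.source := by
    intro x hx
    rw [h.src]
    rintro ⟨⟨_, u⟩, ⟨⟨⟨y, _⟩, ⟨-, rfl⟩, rfl⟩ | ⟨⟨y, _⟩, ⟨-, rfl⟩, rfl⟩, hu⟩, rfl⟩ <;>
      refine hx.2 ⟨_, ?_, rfl⟩
    · exact .inl ⟨(y, √u), by simp, by simp [sq, ← Complex.ofReal_pow, Real.sq_sqrt hu]⟩
    · exact .inr ⟨(y, √u), by simp, by simp [sq, ← Complex.ofReal_pow, Real.sq_sqrt hu]⟩
  refine ((k1.image_of_continuousOn (i.contMDiffOn_toFun.continuousOn.mono k2)).union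
    (((isCompact_univ (X := R)).prod (isCompact_sz 1)).image h.oe.continuous)).of_isClosed_subset
    hj.isClosed_compl fun x hx => ?_
  have k3 : ∀ p : R × ℂ, |p.2.im| ≤ 1 → e p = x →
      x ∈ e '' (univ ×ˢ {z : ℂ | |z.im| ≤ 1 ∧ (z ^ 2).re ≤ 1}) := by
    rintro p hp rfl
    refine ⟨p, ⟨mem_univ _, hp, not_lt.1 fun h1 => hx ?_⟩, rfl⟩
    rwa [h.e_mem_j j₀ j₁ j₂, Real.image_exp_Ioi, Real.exp_zero]
  rcases h.cases x with ⟨y, hy, rfl⟩ | ⟨p, hp, rfl⟩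
  · by_cases h1 : y ∈ O
    · have ng : ∀ p : R × ℂ, |p.2.im| < 1 → |(p.1, -p.2).2.im| ≤ 1 := fun p hp => by simpa using hp.le
      have key : ∀ p : R × ℂ, (p.2 ^ 2).im ≠ 0 ∨ (p.2 ^ 2).re < 0 → p.2.im < 0 ∨ 0 < p.2.im := by
        intro p hp
        refine lt_or_gt_of_ne fun h0 => ?_
        rw [sq_re, sq_im, h0] at hp
        rcases hp with h | h
        · exact h (mul_zero _)
        · nlinarith [sq_nonneg p.2.re]
      refine .inr ?_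
      obtain ⟨_, ⟨p, hp, rfl⟩ | ⟨p, hp, rfl⟩, rfl⟩ := h1
      · rcases key p ((h.j_mem.1 hy).imp S.b₁_mem.1 id) with h2 | h2
        · exact k3 _ (ng p hp) ((h.up _ (by simpa using h2)).trans (by rw [sq_neg]))
        · exact k3 p hp.le (h.up p h2)
      · rcases key p ((h.j_mem.1 hy).imp S.b₂_mem.1 id) with h2 | h2
        · exact k3 p hp.le (h.dn p h2)
        · exact k3 _ (ng p hp) ((h.dn _ (by simpa using h2)).trans (by rw [sq_neg]))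
    · refine .inl ⟨y, ⟨fun h2 => hx ?_, h1⟩, rfl⟩
      rwa [h.i_mem j₀ j₁ j₂ hy, Real.image_exp_Ioi, Real.exp_zero]
  · exact .inr (k3 p (by rw [hp]; simp) rfl)

end Raw

theorem opStmt : OpStmt := by
  intro Y Y' R b₁ b₂ b₁' b₂' S C
  obtain ⟨X, _, _, _, _, _, i, e, h⟩ := exists_raw S C
  obtain ⟨j, hj, j₀, j₁, j₂⟩ := h.exists_j
  refine ⟨⟨X, j, ⟨hj, h.isClosed_j j₀ j₁ j₂ 0⟩,
    h.isCompact_j j₀ j₁ j₂ (hj.isOpen_image (isOpen_univ.prod isOpen_Ioi))⟩,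
    ⟨⟨i, e, h.oe, h.src, h.tgt, h.up, h.dn, j₀, fun p h1 h2 => ?_, fun p h1 h2 => ?_⟩⟩⟩
  · have := rt_log (z := -p.2) (by rwa [neg_sq]) (by simpa using h2)
    rw [neg_sq] at this
    exact ((j₁ _ _).trans (by rw [this, neg_neg])).symm
  · exact ((j₂ _ _).trans (by rw [rt_log h1 h2])).symm

namespace Op

variable {S : Sw b₁ b₂ b₁' b₂'} {C : End Y} {C' : End Y'} (O : Op S C C')

theorem j₁ (p : R × ℝ) (s : ℝ) : C'.j (b₁' p, s) = O.e (p.1, -rt (p.2, s)) := by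
  rw [O.e₁ _ (by rw [neg_sq, rt_sq_re]; exact Real.exp_pos _) (by simpa using rt_re_pos _)]
  simp only [neg_sq, rt_sq_re, rt_sq_im, Real.log_exp]

theorem j₂ (p : R × ℝ) (s : ℝ) : C'.j (b₂' p, s) = O.e (p.1, rt (p.2, s)) := by
  rw [O.e₂ _ (by rw [rt_sq_re]; exact Real.exp_pos _) (rt_re_pos _)]
  simp only [rt_sq_re, rt_sq_im, Real.log_exp]

theorem i_mem {s : Set ℝ} {x : C.X} (hx : x ∈ O.i.source) :
    O.i x ∈ C'.j '' (univ ×ˢ s) ↔ x ∈ C.j '' (univ ×ˢ (Real.exp '' s)) :=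
  O.raw.i_mem O.ej O.j₁ O.j₂ hx

theorem e_mem_j {s : Set ℝ} {p : R × ℂ} :
    O.e p ∈ C'.j '' (univ ×ˢ s) ↔ (p.2 ^ 2).re ∈ Real.exp '' s := O.raw.e_mem_j O.ej O.j₁ O.j₂

theorem i_mem_K {T : ℝ} {x : C.X} (hx : x ∈ O.i.source) : O.i x ∈ C'.K T ↔ x ∈ C.K (Real.exp T) :=
  not_congr ((O.i_mem hx).trans (by rw [Real.image_exp_Ioi]))

theorem e_mem_K {T : ℝ} {p : R × ℂ} : O.e p ∈ C'.K T ↔ (p.2 ^ 2).re ≤ Real.exp T :=
  (not_congr (O.e_mem_j.trans (by rw [Real.image_exp_Ioi]; rfl))).trans not_lt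

end Op

end Crest.Agent.X212.Sep15
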