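import Crest.Agent.X212.Sep15.Raw
import Crest.Agent.X212.Cyl58.Int

/-!
# X212/Sep15/Cm (helper15): calculus of regluings; a commutator is two exchanges

* `Rg.symm`, `Rg.exists_trans` (a product is two regluings), `Rg.exists_iso` (isotopy),
  `Rg.exists_diffeo` (uniqueness), `exists_track`;
* `Lv`, `Cm`, `exists_cm`.
-/

set_option autoImplicit false
set_option linter.unusedSectionVars false

open Set Filter Topology Function
open scoped ContDiff Manifold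
open Crest.Agent.X212.Cyl58

noncomputable section

namespace Crest.Agent.X212.Sep15

section pd

variable {EA HA EB HB : Type*} [NormedAddCommGroup EA] [NormedSpace ℝ EA] [TopologicalSpace HA]
  [NormedAddCommGroup EB] [NormedSpace ℝ EB] [TopologicalSpace HB]
  {IA : ModelWithCorners ℝ EA HA} {IB : ModelWithCorners ℝ EB HB}
  {A B : Type*} [TopologicalSpace A] [ChartedSpace HA A] [TopologicalSpace B] [ChartedSpace HB B]

/-- a map which is an injective local diffeomorphism on an open set -/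
theorem exists_pd (g : B → A) {f : A → B} {s : Set A} (hs : IsOpen s)
    (hf : ∀ x ∈ s, IsLocalDiffeomorphAt IA IB ∞ f x) (hi : InjOn f s) :
    ∃ Φ : PartialDiffeomorph IA IB A B ∞, Φ.source = s ∧ Φ.target = f '' s ∧ ∀ x, Φ x = f x := by
  classical
  let k : B → A := fun y => if h : y ∈ f '' s then h.choose else g y
  have k1 : ∀ x ∈ s, k (f x) = x := fun x hx => by
    have h : f x ∈ f '' s := mem_image_of_mem f hx
    exact hi (by rw [show k (f x) = h.choose from dif_pos h]; exact h.choose_spec.1) hx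
      (by rw [show k (f x) = h.choose from dif_pos h]; exact h.choose_spec.2)
  have ho : IsOE IA IB fun x : (⟨s, hs⟩ : TopologicalSpace.Opens A) => f x :=
    ⟨fun x y e => Subtype.ext (hi x.2 y.2 e), fun x => Glue52.ld_restrict (hf x x.2)⟩
  have hr : range (fun x : (⟨s, hs⟩ : TopologicalSpace.Opens A) => f x) = f '' s :=
    (image_eq_range f s).symm
  refine ⟨⟨⟨f, k, s, f '' s, mapsTo_image f s, ?_, k1, ?_⟩, hs, hr ▸ ho.isOpen_range,
    fun x hx => (hf x hx).contMDiffAt.contMDiffWithinAt, ?_⟩, rfl, rfl, fun _ => rfl⟩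
  · rintro _ ⟨x, hx, rfl⟩
    rwa [k1 x hx]
  · rintro _ ⟨x, hx, rfl⟩
    rw [k1 x hx]
  · have := ho.contMDiffOn_range (g := k) (contMDiff_subtype_val.congr fun x => k1 x x.2)
    rwa [hr] at this

end pd

variable {Y Y' Y'' : CM 3} {R : CM 2} {b : R × ℝ → Y} {b' : R × ℝ → Y'} {b'' : R × ℝ → Y''}

/-- the track of a smooth family of diffeomorphisms -/
theorem exists_track {φ : ℝ → R → R} (hs : ContMDiff (IR 2) (𝓡 2) ∞ fun p : R × ℝ => φ p.2 p.1)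
    (hb : ∀ t, Bijective (φ t)) (hl : ∀ t, IsLocalDiffeomorph (𝓡 2) (𝓡 2) ∞ (φ t)) :
    ∃ F : (R × ℝ) ≃ₘ^∞⟮IR 2, IR 2⟯ (R × ℝ), ∀ p, F p = (φ p.2 p.1, p.2) := by
  have h1 : ContMDiff (IR 2) (IR 2) ∞ fun p : R × ℝ => (φ p.2 p.1, p.2) := hs.prodMk contMDiff_snd
  have h2 : IsOE (IR 2) (IR 2) fun p : R × ℝ => (φ p.2 p.1, p.2) := by
    refine ⟨fun p q e => ?_, fun p => Glue52.ld_of_injective_mfderiv rfl isOpen_univ (mem_univ p)
      h1.contMDiffOn ((injective_iff_map_eq_zero _).2 fun v hv => ?_)⟩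
    · obtain ⟨e1, e2⟩ := Prod.ext_iff.1 e
      dsimp only at e1 e2
      rw [e2] at e1
      exact Prod.ext ((hb _).1 e1) e2
    · have d1 := (hs p).mdifferentiableAt (by simp)
      rw [mfderiv_prodMk d1 mdifferentiableAt_snd, mfderiv_snd] at hv
      obtain ⟨e1, e2⟩ := Prod.ext_iff.1 hv
      have e3 : v.2 = 0 := e2
      have e4 : mfderiv (𝓡 2) (𝓡 2) (φ p.2) p.1 v.1 = 0 := by
        have d2 : MDifferentiableAt (𝓡 2) (IR 2) (fun x : R => (x, p.2)) p.1 :=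
          mdifferentiableAt_id.prodMk mdifferentiableAt_const
        have := mfderiv_comp p.1 (g := fun q : R × ℝ => φ q.2 q.1) d1 d2
        rw [show φ p.2 = (fun q : R × ℝ => φ q.2 q.1) ∘ fun x : R => (x, p.2) from rfl, this,
          mfderiv_prod_left]
        have e5 : ((v.1, 0) : TangentSpace (IR 2) p) = v := Prod.ext rfl e3.symm
        exact (congrArg (mfderiv (IR 2) (𝓡 2) (fun q : R × ℝ => φ q.2 q.1) p) e5).trans e1
      exact Prod.ext (((hl p.2 p.1).mfderivToContinuousLinearEquiv (by simp)).injective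
        (e4.trans (map_zero _).symm)) e3
  refine ⟨h2.diffeo fun q => ?_, fun _ => rfl⟩
  obtain ⟨x, hx⟩ := (hb q.2).2 q.1
  exact ⟨(x, q.2), Prod.ext hx rfl⟩

namespace Rg

section

variable {h : R → R} (G : Rg b h b')

theorem b_mem {p : R × ℝ} : b p ∈ G.φ.source ↔ p.2 ≠ 0 := by
  rw [G.src, mem_compl_iff, mem_slab G.o]; rfl

theorem b'_mem {p : R × ℝ} : b' p ∈ G.φ.target ↔ p.2 ≠ 0 := by
  rw [G.tgt, mem_compl_iff, mem_slab G.o']; rfl

theorem mem_of_notMem {s : Set ℝ} (h0 : (0 : ℝ) ∈ s) {y : Y} (hy : y ∉ slab b s) : y ∈ G.φ.source :=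
  G.src ▸ fun h1 => hy (slab_mono b (singleton_subset_iff.2 h0) h1)

theorem exists_eq {p : R × ℝ} (hp : p.2 ≠ 0) : ∃ x, G.φ (b p) = b' (x, p.2) :=
  hp.lt_or_gt.elim (fun h => ⟨_, G.lo p h⟩) fun h => ⟨_, G.hi p h⟩

end

variable {h h' : R ≃ₘ^∞⟮𝓡 2, 𝓡 2⟯ R} (G : Rg b h b')

/-- the inverse regluing -/
def symm : Rg b' h.symm b where
  o := G.o'
  o' := G.o
  φ := G.φ.symm
  src := G.tgt
  tgt := G.src
  lo p hp := by rw [← G.lo p hp]; exact G.φ.left_inv (G.b_mem.2 hp.ne)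
  hi p hp := by
    have := G.hi (px h.symm p) hp
    rw [show px h (px h.symm p) = p from Prod.ext (h.apply_symm_apply _) rfl] at this
    rw [← this]
    exact G.φ.left_inv (G.b_mem.2 hp.ne')

theorem mem_slab {s : Set ℝ} {y : Y} (hy : y ∈ G.φ.source) : G.φ y ∈ slab b' s ↔ y ∈ slab b s := by
  constructor
  · rintro ⟨p, hp, e⟩
    obtain ⟨x, e1⟩ := G.symm.exists_eq (G.b'_mem.1 (e ▸ G.φ.map_source hy))
    rw [e] at e1
    exact ⟨(x, p.2), ⟨mem_univ _, hp.2⟩, e1.symm.trans (G.φ.left_inv hy)⟩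
  · rintro ⟨p, hp, rfl⟩
    obtain ⟨x, e1⟩ := G.exists_eq (G.b_mem.1 hy)
    exact ⟨(x, p.2), ⟨mem_univ _, hp.2⟩, e1.symm⟩

/-- the composition of two regluings -/
def trans (G' : Rg b' h' b'') : Rg b (h.trans h') b'' where
  o := G.o
  o' := G'.o'
  φ := G.φ.trans G'.φ
  src := by
    refine Eq.trans (inter_eq_left.2 fun y hy => ?_) G.src
    exact (G'.src.trans G.tgt.symm) ▸ G.φ.map_source hy
  tgt := by
    refine Eq.trans (inter_eq_left.2 fun y hy => ?_) G'.tgt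
    exact (G.tgt.trans G'.src.symm) ▸ G'.φ.map_target hy
  lo p hp := (congrArg G'.φ (G.lo p hp)).trans (G'.lo p hp)
  hi p hp := (congrArg G'.φ (G.hi p hp)).trans (G'.hi (px h p) hp)

/-- change of the name of the gluing map -/
def cast {k : R → R} (e : ∀ x, h x = k x) : Rg b k b' :=
  ⟨G.o, G.o', G.φ, G.src, G.tgt, G.lo, fun p hp => (G.hi p hp).trans (by rw [px, px, e])⟩

/-- a regluing by a product is the composition of two regluings -/
theorem exists_trans (G : Rg b (h.trans h') b'') : ∃ (Y' : CM 3) (b' : R × ℝ → Y')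
    (G₁ : Rg b h b') (G₂ : Rg b' h' b''), ∀ y ∈ G.φ.source, G₂.φ (G₁.φ y) = G.φ y := by
  obtain ⟨Y', b', ⟨G₁⟩⟩ := rgStmt Y R b h G.o
  refine ⟨Y', b', G₁, (G₁.symm.trans G).cast fun x => by simp, fun y hy => ?_⟩
  exact congrArg G.φ (G₁.φ.left_inv ((G.src.trans G₁.src.symm) ▸ hy))

/-- a regluing by the end of an isotopy does not change the manifold -/
theorem exists_iso (F : (R × ℝ) ≃ₘ^∞⟮IR 2, IR 2⟯ (R × ℝ)) {α β : ℝ} (hα : α ≤ 0) (hβ : 0 ≤ β)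
    (h0 : ∀ p, (F p).2 = p.2) (h1 : ∀ p : R × ℝ, p.2 < α → F p = p)
    (h2 : ∀ p : R × ℝ, β < p.2 → F p = px h p) : ∃ Ψ : Y ≃ₘ^∞⟮𝓡 3, 𝓡 3⟯ Y',
      (∀ p, Ψ (b p) = b' (F p)) ∧ ∀ y ∉ slab b (Icc α β), Ψ y = G.φ y := by
  have h3 : (0 : ℝ) ∈ Icc α β := ⟨hα, hβ⟩
  let U : TopologicalSpace.Opens Y := ⟨_, (isClosed_slab G.o (isCompact_Icc (a := α) (b := β))).isOpen_compl⟩
  have hU : ∀ y : U, (y : Y) ∈ G.φ.source := fun y => G.mem_of_notMem h3 y.2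
  have key : ∀ p : R × ℝ, p.2 ∉ Icc α β → G.φ (b p) = b' (F p) := fun p hp => by
    rcases not_and_or.1 hp with h | h
    · rw [h1 p (not_le.1 h), G.lo p ((not_le.1 h).trans_le hα)]
    · rw [h2 p (not_le.1 h), G.hi p (hβ.trans_lt (not_le.1 h))]
  refine (fun ⟨Ψ, e1, e2⟩ => ⟨Ψ, e1, fun y hy => e2 ⟨y, hy⟩⟩)
    (exists_diffeo_of_two G.o (isOE_val U) (G.o'.comp (IsOE.of_diffeo F))
    ((isOE_val U).of_pd G.φ hU) (fun p q => ⟨fun e => ?_, fun e => ?_⟩) (fun y => ?_) fun y => ?_)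
  · rw [comp_apply, comp_apply, ← e]
    exact (key p fun hp => q.2 (e ▸ (Sep15.mem_slab G.o).2 hp)).symm
  · have h4 : p.2 ∉ Icc α β := fun hp => q.2 ((G.mem_slab (hU q)).1 (by
      rw [← show b' (F p) = G.φ q from e, Sep15.mem_slab G.o', h0 p]; exact hp))
    exact G.φ.injOn (G.b_mem.2 fun h5 => h4 (h5 ▸ h3)) (hU q) ((key p h4).trans e)
  · by_cases hy : y ∈ slab b (Icc α β)
    exacts [.inl (slab_subset _ _ hy), .inr ⟨⟨y, hy⟩, rfl⟩]
  · by_cases hy : y ∈ slab b' (Icc α β)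
    · obtain ⟨p, -, rfl⟩ := hy
      exact .inl ⟨F.symm p, by simp⟩
    · have h4 := G.symm.mem_of_notMem h3 hy
      exact .inr ⟨⟨G.φ.symm y, fun h5 => hy ((G.symm.mem_slab h4).1 h5)⟩, G.φ.right_inv h4⟩

/-- uniqueness of the reglued manifold -/
theorem exists_diffeo (G' : Rg b h b'') : ∃ Ψ : Y' ≃ₘ^∞⟮𝓡 3, 𝓡 3⟯ Y'',
    (∀ p, Ψ (b' p) = b'' p) ∧ ∀ y ∈ G.φ.source, Ψ (G.φ y) = G'.φ y := by
  obtain ⟨Ψ, e1, e2⟩ := ((G.symm.trans G').cast (k := Diffeomorph.refl (𝓡 2) R ∞)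
    fun x => by simp).exists_iso (Diffeomorph.refl _ _ _) le_rfl le_rfl (fun _ => rfl)
    (fun _ _ => rfl) fun _ _ => rfl
  refine ⟨Ψ, e1, fun y hy => (e2 _ ?_).trans (congrArg G'.φ (G.φ.left_inv hy))⟩
  rw [Icc_self]
  exact (G.tgt ▸ G.φ.map_source hy : _ ∈ (slab b' {0})ᶜ)

/-- transport by diffeomorphisms of the two manifolds -/
def map {Z Z' : CM 3} (f : Y ≃ₘ^∞⟮𝓡 3, 𝓡 3⟯ Z) (f' : Y' ≃ₘ^∞⟮𝓡 3, 𝓡 3⟯ Z') :
    Rg (f ∘ b) h (f' ∘ b') where
  o := (IsOE.of_diffeo f).comp G.o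
  o' := (IsOE.of_diffeo f').comp G.o'
  φ := (f.symm.toPartialDiffeomorph.trans G.φ).trans f'.toPartialDiffeomorph
  src := by
    ext y
    change (y ∈ univ ∧ f.symm y ∈ G.φ.source) ∧ _ ∈ univ ↔ _
    obtain ⟨x, rfl⟩ := f.surjective y
    rw [G.src, slab, slab, image_comp]
    simp only [mem_univ, true_and, and_true, mem_compl_iff]
    exact not_congr ((congrArg (· ∈ _) (f.symm_apply_apply x)).to_iff.trans
      f.injective.mem_set_image.symm)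
  tgt := by
    ext y
    change y ∈ univ ∧ f'.symm y ∈ G.φ.target ∧ _ ∈ univ ↔ _
    obtain ⟨x, rfl⟩ := f'.surjective y
    rw [G.tgt, slab, slab, image_comp]
    simp only [mem_univ, true_and, and_true, mem_compl_iff]
    exact not_congr ((congrArg (· ∈ _) (f'.symm_apply_apply x)).to_iff.trans
      f'.injective.mem_set_image.symm)
  lo p hp := congrArg f' ((congrArg G.φ (f.symm_apply_apply _)).trans (G.lo p hp))
  hi p hp := congrArg f' ((congrArg G.φ (f.symm_apply_apply _)).trans (G.hi p hp))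

end Rg

/-! ### a commutator is two exchanges -/

/-- two disjoint ranges of heights, around a negative and a positive level -/
structure Lv (σ₁ σ₂ : ℝ → ℝ) : Prop where
  u₁ : Up σ₁ univ
  u₂ : Up σ₂ univ
  lt : ∀ v w, σ₁ v < σ₂ w
  neg : σ₁ 0 < 0
  pos : 0 < σ₂ 0

theorem exists_lv {r : ℝ} (hr : 0 < r) : ∃ σ₁ σ₂, Lv σ₁ σ₂ ∧ (∀ v, σ₁ v ∈ Ioo (-r) 0) ∧
    ∀ v, σ₂ v ∈ Ioo 0 r := by
  have h1 : Up Real.arctan univ := Up.of_hasDerivAt (fun _ _ => Real.contDiff_arctan.contDiffAt)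
    (fun x _ => Real.hasDerivAt_arctan x) fun x _ => by positivity
  have hp := Real.pi_pos
  have h2 : ∀ v, r / 2 + r / Real.pi * Real.arctan v ∈ Ioo 0 r := fun v => by
    have a := mul_lt_mul_of_pos_left (Real.arctan_lt_pi_div_two v) (div_pos hr hp)
    have b := mul_lt_mul_of_pos_left (Real.neg_pi_div_two_lt_arctan v) (div_pos hr hp)
    have c : r / Real.pi * (Real.pi / 2) = r / 2 := by field_simp
    rw [mul_neg, c] at b
    rw [c] at a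
    constructor <;> linarith
  have h3 : ∀ v, -r / 2 + r / Real.pi * Real.arctan v ∈ Ioo (-r) 0 := fun v =>
    ⟨by linarith [(h2 v).1], by linarith [(h2 v).2]⟩
  exact ⟨_, _, ⟨(Up.aff (-r / 2) (div_pos hr hp) univ).comp h1 (mapsTo_univ _ _),
    (Up.aff (r / 2) (div_pos hr hp) univ).comp h1 (mapsTo_univ _ _),
    fun v w => (h3 v).2.trans (h2 w).1, (h3 0).2, (h2 0).1⟩, h3, h2⟩

theorem Box.sub (hb : Box b) (t : R ≃ₘ^∞⟮𝓡 2, 𝓡 2⟯ R) {σ : ℝ → ℝ} (hσ : Up σ univ) :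
    Box (b ∘ Prod.map t σ) := IsOE.comp hb ((IsOE.of_diffeo t).prodMap hσ.isOE)

theorem slab_sub (b : R × ℝ → Y) {t : R → R} (ht : Surjective t) (σ : ℝ → ℝ) (s : Set ℝ) :
    slab (b ∘ Prod.map t σ) s = slab b (σ '' s) := by
  rw [slab, slab, image_comp, prodMap_image_prod, image_univ, ht.range_eq]

/-- the regluing `G` (by `h = s⁻¹ t s t⁻¹`) is the exchange `S₁` followed by the exchange `S₂` -/
structure Cm {h : R → R} (G : Rg b h b') (t s : R ≃ₘ^∞⟮𝓡 2, 𝓡 2⟯ R) (σ₁ σ₂ : ℝ → ℝ) where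
  lv : Lv σ₁ σ₂
  eq : ∀ x, s (h (t x)) = t (s x)
  Y₁ : CM 3
  c₁ : R × ℝ → Y₁
  c₂ : R × ℝ → Y₁
  S₁ : Sw (b ∘ Prod.map id σ₁) (b ∘ Prod.map t σ₂) c₁ c₂
  S₂ : Sw c₁ (c₂ ∘ px s) (b' ∘ Prod.map id σ₁) (b' ∘ Prod.map (fun x => h (t x)) σ₂)
  out : ∀ y ∉ slab b (Icc (σ₁ 0) (σ₂ 0)), S₂.φ (S₁.φ y) = G.φ y
  mid : ∀ p : R × ℝ, p.2 ∈ Ioo (σ₁ 0) (σ₂ 0) → S₂.φ (S₁.φ (b p)) = b' (px s.symm p)

theorem exists_cm {h : R ≃ₘ^∞⟮𝓡 2, 𝓡 2⟯ R} (G : Rg b h b') (t s : R ≃ₘ^∞⟮𝓡 2, 𝓡 2⟯ R)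
    (e : ∀ x, s (h (t x)) = t (s x)) {σ₁ σ₂ : ℝ → ℝ} (L : Lv σ₁ σ₂) :
    Nonempty (Cm G t s σ₁ σ₂) := by
  classical
  have m₁ := L.u₁.strictMono
  have m₂ := L.u₂.strictMono
  have dj : ∀ {Z : CM 3} {c : R × ℝ → Z}, Box c → ∀ (u : R → R) p q,
      (c ∘ Prod.map id σ₁) p ≠ (c ∘ Prod.map u σ₂) q := fun hc u p q e =>
    (L.lt _ _).ne (congrArg Prod.snd (hc.inj e))
  obtain ⟨Y₁, c₁, c₂, ⟨S₁⟩⟩ := swStmt Y R (b ∘ Prod.map id σ₁) (b ∘ Prod.map t σ₂)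
    (G.o.sub (Diffeomorph.refl _ _ _) L.u₁) (G.o.sub t L.u₂) (dj G.o t)
  set α := σ₁ 0
  set β := σ₂ 0
  have h0 : (0 : ℝ) ∈ Icc α β := ⟨L.neg.le, L.pos.le⟩
  have sl : ∀ {Z : CM 3} (c : R × ℝ → Z) {u : R → R}, Surjective u →
      slab (c ∘ Prod.map id σ₁) {0} ∪ slab (c ∘ Prod.map u σ₂) {0} = slab c {α, β} := by
    intro Z c u hu
    rw [slab_sub c surjective_id, slab_sub c hu, image_singleton, image_singleton, slab, slab, slab,
      ← image_union, ← prod_union, singleton_union]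
  have split : ∀ {Z : CM 3} {c : R × ℝ → Z} {y : Z}, y ∉ slab c {α, β} →
      y ∈ slab c (Ioo α β) ∨ y ∉ slab c (Icc α β) := by
    intro Z c y hy
    refine or_iff_not_imp_right.2 fun h1 => ?_
    obtain ⟨p, hp, rfl⟩ := not_not.1 h1
    exact ⟨p, ⟨mem_univ _, lt_of_le_of_ne hp.2.1 fun h2 => hy ⟨p, ⟨mem_univ _, .inl h2.symm⟩, rfl⟩,
      lt_of_le_of_ne hp.2.2 fun h2 => hy ⟨p, ⟨mem_univ _, .inr h2⟩, rfl⟩⟩, rfl⟩
  have sub : ({α, β} : Set ℝ) ⊆ Icc α β := pair_subset (left_mem_Icc.2 (h0.1.trans h0.2))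
    (right_mem_Icc.2 (h0.1.trans h0.2))
  let ψ : Y → Y' := extend b (fun p => if p.2 ∈ Ioo α β then b' (px s.symm p) else G.φ (b p)) G.φ
  have ψ1 : ∀ p : R × ℝ, p.2 ∈ Ioo α β → ψ (b p) = b' (px s.symm p) := fun p hp =>
    (G.o.inj.extend_apply _ _ p).trans (if_pos hp)
  have ψ2 : ∀ y ∉ slab b (Icc α β), ψ y = G.φ y := fun y hy => by
    by_cases h1 : ∃ p, b p = y
    · obtain ⟨p, rfl⟩ := h1
      exact (G.o.inj.extend_apply _ _ p).trans
        (if_neg fun hp => hy ((mem_slab G.o).2 (Ioo_subset_Icc_self hp)))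
    · exact extend_apply' _ _ _ h1
  have ψ3 : ∀ y ∉ slab b (Icc α β), ψ y ∉ slab b' (Icc α β) := fun y hy h1 =>
    hy ((G.mem_slab (G.mem_of_notMem h0 hy)).1 (ψ2 y hy ▸ h1))
  obtain ⟨Ψ, e1, e2, e3⟩ := exists_pd (IA := 𝓡 3) (IB := 𝓡 3) G.φ.symm (f := ψ)
    (isClosed_slab G.o (toFinite {α, β}).isCompact).isOpen_compl
    (fun y hy => by
      rcases split hy with ⟨p, hp, rfl⟩ | h1
      · refine ld_of_comp (G.o.loc p) (ld_congr ((G.o'.px s.symm).loc p) ?_)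
        filter_upwards [(isOpen_Ioo.preimage continuous_snd).mem_nhds hp.2] with q hq using ψ1 q hq
      · refine ld_congr (G.φ.isLocalDiffeomorphAt _ _ _ (G.mem_of_notMem h0 h1)) ?_
        filter_upwards [(isClosed_slab G.o isCompact_Icc).isOpen_compl.mem_nhds h1] with z hz
          using ψ2 z hz)
    (fun y hy z hz e1 => by
      rcases split hy with ⟨p, hp, rfl⟩ | h1 <;> rcases split hz with ⟨q, hq, rfl⟩ | h2
      · rw [ψ1 p hp.2, ψ1 q hq.2] at e1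
        rw [(G.o'.px s.symm).inj e1]
      · exact (ψ3 z h2 (by rw [← e1, ψ1 p hp.2, mem_slab G.o']; exact Ioo_subset_Icc_self hp.2)).elim
      · exact (ψ3 y h1 (by rw [e1, ψ1 q hq.2, mem_slab G.o']; exact Ioo_subset_Icc_self hq.2)).elim
      · rw [ψ2 y h1, ψ2 z h2] at e1
        exact G.φ.injOn (G.mem_of_notMem h0 h1) (G.mem_of_notMem h0 h2) e1)
  have e4 : S₁.φ.source = Ψ.source := by rw [S₁.src, e1, sl b (u := t) t.surjective]
  have e5 : Ψ.target = (slab b' {α, β})ᶜ := by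
    rw [e2]
    refine Subset.antisymm ?_ fun y hy => ?_
    · rintro _ ⟨y, hy, rfl⟩ h1
      rcases split hy with ⟨p, hp, rfl⟩ | h2
      · rw [ψ1 p hp.2, mem_slab G.o'] at h1
        rcases h1 with h1 | h1
        exacts [hp.2.1.ne' h1, hp.2.2.ne h1]
      · exact ψ3 y h2 (slab_mono _ sub h1)
    · rcases split hy with ⟨p, hp, rfl⟩ | h2
      · refine ⟨b (px s p), fun h1 => hy ((mem_slab G.o').2 ((mem_slab G.o (p := px s p)).1 h1)), ?_⟩
        rw [ψ1 (px s p) hp.2]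
        exact congrArg b' (Prod.ext (s.symm_apply_apply _) rfl)
      · have h3 := G.symm.mem_of_notMem h0 h2
        have h4 : G.φ.symm y ∉ slab b (Icc α β) := fun h5 => h2 ((G.symm.mem_slab h3).1 h5)
        exact ⟨_, fun h5 => h4 (slab_mono _ sub h5), (ψ2 _ h4).trans (G.φ.right_inv h3)⟩
  have k : ∀ y ∈ S₁.φ.source, (S₁.φ.symm.trans Ψ) (S₁.φ y) = ψ y := fun y hy =>
    (e3 _).trans (congrArg ψ (S₁.φ.left_inv hy))
  have lo : ∀ x, ∀ v < α, ψ (b (x, v)) = b' (x, v) := fun x v hv =>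
    (ψ2 _ fun h1 => hv.not_ge ((mem_slab G.o).1 h1).1).trans (G.lo _ (hv.trans L.neg))
  have hi : ∀ x v, β < v → ψ (b (x, v)) = b' (h x, v) := fun x v hv =>
    (ψ2 _ fun h1 => hv.not_ge ((mem_slab G.o).1 h1).2).trans (G.hi _ (L.pos.trans hv))
  have ht : Surjective fun x => h (t x) := h.surjective.comp t.surjective
  refine ⟨⟨L, e, Y₁, c₁, c₂, S₁, ⟨S₁.o₁', S₁.o₂'.px s, fun p q => S₁.dj' _ _,
    G.o'.sub (Diffeomorph.refl _ _ _) L.u₁, G.o'.sub (t.trans h) L.u₂, dj G.o' _,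
    S₁.φ.symm.trans Ψ, ?_, ?_, fun p hp => ?_, fun p hp => ?_, fun p hp => ?_, fun p hp => ?_⟩,
    fun y hy => ?_, fun p hp => ?_⟩⟩
  · rw [slab_px c₂ (show Surjective (s : R → R) from s.surjective), ← S₁.tgt]
    exact inter_eq_left.2 fun y hy => e4 ▸ S₁.φ.map_target hy
  · rw [sl b' ht, ← e5]
    exact inter_eq_left.2 fun y hy => (e4.symm ▸ Ψ.map_target hy :)
  · rw [← S₁.lo₁ p hp, k _ (S₁.b₁_mem.2 hp.ne)]
    exact lo _ _ (m₁ hp)
  · rw [comp_apply, ← S₁.hi₁ (px s p) hp, k _ ((S₁.b₁_mem (p := px s p)).2 hp.ne')]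
    exact (ψ1 _ ⟨m₁ hp, L.lt _ _⟩).trans (congrArg b' (Prod.ext (s.symm_apply_apply _) rfl))
  · rw [comp_apply, ← S₁.lo₂ (px s p) hp, k _ ((S₁.b₂_mem (p := px s p)).2 hp.ne)]
    refine (ψ1 _ ⟨L.lt _ _, m₂ hp⟩).trans (congrArg b' (Prod.ext ?_ rfl))
    exact (congrArg s.symm (e p.1).symm).trans (s.symm_apply_apply _)
  · rw [← S₁.hi₂ p hp, k _ (S₁.b₂_mem.2 hp.ne')]
    exact hi _ _ (m₂ hp)
  · exact (k y (e4.trans e1 ▸ fun h1 => hy (slab_mono _ sub h1))).trans (ψ2 y hy)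
  · refine (k _ (e4.trans e1 ▸ fun h1 => ?_)).trans (ψ1 p hp)
    rcases (mem_slab G.o).1 h1 with h1 | h1
    exacts [hp.1.ne' h1, hp.2.ne h1]

end Crest.Agent.X212.Sep15
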