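import Crest.Agent.X212.Sep15.SwB

/-!
# X212/Sep15/Mono (helper15): SW-MONO, small terms are absorbed
-/

set_option autoImplicit false
set_option linter.unusedSectionVars false
set_option maxHeartbeats 200000
noncomputable section
open scoped Manifold ContDiff Topology InnerProductSpace ENNReal
open MeasureTheory Set Function Filter

namespace Crest.Agent.X212.Sep15.S
open An Cyf70 Sw Sw.En3
open Nd18 (Jv)

variable {κ lam ν : Type} [Fintype κ] [Fintype lam] [Fintype ν] [DecidableEq ν]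

theorem measurableSet_str (d : ℝ) : MeasurableSet {p : ℝ × ℝ | p.2 ∈ Ioo (p.1 - d) (p.1 + d)} :=
  ((isOpen_lt (by fun_prop) continuous_snd).inter
    (isOpen_lt continuous_snd (by fun_prop))).measurableSet

theorem measurable_win (m : Measure ℝ) [SFinite m] (d : ℝ) :
    Measurable fun s => m (Ioo (s - d) (s + d)) :=
  measurable_measure_prodMk_left (measurableSet_str d)

theorem lint_win (m : Measure ℝ) [SFinite m] {I : Set ℝ} (hI : MeasurableSet I) :
    ∫⁻ s in I, m (Ioo (s - 3 / 4) (s + 3 / 4)) ≤ 2 * m (Metric.thickening 1 I) := by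
  have h := measurableSet_str (3 / 4)
  refine ((Measure.prod_apply (μ := volume.restrict I) (ν := m) h).symm.trans
    (Measure.prod_apply_symm h)).trans_le ?_
  rw [← setLIntegral_const, ← lintegral_indicator Metric.isOpen_thickening.measurableSet]
  refine lintegral_mono fun t => ?_
  by_cases k : t ∈ Metric.thickening 1 I
  · rw [indicator_of_mem k]
    refine (Measure.restrict_le_self _).trans ((measure_mono (t := Ioo (t - 1) (t + 1))
      fun s hs => ⟨by linarith [hs.2], by linarith [hs.1]⟩).trans ?_)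
    rw [Real.volume_Ioo, show t + 1 - (t - 1) = 2 by ring, ENNReal.ofReal_ofNat]
  · rw [indicator_of_notMem k, Measure.restrict_apply' hI, eq_empty_of_forall_notMem
      (s := _ ∩ I) fun s hs => k (Metric.mem_thickening_iff.2 ⟨s, hs.2, ?_⟩), measure_empty]
    rw [Real.dist_eq, abs_lt]
    exact ⟨by linarith [hs.1.1], by linarith [hs.1.2]⟩

variable {e : En3 κ lam ν} {W : Type} {T : W → Option e.YT} {q : W →₀ ℝ} {c : e.ZC} {v : e.YC}
  {k : ℕ} {η : ℝ}

/-- the energy as a measure -/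
def em (c : e.ZC) : Measure ℝ := volume.withDensity fun t => ENNReal.ofReal (gn (sl c t))

instance (c : e.ZC) : SFinite (em c) := by unfold em; infer_instance

theorem em_apply (c : e.ZC) {I : Set ℝ} (hI : MeasurableSet I) : em c I = en c I :=
  withDensity_apply _ hI

theorem en_mono (c : e.ZC) {I J : Set ℝ} (h : I ⊆ J) : en c I ≤ en c J := lintegral_mono_set h

theorem sml_mono {k' : ℕ} {η' : ℝ} (h : Sml T q k η) (h1 : k' ≤ k) (h2 : η ≤ η') :
    Sml T q k' η' :=
  let ⟨s, a, b⟩ := h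
  ⟨s, a.trans h2, fun w hw => ⟨(b w hw).1, fun T' hT j hj r l hl =>
    (b w hw).2 T' hT j (hj.trans h1) r l (hl.trans h1)⟩⟩

theorem tau_le (h : Sml T q k η) (c : e.ZC) (x : e.Y.M × ℝ) : ‖tau T q c x‖ ≤ η := by
  obtain ⟨s, a, b⟩ := h
  refine (norm_sum_le _ _).trans ((Finset.sum_le_sum fun w hw => ?_).trans a)
  rw [norm_smul, Real.norm_eq_abs]
  refine mul_le_mul_of_nonneg_left ?_ (abs_nonneg _)
  cases hT : T w with
  | none => simpa using (b w hw).1
  | some T' => simpa [Pre.Dw] using (b w hw).2 T' hT 0 k.zero_le (lb c x.2) [] k.zero_le x.1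

theorem tau_ne {x : e.Y.M × ℝ} (h : tau T q c x ≠ 0) : e.Inv ∧ lb c x.2 ∈ e.S := by
  obtain ⟨w, -, hw⟩ := Finset.exists_ne_zero_of_sum_ne_zero h
  cases hT : T w with
  | none => simp [hT] at hw
  | some T' =>
    simp only [hT] at hw
    exact ⟨T'.inv, T'.S (left_ne_zero_of_smul (right_ne_zero_of_smul hw))⟩

theorem integrable_gn (h : e.OK) (hv : e.cyl.Adm (fz v)) : Integrable (fun y =>
    2 * ∑ k, (gr v).a k y * (gr v).a k y + e.w * ⟪(gr v).Φ y, (gr v).Φ y⟫_ℝ) e.D.F.μ :=
  integrable_Y ((continuous_const.mul (continuous_finsetSum _ fun k _ =>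
    (sm_gr_a h hv k).continuous.mul (sm_gr_a h hv k).continuous)).add
    (continuous_const.mul ((sm_gr_Φ h hv).continuous.inner (sm_gr_Φ h hv).continuous)))

theorem ip_le (h : e.OK) (hv : e.cyl.Adm (fz v)) {τ : κ → e.Y.M → ℝ} {β : ℝ}
    (hb : ∀ k y, τ k y ^ 2 ≤ β) : ip (gr v) ⟨fun k y => 2 * τ k y, 0⟩ ≤
      gn v / 2 + 4 * Fintype.card κ * β * e.D.F.μ.real univ := by
  refine (le_abs_self _).trans ((abs_integral_le_integral_abs).trans ?_)
  rw [mul_comm _ (e.D.F.μ.real univ), ← smul_eq_mul (e.D.F.μ.real univ), ← integral_const, gn, ip,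
    ← integral_div, ← integral_add ((integrable_gn h hv).div_const 2) (integrable_const _)]
  refine integral_mono_of_nonneg (.of_forall fun y => abs_nonneg _)
    (((integrable_gn h hv).div_const 2).add (integrable_const _)) (.of_forall fun y => ?_)
  have h1 : 0 ≤ e.w * ⟪(gr v).Φ y, (gr v).Φ y⟫_ℝ := mul_nonneg h.cyl.w real_inner_self_nonneg
  have h2 : ∑ k, |(gr v).a k y * (2 * τ k y)| ≤
      ∑ k, ((gr v).a k y * (gr v).a k y / 2 + 2 * β) := Finset.sum_le_sum fun k _ => by
    rw [abs_le]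
    constructor <;> nlinarith [hb k y, sq_nonneg ((gr v).a k y + 2 * τ k y),
      sq_nonneg ((gr v).a k y - 2 * τ k y)]
  have h3 := Finset.abs_sum_le_sum_abs (fun k => (gr v).a k y * (2 * τ k y)) Finset.univ
  rw [Finset.sum_add_distrib, ← Finset.sum_div, Finset.sum_const, Finset.card_univ,
    nsmul_eq_mul] at h2
  simp only [Pi.zero_apply, inner_zero_right, mul_zero, add_zero, abs_mul, abs_two]
  simp only [abs_mul, abs_two] at h2 h3
  linarith

theorem active (hW : WinStmt κ lam ν) {g : e.Gen} (hg : g.OK) (C : ℝ) : ∃ ε > 0,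
    ∀ (W : Type) (T : W → Option e.YT) q c p p', Sml T q 4 1 → Loc T q c p p' →
      Sup c (Jv p p') C → ∀ y s, s - 1 ∈ Jv p p' → s + 1 ∈ Jv p p' → tau T q c (y, s) ≠ 0 →
      ENNReal.ofReal ε ≤ en c (Ioo (s - 3 / 4) (s + 3 / 4)) := by
  by_cases hI : e.Inv
  · obtain ⟨ε, h0, h1⟩ := hW.gap e g hg hI (max C 1)
    refine ⟨ε, h0, fun W T q c p p' hs hl hc y s k1 k2 k3 => ?_⟩
    have o := (ordConnected_Jv p p').out k1 k2
    exact h1 W T q c s (sml_mono hs le_rfl (le_max_right _ _))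
      (loc_win hl (o ⟨by linarith, by linarith⟩) (o ⟨by linarith, by linarith⟩))
      (fun x hx => (hc x ⟨trivial, o (Ioo_subset_Icc_self hx.2)⟩).trans (le_max_left _ _))
      (tau_ne k3).2
  · exact ⟨1, one_pos, fun W T q c p p' _ _ _ y s _ _ k => (hI (tau_ne k).1).elim⟩

/-- **SW-MONO** -/
theorem mono (hW : WinStmt κ lam ν) (hD : DlStmt κ lam ν) : MonoStmt κ lam ν := by
  intro e g hg C ε hε
  obtain ⟨ε₀, h0, h1⟩ := active hW hg C
  set m := e.D.F.μ.real univ
  have hm : 0 ≤ m := measureReal_nonneg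
  set n : ℝ := (Fintype.card κ : ℝ)
  have hn : 0 ≤ n := Nat.cast_nonneg _
  obtain ⟨η, η0, η1, η2⟩ : ∃ η > (0 : ℝ), η ≤ 1 ∧ 2 * (4 * n + 1) * m * (η ^ 2 / ε₀) ≤ ε := by
    refine ⟨min 1 (ε * ε₀ / (2 * (4 * n + 1) * m + 1)), by positivity, min_le_left _ _, ?_⟩
    set η := min 1 (ε * ε₀ / (2 * (4 * n + 1) * m + 1))
    have a0 : 0 < η := by positivity
    have a1 : η ≤ 1 := min_le_left _ _
    have a2 : η * (2 * (4 * n + 1) * m + 1) ≤ ε * ε₀ :=
      (le_div_iff₀ (by positivity)).1 (min_le_right _ _)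
    rw [← mul_div_assoc, div_le_iff₀ h0]
    have : 0 ≤ 2 * (4 * n + 1) * m := by positivity
    nlinarith [mul_le_mul_of_nonneg_left (show η ^ 2 ≤ η by nlinarith) this]
  set A := η ^ 2 / ε₀
  have hA : 0 ≤ A := by positivity
  refine ⟨η, η0, fun W T q c p p' hs hl hc => ?_⟩
  have key : ∀ y s, s - 1 ∈ Jv p p' → s + 1 ∈ Jv p p' → ‖tau T q c (y, s)‖ₑ ^ 2 ≤
      ENNReal.ofReal A * em c (Ioo (s - 3 / 4) (s + 3 / 4)) := fun y s k1 k2 => by
    by_cases k : tau T q c (y, s) = 0
    · simp [k]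
    rw [em_apply c measurableSet_Ioo]
    refine le_trans ?_ (mul_le_mul_right (h1 W T q c p p' (sml_mono hs le_rfl η1) hl hc y s k1 k2 k) _)
    rw [← ENNReal.ofReal_mul hA, div_mul_cancel₀ _ h0.ne', ← ofReal_norm,
      ← ENNReal.ofReal_pow (norm_nonneg _)]
    exact ENNReal.ofReal_le_ofReal (pow_le_pow_left₀ (norm_nonneg _) (tau_le hs _ _) 2)
  refine ⟨fun I hI hJ => ?_, fun s t hst k1 k2 => ?_⟩
  · have mw := (measurable_win (em c) (3 / 4)).const_mul (ENNReal.ofReal A)
    refine (setLIntegral_mono' (g := fun x : e.Y.M × ℝ => ENNReal.ofReal A *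
      em c (Ioo (x.2 - 3 / 4) (x.2 + 3 / 4))) (MeasurableSet.univ.prod hI) fun x hx => ?_).trans ?_
    · have := mem_Jv_map.1 (hJ hx.2)
      exact key x.1 x.2 ⟨fun a ha => by linarith [this.1 a ha], fun a ha => by linarith [this.2 a ha]⟩
        ⟨fun a ha => by linarith [this.1 a ha], fun a ha => by linarith [this.2 a ha]⟩
    rw [show e.D.Z.μ = e.D.F.μ.prod volume from rfl, ← Measure.prod_restrict, Measure.restrict_univ,
      lintegral_prod _ (by exact (mw.comp measurable_snd).aemeasurable)]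
    simp only []
    rw [lintegral_const, lintegral_const_mul _ (measurable_win _ _),
      ← em_apply c Metric.isOpen_thickening.measurableSet]
    refine (mul_le_mul_left (mul_le_mul_right (lint_win _ hI) _) _).trans ?_
    rw [← mul_assoc, mul_right_comm, ← ENNReal.ofReal_toReal (measure_ne_top e.D.F.μ univ),
      ← ENNReal.ofReal_ofNat, ← ENNReal.ofReal_mul hA, ← ENNReal.ofReal_mul (by positivity)]
    refine mul_le_mul_left (ENNReal.ofReal_le_ofReal (le_trans ?_ η2)) _
    show A * 2 * m ≤ _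
    nlinarith [mul_nonneg (mul_nonneg hn hm) hA]
  have o := (ordConnected_Jv p p').out k1 k2
  have a := admOn_mono hl.adm (prod_mono_right (Jv_sub p p'))
  obtain ⟨d1, d2, d3⟩ := hD e hg.ok c _ (isOpen_Jv p p') a
  have i1 : Icc s t ⊆ Icc (s - 1) (t + 1) := Icc_subset_Icc (by linarith) (by linarith)
  have gi : IntegrableOn (fun r => gn (sl c r)) (Icc (s - 1) (t + 1)) :=
    (d2.continuousOn.mono o).integrableOn_Icc
  have fin : en c (Ioo (s - 1) (t + 1)) ≠ ⊤ :=
    (gi.mono_set Ioo_subset_Icc_self).lintegral_lt_top.ne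
  have th : Metric.thickening 1 (Icc s t) ⊆ Ioo (s - 1) (t + 1) := fun r hr => by
    obtain ⟨z, hz, k⟩ := Metric.mem_thickening_iff.1 hr
    rw [Real.dist_eq, abs_lt] at k
    exact ⟨by linarith [hz.1], by linarith [hz.2]⟩
  have lw : ∫⁻ r in Icc s t, em c (Ioo (r - 3 / 4) (r + 3 / 4)) ≤ 2 * en c (Ioo (s - 1) (t + 1)) :=
    (lint_win _ measurableSet_Icc).trans (mul_le_mul_right
      ((em_apply c Metric.isOpen_thickening.measurableSet).trans_le (en_mono c th)) _)
  have f2 : 2 * en c (Ioo (s - 1) (t + 1)) ≠ ⊤ := ENNReal.mul_ne_top (by simp) fin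
  have f3 : ∀ r ∈ Icc s t, em c (Ioo (r - 3 / 4) (r + 3 / 4)) ≠ ⊤ := fun r hr =>
    ne_top_of_le_ne_top fin ((em_apply c measurableSet_Ioo).trans_le
      (en_mono c (Ioo_subset_Ioo (by linarith [hr.1]) (by linarith [hr.2]))))
  have mw := (measurable_win (em c) (3 / 4)).aemeasurable (μ := volume.restrict (Icc s t))
  have ni := integrable_toReal_of_lintegral_ne_top mw (ne_top_of_le_ne_top f2 lw)
  have ft := intervalIntegral.sub_le_integral_of_hasDeriv_right_of_le (φ := fun r =>
    -(gn (sl c r) / 2) + 4 * n * A * m * (em c (Ioo (r - 3 / 4) (r + 3 / 4))).toReal) hst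
    (d1.continuousOn.mono (i1.trans o))
    (fun r hr => (d3 r (o (i1 (Ioo_subset_Icc_self hr))) fun y =>
      (hl.eq (y, r) ⟨trivial, o (i1 (Ioo_subset_Icc_self hr))⟩).1).hasDerivWithinAt)
    (((gi.mono_set i1).div_const 2).neg.add (ni.const_mul _)) fun r hr => by
      have hr' := o (i1 (Ioo_subset_Icc_self hr))
      have := ip_le hg.ok (loc_sl hl hr') (τ := fun k y => (e.cyl.eC c (y, r) +
        deriv e.f (hol (sl c r)) • e.ζ y) (none, some k))
        (β := A * (em c (Ioo (r - 3 / 4) (r + 3 / 4))).toReal) fun k y => by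
          have e1 : e.cyl.eC c (y, r) + deriv e.f (hol (sl c r)) • e.ζ y = tau T q c (y, r) := by
            rw [(hl.eq (y, r) ⟨trivial, hr'⟩).2]
            simp [pt]
          have e2 := ENNReal.toReal_mono (ENNReal.mul_ne_top ENNReal.ofReal_ne_top
            (f3 r (Ioo_subset_Icc_self hr))) (key y r (o ⟨by linarith [hr.1], by linarith [hr.2]⟩)
            (o ⟨by linarith [hr.1], by linarith [hr.2]⟩))
          rw [ENNReal.toReal_mul, ENNReal.toReal_ofReal hA, ENNReal.toReal_pow, toReal_enorm] at e2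
          rw [e1, ← sq_abs]
          exact (pow_le_pow_left₀ (abs_nonneg _) (PiLp.norm_apply_le _ _) 2).trans e2
      linarith
  rw [intervalIntegral.integral_of_le hst, ← integral_Icc_eq_integral_Ioc,
    integral_add (by exact ((gi.mono_set i1).div_const 2).neg) (ni.const_mul _), integral_neg, integral_div,
    integral_const_mul, integral_toReal mw ((ae_restrict_mem measurableSet_Icc).mono
      fun r hr => (f3 r hr).lt_top), integral_Icc_eq_integral_Ioo,
    integral_eq_lintegral_of_nonneg_ae (.of_forall fun r => gn_nonneg hg.w.le _)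
      (gi.mono_set (Ioo_subset_Icc_self.trans i1)).1] at ft
  have l2 := ENNReal.toReal_mono f2 lw
  rw [ENNReal.toReal_mul, ENNReal.toReal_ofNat] at l2
  have l3 := mul_le_mul_of_nonneg_left l2 (show 0 ≤ 4 * n * A * m by positivity)
  have l4 := mul_le_mul_of_nonneg_right (show 4 * n * A * m * 2 ≤ ε by
    nlinarith [mul_nonneg hA hm]) (ENNReal.toReal_nonneg (a := en c (Ioo (s - 1) (t + 1))))
  unfold en at *
  linarith

end Crest.Agent.X212.Sep15.S
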