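import Crest.Agent.X212.Sep15.CvA
import Crest.Agent.X212.Win39.Rig
import Crest.Agent.X212.Pb50.Act
import Crest.Agent.X212.Nd18.Api

/-!
# X212/Sep15/Pat (helper15): the calculus of `Cl`, patching of gauge transformations
-/

set_option autoImplicit false
set_option linter.unusedSectionVars false
set_option maxHeartbeats 200000
noncomputable section
open scoped Manifold ContDiff Topology InnerProductSpace
open MeasureTheory Set Function Filter

namespace Crest.Agent.X212.Sep15.S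
open An Cyf70 Sw Sw.En3 Sob92
open Wz78 (SA)
open Neck67 (Lb)
open M (Mf pm)
open Win39 (bt nh mi D_gau gau_at sm_bt)
open Pb50 (LA LG th cB)

variable {κ lam ν : Type} [Fintype κ] [Fintype lam] [Fintype ν] [DecidableEq ν]
  {e : En3 κ lam ν} {T T' : Set ℝ} {c c' c'' : e.ZC} {v v' : e.YC} {u u' : e.Y.M × ℝ → ℂ}
  {k : ℕ} {η η' : ℝ}

theorem op (hT : IsOpen T) : IsOpen ((univ : Set e.Y.M) ×ˢ T) := isOpen_univ.prod hT

theorem dw_congr {N : Type} [NormedAddCommGroup N] [NormedSpace ℝ N] {x : e.Y.M × ℝ}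
    (w : List (Option κ)) : ∀ {f g : e.Y.M × ℝ → N}, f =ᶠ[𝓝 x] g →
      e.D.Z.Dw w f =ᶠ[𝓝 x] e.D.Z.Dw w g := by
  induction w with
  | nil => exact id
  | cons a w ih => exact fun h => ih (h.eventuallyEq_nhds.mono fun y hy => dv_congr hy)

theorem cl_mono {k' : ℕ} (h : Cl c c' T k η) (h1 : T' ⊆ T) (h2 : k' ≤ k) (h3 : η ≤ η') :
    Cl c c' T' k' η' := fun w hw x hx =>
  let a := h w (hw.trans h2) x (prod_mono_right h1 hx)
  ⟨fun i => (a.1 i).trans h3, a.2.trans h3⟩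

theorem nr_mono {k' : ℕ} {s : ℝ} (h : Nr c v s k η) (h2 : k' ≤ k) (h3 : η ≤ η') : Nr c v s k' η' :=
  h.imp fun _ h => ⟨h.1, cl_mono h.2 Subset.rfl h2 h3⟩

/-- agreement over the times `T` -/
def Ag (c c' : e.ZC) (T : Set ℝ) : Prop :=
  ∀ x ∈ univ ×ˢ T, (∀ i, c.a i x = c'.a i x) ∧ c.Φ x = c'.Φ x

theorem Ag.cl (h : Ag c c' T) (hT : IsOpen T) (h' : Cl c' c'' T k η) : Cl c c'' T k η :=
  fun w hw x hx => ⟨fun i => (dw_congr w (f := c.a i - c''.a i) (g := c'.a i - c''.a i)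
    (mem_of_superset (nh hT hx) fun y hy => congrArg (· - c''.a i y) ((h y hy).1 i))).self_of_nhds ▸
      (h' w hw x hx).1 i, (dw_congr w (f := c.Φ - c''.Φ) (g := c'.Φ - c''.Φ)
    (mem_of_superset (nh hT hx) fun y hy => congrArg (· - c''.Φ y) (h y hy).2)).self_of_nhds ▸
      (h' w hw x hx).2⟩

theorem Ag.tz (h : Ag c c' T) (hT : IsOpen T) (w : List (Option κ)) : tz c v T w = tz c' v T w :=
  setLIntegral_congr_fun (op hT).measurableSet fun x hx => by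
    simp only [fun i => (dw_congr w (f := c.a i - (fz v).a i) (g := c'.a i - (fz v).a i)
      (mem_of_superset (nh hT hx) fun y hy => congrArg (· - (fz v).a i y) ((h y hy).1 i))).self_of_nhds,
      (dw_congr w (f := c.Φ - (fz v).Φ) (g := c'.Φ - (fz v).Φ)
      (mem_of_superset (nh hT hx) fun y hy => congrArg (· - (fz v).Φ y) (h y hy).2)).self_of_nhds]

theorem Ag.trans (h : Ag c c' T) (h' : Ag c' c'' T) : Ag c c'' T := fun x hx =>
  ⟨fun i => ((h x hx).1 i).trans ((h' x hx).1 i), (h x hx).2.trans (h' x hx).2⟩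

theorem Ag.symm (h : Ag c c' T) : Ag c' c T := fun x hx =>
  ⟨fun i => ((h x hx).1 i).symm, (h x hx).2.symm⟩

theorem Ag.mono (h : Ag c c' T) (h' : T' ⊆ T) : Ag c c' T' := fun x hx => h x (prod_mono_right h' hx)

theorem Ag.act (h : Ag c c' T) (u : e.Y.M × ℝ → ℂ) : Ag (e.cyl.act u c) (e.cyl.act u c') T :=
  fun x hx => ⟨fun i => congrArg (· - _) ((h x hx).1 i), congrArg (cs _ _) (h x hx).2⟩

theorem ag_act (hT : IsOpen T) (h : ∀ x ∈ univ ×ˢ T, u x = u' x) (c : e.ZC) :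
    Ag (e.cyl.act u c) (e.cyl.act u' c) T := fun x hx =>
  ⟨fun i => by
    simp only [Win39.act_a, bt, h x hx, Pre.D_def, dv_congr (mem_of_superset (nh hT hx) h)],
    by rw [Win39.act_P, Win39.act_P, h x hx]⟩

theorem ag_one (hT : IsOpen T) (h : ∀ x ∈ univ ×ˢ T, u x = 1) (c : e.ZC) :
    Ag (e.cyl.act u c) c T := by
  have := ag_act hT h c
  rwa [Pb50.act_one] at this

theorem ag_mul (H : e.OK) (hT : IsOpen T) (hu : GauOn e.Z.I u (univ ×ˢ T))
    (hu' : GauOn e.Z.I u' (univ ×ˢ T)) (c : e.ZC) :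
    Ag (e.cyl.act u' (e.cyl.act u c)) (e.cyl.act (fun x => u' x * u x) c) T := fun x hx =>
  ⟨fun i => by
    simp only [Pb50.act_a, Pb50.th_mul _ (LG.of_on hu' (op hT) hx) (LG.of_on hu (op hT) hx)]
    ring, Win39.cs_cs H.cyl.m.Jsq _ _ _⟩

theorem gauOn_mul {O : Set (e.Y.M × ℝ)} (hu : GauOn e.Z.I u O) (hu' : GauOn e.Z.I u' O) :
    GauOn e.Z.I (fun x => u' x * u x) O :=
  ⟨fun x hx => ((ContinuousLinearMap.mul ℝ ℂ).contMDiff.contMDiffAt.comp_contMDiffWithinAt x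
    (hu'.1 x hx)).clm_apply (hu.1 x hx), fun x hx => by rw [norm_mul, hu.2 x hx, hu'.2 x hx, one_mul]⟩

theorem gauOn_star {O : Set (e.Y.M × ℝ)} (hu : GauOn e.Z.I u O) :
    GauOn e.Z.I (fun x => star (u x)) O :=
  ⟨(Complex.conjCLE : ℂ →L[ℝ] ℂ).contMDiff.comp_contMDiffOn hu.1, fun x hx => by
    rw [norm_star, hu.2 x hx]⟩

theorem gauOn_mono {O O' : Set (e.Y.M × ℝ)} (hu : GauOn e.Z.I u O) (h : O' ⊆ O) :
    GauOn e.Z.I u O' := ⟨hu.1.mono h, fun x hx => hu.2 x (h hx)⟩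

theorem gauOn_of (hu : Gau e.Z.I u) (O : Set (e.Y.M × ℝ)) : GauOn e.Z.I u O :=
  ⟨hu.1.contMDiffOn, fun x _ => hu.2 x⟩

theorem admOn_of (h : e.cyl.Adm c) (O : Set (e.Y.M × ℝ)) : e.cyl.AdmOn c O :=
  Pb50.admOn_of fun x _ => LA.of_adm h x

theorem admOn_act (H : e.OK) (hT : IsOpen T) (h : e.cyl.AdmOn c (univ ×ˢ T))
    (hu : GauOn e.Z.I u (univ ×ˢ T)) : e.cyl.AdmOn (e.cyl.act u c) (univ ×ˢ T) :=
  Pb50.admOn_of fun _ hx => (LA.of_on h (op hT) hx).act H.cyl (gau_at hT hu hx)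

theorem cl_lb (hT : IsOpen T) (h : e.cyl.AdmOn c (univ ×ˢ T)) (h' : e.cyl.AdmOn c' (univ ×ˢ T)) :
    Cl c c' T k η ↔ (∀ i, Lb e.D.Z.toPre (univ ×ˢ T) k (fun x => c.a i x - c'.a i x) η) ∧
      Lb e.D.Z.toPre (univ ×ˢ T) k (fun x => c.Φ x - c'.Φ x) η :=
  ⟨fun g => ⟨fun i => Lb.of_Dw (fun _ hx => ((h.sa i).contMDiffAt (nh hT hx)).sub
      ((h'.sa i).contMDiffAt (nh hT hx))) fun w hw x hx => (g w hw x hx).1 i,
    Lb.of_Dw (fun _ hx => (h.sΦ.contMDiffAt (nh hT hx)).sub (h'.sΦ.contMDiffAt (nh hT hx)))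
      fun w hw x hx => (g w hw x hx).2⟩,
    fun g w hw x hx => ⟨fun i => (g.1 i).Dw w hw x hx, g.2.Dw w hw x hx⟩⟩

theorem cl_tri (hT : IsOpen T) (h : e.cyl.AdmOn c (univ ×ˢ T)) (h' : e.cyl.AdmOn c' (univ ×ˢ T))
    (h'' : e.cyl.AdmOn c'' (univ ×ˢ T)) (g : Cl c c' T k η) (g' : Cl c' c'' T k η') :
    Cl c c'' T k (η + η') := by
  rw [cl_lb hT h h'] at g
  rw [cl_lb hT h' h''] at g'
  exact (cl_lb hT h h'').2 ⟨fun i => (Lb.add (op hT) (g.1 i) (g'.1 i)).congr (op hT) fun x _ =>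
    (sub_add_sub_cancel _ _ _).symm, (Lb.add (op hT) g.2 g'.2).congr (op hT) fun x _ =>
    (sub_add_sub_cancel _ _ _).symm⟩

theorem cl_symm (hT : IsOpen T) (h : e.cyl.AdmOn c (univ ×ˢ T)) (h' : e.cyl.AdmOn c' (univ ×ˢ T))
    (h0 : 0 ≤ η) (g : Cl c c' T k η) : Cl c' c T k η := by
  rw [cl_lb hT h h'] at g
  exact (cl_lb hT h' h).2 ⟨fun i => (((g.1 i).neg (op hT)).congr (op hT) fun x _ =>
    (neg_sub _ _).symm).mono (abs_of_nonneg h0).le, ((g.2.neg (op hT)).congr (op hT) fun x _ =>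
    (neg_sub _ _).symm).mono (abs_of_nonneg h0).le⟩

theorem cl_self (h0 : 0 ≤ η) : Cl c c T k η := fun w hw x hx => by
  have a := fun (N : Type) [NormedAddCommGroup N] [NormedSpace ℝ N] => ((Lb.of_CB (F := e.D.Z.toPre)
    (S := univ) contMDiff_const (CB_const k (0 : N))).Dw w hw x trivial).trans (norm_zero.trans_le h0)
  simp only [sub_self]
  exact ⟨fun _ => a ℝ, a _⟩

/-- static configurations are bounded -/
theorem lb_fz {N : Type} [NormedAddCommGroup N] [NormedSpace ℝ N] {g : e.Y.M × ℝ → N}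
    (h : Sm (IC e.Y.I) g) (h' : ∀ x, g x = g (x.1, 0)) (k : ℕ) :
    ∃ C, 0 ≤ C ∧ ∀ S, Lb e.D.Z.toPre S k g C := by
  obtain ⟨C, hC⟩ : e.D.Z.Cb g :=
    (funext h' : g = _) ▸ Cht98.Cb_fst _ (Cb_of_compact (sm_slice_fst h 0))
  exact ⟨|C k|, abs_nonneg _, fun S => (Lb.of_CB hC.1 (hC.2 k)).abs⟩

theorem cl_fz (hv : e.cyl.Adm (fz v)) (hv' : e.cyl.Adm (fz v')) (k : ℕ) :
    ∃ B, ∀ T, IsOpen T → Cl (fz v) (fz v') T k B := by
  choose C h0 hC using fun i => lb_fz (g := fun x => (fz v).a i x - (fz v').a i x)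
    ((hv.sa i).sub (hv'.sa i)) (fun x => by cases i <;> rfl) k
  obtain ⟨C', -, hC'⟩ := lb_fz (g := fun x => (fz v).Φ x - (fz v').Φ x) (hv.sΦ.sub hv'.sΦ)
    (fun _ => rfl) k
  obtain ⟨B, hB⟩ := Finite.exists_le C
  exact ⟨max B C', fun T hT => (cl_lb hT (admOn_of hv _) (admOn_of hv' _)).2
    ⟨fun i => (hC i _).mono ((hB i).trans (le_max_left _ _)), (hC' _).mono (le_max_right _ _)⟩⟩

/-- uniform bounds for gauge transformations -/
theorem lb_gau (k : ℕ) (B : ℝ) : ∃ C, 0 ≤ C ∧ ∀ (T : Set ℝ) (u : e.Y.M × ℝ → ℂ), IsOpen T →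
    GauOn e.Z.I u (univ ×ˢ T) → (∀ i, Lb e.D.Z.toPre (univ ×ˢ T) k (bt e u i) B) →
    Lb e.D.Z.toPre (univ ×ˢ T) k u C := by
  induction k with
  | zero => exact ⟨1, zero_le_one, fun T u hT hu _ x hx => ⟨gau_at hT hu hx, (hu.2 x hx).le⟩⟩
  | succ k ih =>
    obtain ⟨C, -, hC⟩ := ih
    refine ⟨max 1 (2 ^ k * |B| * |C|), by positivity, fun T u hT hu h =>
      ⟨fun x hx => ⟨gau_at hT hu hx, (hu.2 x hx).le.trans (le_max_left _ _)⟩, fun a => ?_⟩⟩
    exact (((h a).pred.bil' (op hT) Win39.norm_mi (hC T u hT hu fun i => (h i).pred)).congr (op hT)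
      fun x hx => D_gau hT hu hx a).mono (le_max_right _ _)

/-- closeness in a gauge that is only known to be good for a neighbour -/
theorem cl_act (H : e.OK) (k : ℕ) (B : ℝ) {ε : ℝ} (hε : 0 < ε) : ∃ η > 0,
    ∀ (c c' c'' : e.ZC) u (T : Set ℝ) ε₁, IsOpen T → ε₁ ≤ 1 → e.cyl.AdmOn c (univ ×ˢ T) →
      e.cyl.AdmOn c' (univ ×ˢ T) → e.cyl.AdmOn c'' (univ ×ˢ T) → GauOn e.Z.I u (univ ×ˢ T) →
      Cl c' c'' T k B → Cl c c' T k η → Cl (e.cyl.act u c) c'' T k ε₁ →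
      Cl (e.cyl.act u c') c'' T k (ε₁ + ε) := by
  obtain ⟨C, C0, hC⟩ := lb_gau (e := e) k (1 + B + 1)
  set A := 2 ^ k * ‖cB e.m.J‖ * C
  have A0 : 0 ≤ A := by positivity
  refine ⟨min 1 (ε / (1 + A)), by positivity, fun c c' c'' u T ε₁ hT h1 hc hc' hc'' hu g1 g2 g3 => ?_⟩
  have h0 : 0 ≤ min 1 (ε / (1 + A)) := by positivity
  have h2 : min 1 (ε / (1 + A)) * (1 + A) ≤ ε := by
    rw [← le_div_iff₀ (by positivity)]; exact min_le_right _ _
  have a1 := admOn_act H hT hc hu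
  have a2 := admOn_act H hT hc' hu
  refine add_comm ε ε₁ ▸ cl_tri hT a2 a1 hc'' ?_ g3
  have g4 := (cl_lb hT hc' hc).1 (cl_symm hT hc hc' h0 g2)
  rw [cl_lb hT hc hc'] at g2
  rw [cl_lb hT hc' hc''] at g1
  rw [cl_lb hT a1 hc''] at g3
  have lu := hC T u hT hu fun i => ((((g2.1 i).mono (min_le_left _ _)).add (op hT) (g1.1 i)).sub'
    (op hT) ((g3.1 i).mono h1)).congr (op hT) (f' := bt e u i) (fun x _ => by
      rw [Win39.act_a]; ring) |>.mono (by rw [abs_one])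
  refine (cl_lb hT a2 a1).2 ⟨fun i => ((g4.1 i).congr (op hT) fun x _ => ?_).mono (by nlinarith),
    ((Lb.bil (op hT) (cB e.m.J) C0 h0 lu g4.2).congr (op hT) fun x _ => ?_).mono (by nlinarith)⟩
  · rw [Win39.act_a, Win39.act_a]; ring
  · exact (Win39.cs_sub_r _ _ _).symm

/-- equivalent limits -/
theorem nr_eqv (H : e.OK) (hv : e.cyl.Adm (fz v)) (hv' : e.cyl.Adm (fz v')) (h : Eqv v v') (k : ℕ)
    {ε : ℝ} (hε : 0 < ε) : ∃ η > 0, ∀ (c : e.ZC) s, e.cyl.AdmOn c (univ ×ˢ win s) →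
      Nr c v s k η → Nr c v' s k ε := by
  obtain ⟨g, hg, h⟩ := h
  obtain ⟨B, hB⟩ := cl_fz hv hv' k
  obtain ⟨η, h0, hη⟩ := cl_act H k (1 + B) hε
  refine ⟨min 1 η, by positivity, fun c s hc ⟨u, hu, h1⟩ => ?_⟩
  have hT : IsOpen (win s) := isOpen_Ioo
  have hg' : GauOn e.Z.I (fun x => g x.1) (univ ×ˢ win s) := ⟨(sm_fst hg.1).contMDiffOn,
    fun x _ => hg.2 x.1⟩
  have a := admOn_act H hT hc hu
  have := hη (fz v) _ (fz v') _ _ 0 hT zero_le_one (admOn_of hv _) a (admOn_of hv' _) hg'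
    (cl_tri hT a (admOn_of hv _) (admOn_of hv' _) (cl_mono h1 Subset.rfl le_rfl (min_le_left _ _))
      (hB _ hT)) (cl_symm hT a (admOn_of hv _) h0.le (cl_mono h1 Subset.rfl le_rfl (min_le_right _ _)))
    (h ▸ cl_self le_rfl)
  exact ⟨_, gauOn_mul hu hg', (ag_mul H hT hu hg' c).symm.cl hT (zero_add ε ▸ this)⟩

theorem th_exp {χ : e.Y.M × ℝ → ℝ} {x : e.Y.M × ℝ} (h : SA (IC e.Y.I) χ x) (i : Option κ) :
    bt e (fun y => Complex.exp (χ y * Complex.I)) i x = e.D.Z.D i χ x := by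
  have h1 := (((Complex.ofRealCLM.hasDerivAt (x := χ x)).mul_const Complex.I).cexp).hasFDerivAt
  have h2 : e.D.Z.D i (fun y => Complex.exp (χ y * Complex.I)) x = _ := dv_comp h.md h1
  have h3 := Pb50.star_mul_one (Complex.norm_exp_ofReal_mul_I (χ x))
  rw [bt, h2]
  simp only [Complex.ofRealCLM_apply, ContinuousLinearMap.toSpanSingleton_apply, mul_smul_comm,
    ← mul_assoc, h3]
  simp [Pre.D_def]

theorem sa_exp {χ : e.Y.M × ℝ → ℝ} {x : e.Y.M × ℝ} (h : SA (IC e.Y.I) χ x) :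
    SA (IC e.Y.I) (fun y => Complex.exp (χ y * Complex.I)) x :=
  (Complex.contDiff_exp (𝕜 := ℝ)).contMDiff.contMDiffAt.comp x
    (Wz78.SA.mul (sa_clm Complex.ofRealCLM h) contMDiffAt_const)

theorem st_lb (k : ℕ) : ∃ C, 0 ≤ C ∧ ∀ b (a : ℝ) S,
    Lb e.D.Z.toPre S k (fun x => Real.smoothTransition (pm b * x.2 - a)) C := by
  obtain ⟨C, hC⟩ := Nd18.bd_st
  refine ⟨C k, hC.nonneg k, fun b a S => ?_⟩
  have : (cylP e.D.F.toPre).CBs (fun x => Real.smoothTransition (pm b * x.2 - a)) C := by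
    cases b
    · simpa [pm, sub_eq_neg_add, add_comm] using (hC.refl (-a)).cyl e.D.F.toPre
    · simpa [pm, sub_eq_add_neg] using (hC.shift (-a)).cyl e.D.F.toPre
  exact Lb.of_CB this.1 (this.2 k)

/-- **patching** : a gauge transformation that fixes a window up to a small error is cut off -/
theorem pat (H : e.OK) (hv : e.cyl.Adm (fz v)) (h0 : ∃ y, v.Φ y ≠ 0) (k : ℕ) {ε : ℝ} (hε : 0 < ε) :
    ∃ η > 0, ∀ (c : e.ZC) u b s (T : Set ℝ), IsOpen T → iv b (s - 3 / 4) (s + 3 / 4) ⊆ T →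
      e.cyl.AdmOn c (univ ×ˢ iv b (s - 3 / 4) (s + 3 / 4)) → GauOn e.Z.I u (univ ×ˢ T) →
      Cl c (fz v) (iv b (s - 3 / 4) (s + 3 / 4)) k η →
      Cl (e.cyl.act u c) (fz v) (iv b (s - 3 / 4) (s + 3 / 4)) k η →
      ∃ u', GauOn e.Z.I u' (univ ×ˢ (T ∪ ir b (s - 3 / 4))) ∧
        (∀ x ∈ univ ×ˢ T, pm b * x.2 ≤ s - 1 / 2 → u' x = u x) ∧
        (∀ x, s + 1 / 2 ≤ pm b * x.2 → u' x = 1) ∧
        Cl (e.cyl.act u' c) (fz v) (iv b (s - 3 / 4) (s + 3 / 4)) k ε := by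
  obtain ⟨C, C0, hC⟩ := Win39.rigOn e v H hv h0 k
  obtain ⟨Cs, s0, hs⟩ := st_lb (e := e) (k + 1)
  obtain ⟨B, B0, hB⟩ := lb_fz hv.sΦ (fun _ => rfl) k
  have c1 := Win39.one_le_cO (k + 1)
  set A₁ := 2 ^ (k + 1) * (1 + Cs)
  set A₂ := 2 ^ k * ‖cB e.m.J‖ * Win39.cO (k + 1) * (1 + B)
  have p1 : 0 < A₁ := by positivity
  have p2 : 0 ≤ A₂ := by positivity
  obtain ⟨δ, d0, d1, d2⟩ : ∃ δ > 0, A₁ * δ ≤ 1 ∧ δ + (1 + A₂) * (A₁ * δ) ≤ ε := by
    have t : Tendsto (fun δ : ℝ => (A₁ * δ, δ + (1 + A₂) * (A₁ * δ))) (𝓝[>] 0) (𝓝 (0, 0)) :=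
      (Continuous.tendsto' (by fun_prop) 0 _ (by simp)).mono_left nhdsWithin_le_nhds
    obtain ⟨δ, a, b⟩ := ((t.eventually (prod_mem_nhds (Iic_mem_nhds one_pos) (Iic_mem_nhds hε))).and
      self_mem_nhdsWithin).exists
    exact ⟨δ, b, a⟩
  obtain ⟨ρ, r0, hρ⟩ := Metric.continuousAt_iff.1 (Complex.continuousAt_arg Complex.one_mem_slitPlane)
    δ d0
  refine ⟨min (min (1 / 2) (δ / 2)) (min ρ 1 / (C + 1)), by positivity,
    fun c u b s T hT hsub hc hu g1 g2 => ?_⟩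
  set η := min (min (1 / 2) (δ / 2)) (min ρ 1 / (C + 1))
  have e0 : 0 < η := by positivity
  have e1 : η ≤ 1 / 2 := (min_le_left _ _).trans (min_le_left _ _)
  have e2 : η ≤ δ / 2 := (min_le_left _ _).trans (min_le_right _ _)
  have e3 : η * (C + 1) ≤ min ρ 1 := (le_div_iff₀ (by positivity)).1 (min_le_right _ _)
  have hI := isOpen_iv b (s - 3 / 4) (s + 3 / 4)
  set I := iv b (s - 3 / 4) (s + 3 / 4)
  have hS := op (e := e) hI
  have hu' := gauOn_mono hu (prod_mono_right hsub)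
  have n1 : ∀ x ∈ univ ×ˢ I, ‖u x - 1‖ < min ρ 1 := fun x hx =>
    (hC c u I η hI e1 hc hu' g1 g2 [] (Nat.zero_le _) x hx).trans_lt (by linarith)
  have ex : ∀ x ∈ univ ×ˢ T, Complex.exp ((u x).arg * Complex.I) = u x := fun x hx => by
    simpa [hu.2 x hx] using Complex.norm_mul_exp_arg_mul_I (u x)
  have sχ : ∀ x ∈ univ ×ˢ I, SA (IC e.Y.I) (fun x => (u x).arg) x := fun x hx => by
    have := Complex.mem_slitPlane_of_norm_lt_one ((n1 x hx).trans_le (min_le_right _ _))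
    rw [add_sub_cancel] at this
    simpa only [Complex.imCLM_apply, comp_apply, Complex.log_im] using sa_clm Complex.imCLM
      (((Complex.contDiffAt_log this).restrict_scalars ℝ).contMDiffAt.comp x (gau_at hI hu' hx))
  have a1 := admOn_act H hI hc hu'
  rw [cl_lb hI hc (admOn_of hv _)] at g1
  rw [cl_lb hI a1 (admOn_of hv _)] at g2
  have lχ : Lb e.D.Z.toPre (univ ×ˢ I) (k + 1) (fun x => (u x).arg) δ :=
    ⟨fun x hx => ⟨sχ x hx, by
      simpa using (hρ (dist_eq_norm (u x) 1 ▸ (n1 x hx).trans_le (min_le_left _ _))).le⟩,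
    fun i => (((g1.1 i).sub' hS (g2.1 i)).congr hS fun x hx => by
      rw [← th_exp (sχ x hx), Win39.act_a, bt, bt, Pre.D_def, Pre.D_def, ex x ⟨trivial, hsub hx.2⟩,
        dv_congr (mem_of_superset (nh hI hx) fun y hy => ex y ⟨trivial, hsub hy.2⟩)]
      ring).mono (by rw [abs_of_pos e0]; linarith)⟩
  let θ : e.Y.M × ℝ → ℝ := fun x =>
    (1 - Real.smoothTransition (pm b * x.2 - (s - 1 / 2))) * (u x).arg
  have lθ : Lb e.D.Z.toPre (univ ×ˢ I) (k + 1) θ (A₁ * δ) :=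
    (((Lb.const hS (1 : ℝ)).sub' hS (hs b (s - 1 / 2) _)).smul hS lχ).mono (le_of_eq (by
      rw [norm_one, abs_of_nonneg s0, abs_of_pos d0, abs_of_nonneg (by positivity)]))
  have u1 : ∀ x ∈ univ ×ˢ T, pm b * x.2 ≤ s - 1 / 2 → Complex.exp (θ x * Complex.I) = u x :=
    fun x hx h => by
      simp only [θ, Real.smoothTransition.zero_of_nonpos (sub_nonpos.2 h), sub_zero, one_mul, ex x hx]
  have u2 : ∀ x, s + 1 / 2 ≤ pm b * x.2 → Complex.exp (θ x * Complex.I) = 1 := fun x h => by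
    simp only [θ, Real.smoothTransition.one_of_one_le (show 1 ≤ pm b * x.2 - (s - 1 / 2) by linarith),
      sub_self, zero_mul, Complex.ofReal_zero, Complex.exp_zero]
  have cp : Continuous fun x : e.Y.M × ℝ => pm b * x.2 := by fun_prop
  have G : GauOn e.Z.I (fun x => Complex.exp (θ x * Complex.I)) (univ ×ˢ (T ∪ ir b (s - 3 / 4))) := by
    refine ⟨fun x hx => ContMDiffAt.contMDiffWithinAt ?_, fun x _ => Complex.norm_exp_ofReal_mul_I _⟩
    by_cases h1 : x.2 ∈ I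
    · exact sa_exp (lθ.sm ⟨trivial, h1⟩)
    rcases lt_or_ge (pm b * x.2) (s - 1 / 2) with h2 | h2
    · have h3 : x ∈ univ ×ˢ T := ⟨trivial, hx.2.resolve_right fun h => h1 ⟨h, by linarith⟩⟩
      refine (gau_at hT hu h3).congr_of_eventuallyEq ?_
      filter_upwards [nh hT h3, (isOpen_lt cp continuous_const).mem_nhds h2] with y a b
      exact u1 y a (le_of_lt b)
    · have h3 : s + 1 / 2 < pm b * x.2 := lt_of_not_ge fun h => h1 ⟨by linarith, by linarith⟩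
      refine (contMDiffAt_const (c := (1 : ℂ))).congr_of_eventuallyEq ?_
      filter_upwards [(isOpen_lt continuous_const cp).mem_nhds h3] with y a
      exact u2 y (le_of_lt a)
  have G' := gauOn_mono G (prod_mono_right (hsub.trans subset_union_left))
  have p3 : 0 ≤ A₁ * δ := by positivity
  have lb' : ∀ i, Lb e.D.Z.toPre (univ ×ˢ I) k (bt e (fun x => Complex.exp (θ x * Complex.I)) i)
      (A₁ * δ) := fun i => (lθ.2 i).congr hS fun x hx => th_exp (lθ.sm hx) i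
  have lu : Lb e.D.Z.toPre (univ ×ˢ I) (k + 1) (fun x => Complex.exp (θ x * Complex.I) - 1)
      (Win39.cO (k + 1) * (A₁ * δ)) := ⟨fun x hx => ⟨(gau_at hI G' hx).sub contMDiffAt_const, by
      simp only [mul_comm (θ x : ℂ)]
      exact (Real.norm_exp_I_mul_ofReal_sub_one_le.trans (lθ.le hx)).trans (by nlinarith)⟩,
    fun a => (Win39.lb_ode hS (fun x hx => ⟨gau_at hI G' hx, (G'.2 x hx).le⟩) p3 d1 lb'
      (fun i x hx => D_gau hI G' hx i) a).congr hS fun x hx => by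
        rw [Pre.D_def, Wz78.dv_sub' (gau_at hI G' hx) contMDiffAt_const, dv_const]
        exact sub_zero _⟩
  refine ⟨_, G, u1, u2, (cl_lb hI (admOn_act H hI hc G') (admOn_of hv _)).2
    ⟨fun i => (((g1.1 i).sub' hS (lb' i)).congr hS fun x _ => ?_).mono ?_, ((g1.2.add hS
      (Lb.bil hS (cB e.m.J) (by positivity) (by positivity) lu.pred
        (((g1.2.mono (show η ≤ 1 by linarith)).add hS (hB _))))).congr hS fun x _ => ?_).mono ?_⟩⟩
  · rw [Win39.act_a]; ring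
  · rw [abs_of_nonneg p3]; nlinarith
  · rw [sub_add_cancel, Pb50.cB_apply, Win39.cs_sub_l, Win39.cs_one, Win39.act_P]; abel
  · have : 2 ^ k * ‖cB e.m.J‖ * (Win39.cO (k + 1) * (A₁ * δ)) * (1 + B) = A₂ * (A₁ * δ) := by
      simp only [A₂]; ring
    rw [this]; nlinarith

/-- a gauge transformation that is `1` far out is made `1` near the core -/
theorem ext1 {b : Bool} {a r : ℝ} (har : a ≤ r) (hu : GauOn e.Z.I u (univ ×ˢ ir b (a - 2)))
    (h1 : ∀ x, r ≤ pm b * x.2 → u x = 1) : ∃ u', Gau e.Z.I u' ∧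
      (∀ x, pm b * x.2 ≤ a - 1 → u' x = 1) ∧ ∀ x, a ≤ pm b * x.2 → u' x = u x := by
  let l : ℝ → ℝ := fun t => t + (1 - Real.smoothTransition (pm b * t - (a - 1))) * (pm b * r - t)
  have l0 : ∀ t, pm b * t ≤ a - 1 → l t = pm b * r := fun t h => by
    simp only [l, Real.smoothTransition.zero_of_nonpos (sub_nonpos.2 h)]; ring
  have l1 : ∀ t, l t ∈ ir b (a - 2) := fun t => by
    show a - 2 < pm b * l t
    rcases le_total (pm b * t) (a - 1) with h | h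
    · rw [l0 t h, pm_pm]; linarith
    · have e1 : pm b * l t = pm b * t + (1 - Real.smoothTransition (pm b * t - (a - 1))) *
        (r - pm b * t) := by simp only [l, mul_add, mul_left_comm (pm b), mul_sub, pm_pm]
      have e2 := Real.smoothTransition.nonneg (pm b * t - (a - 1))
      have e3 := Real.smoothTransition.le_one (pm b * t - (a - 1))
      rw [e1]; nlinarith
  have sl : ContDiff ℝ ∞ l := contDiff_id.add ((contDiff_const.sub
    (Real.smoothTransition.contDiff.comp (by fun_prop))).mul (by fun_prop))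
  refine ⟨fun x => u (x.1, l x.2), ⟨fun x => (gau_at (isOpen_ir _ _) hu (x := (x.1, l x.2))
    ⟨trivial, l1 _⟩).comp x (contMDiffAt_fst.prodMk (sl.contMDiff.contMDiffAt.comp x contMDiffAt_snd)),
    fun x => hu.2 _ ⟨trivial, l1 _⟩⟩, fun x h => h1 _ (by rw [l0 _ h, pm_pm]), fun x h => ?_⟩
  simp only [l, Real.smoothTransition.one_of_one_le (show 1 ≤ pm b * x.2 - (a - 1) by linarith),
    sub_self, zero_mul, add_zero]

end Crest.Agent.X212.Sep15.S
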