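import Crest.Agent.X212.Sep15.Av
import Crest.Agent.X212.Sep15.Pat

/-!
# X212/Sep15/End (helper15): SW-CONV, bounded moments give small tails on an end
-/

set_option autoImplicit false
set_option linter.unusedSectionVars false
set_option maxHeartbeats 200000
noncomputable section
open scoped Manifold ContDiff Topology InnerProductSpace
open MeasureTheory Set Function Filter

namespace Crest.Agent.X212.Sep15.S
open An Cyf70 Sw Sw.En3
open M (Mf pm)
open Nd18 (Jv)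

variable {κ lam ν : Type} [Fintype κ] [Fintype lam] [Fintype ν] [DecidableEq ν]
  {e : En3 κ lam ν} {g : e.Gen}

theorem pos_all {α : Type} [Finite α] {P : α → ℝ → Prop} (h : ∀ a, ∃ ε > 0, ∀ η ≤ ε, P a η) :
    ∃ ε > 0, ∀ a, P a ε := by
  choose ε h0 h using h
  obtain ⟨η, h1, h2⟩ := ((eventually_all.2 fun a => nhdsWithin_le_nhds (Iic_mem_nhds (h0 a))).and
    (self_mem_nhdsWithin (s := Ioi (0 : ℝ)))).exists
  exact ⟨η, h2, fun a => h a η (h1 a)⟩

theorem flat_all (hg : g.OK) : ∃ ε > 0, ∀ o r, |r - L (g.pt o)| ≤ ε → e.ψ r = e.ψ (L (g.pt o)) :=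
  pos_all fun o => by
    obtain ⟨ε, h0, h⟩ := Metric.eventually_nhds_iff.1 (hg.flat o)
    exact ⟨ε / 2, by positivity, fun η hη r hr => h (by rw [Real.dist_eq]; linarith)⟩

theorem sep_all (hg : g.OK) : ∃ δ > 0, ∀ o o', L (g.pt o) < L (g.pt o') →
    δ ≤ e.ψ (L (g.pt o')) - e.ψ (L (g.pt o)) := by
  obtain ⟨δ, h0, h⟩ := pos_all (α := (g.ι ⊕ g.ρ) × (g.ι ⊕ g.ρ)) (P := fun p δ =>
    L (g.pt p.1) < L (g.pt p.2) → δ ≤ e.ψ (L (g.pt p.2)) - e.ψ (L (g.pt p.1))) fun p => by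
      by_cases k : L (g.pt p.1) < L (g.pt p.2)
      exacts [⟨_, sub_pos.2 (hg.sep _ _ k), fun _ h _ => h⟩, ⟨1, one_pos, fun _ _ h => (k h).elim⟩]
  exact ⟨δ, h0, fun o o' => h (o, o')⟩

/-- a window with small energy and small moment has a low level -/
theorem good (hW : WinStmt κ lam ν) (hD : DlStmt κ lam ν) (hg : g.OK) (C : ℝ) {ε : ℝ} (hε : 0 < ε) :
    ∃ ε' > 0, ∃ δ > 0, ∀ (W : Type) (T : W → Option e.YT) q c b a r o₀ s, Sml T q 6 1 →
      e.cyl.AdmOn c (univ ×ˢ ir b (a - 1)) → e.cyl.EqOn (pt T q) c (univ ×ˢ iv b a r) →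
      Sup c (ir b a) C → a ≤ s - 2 → s + 2 ≤ r →
      en c (iv b (s - 2) (s + 2)) ≤ ENNReal.ofReal ε' →
      ∫⁻ t in iv b (s - 1 / 2) (s + 1 / 2), ENNReal.ofReal (gm c b (L (g.pt o₀)) t) <
        ENNReal.ofReal δ → pm b * (L (sl c (pm b * s)) - L (g.pt o₀)) ≤ ε := by
  obtain ⟨f, f0, hf⟩ := flat_all hg
  obtain ⟨δ, d0, hδ⟩ := sep_all hg
  obtain ⟨η, η0, hη⟩ := pos_all (P := fun o η => ∀ c s, e.cyl.AdmOn c (univ ×ˢ win s) →
    Nr c (g.pt o) s 1 η → ∀ t ∈ win s, |L (sl c t) - L (g.pt o)| ≤ min ε f) fun o =>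
      let ⟨η, a, b⟩ := hW.lv e _ hg.ok (hg.inv ⟨o⟩) (hg.crit o) (min ε f) (by positivity)
      ⟨η, a, fun _ h c s h1 h2 t ht => (b c s h1 (nr_mono h2 le_rfl h) t ht).1⟩
  obtain ⟨ε', e0, he⟩ := hW.nr e g hg (max C 1) η 1 η0
  refine ⟨ε', e0, δ, d0, fun W T q c b a r o₀ s hs hA hE hS h1 h2 h3 h4 => ?_⟩
  have hl := loc_iv hA hE h1 h2
  rw [lo_win, hi_win] at hl
  obtain ⟨o, ho⟩ := he W T q c _ (sml_mono hs (by norm_num) (le_max_right _ _)) hl
    (fun x hx => (hS x ⟨trivial, iv_sub_ir h1 (iv_eq b s 2 ▸ hx.2)⟩).trans (le_max_left _ _))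
    (iv_eq b s 2 ▸ h3)
  have w1 : win (pm b * s) ⊆ ir b (a - 1) := (iv_eq b s 1).trans_subset (iv_sub_ir (by linarith))
  have k := hη o c _ (admOn_mono hA (prod_mono_right w1)) ho
  have k0 := abs_le.1 ((pm_abs b _).trans_le ((k (pm b * s) ⟨by linarith, by linarith⟩).trans
    (min_le_left _ _)))
  by_contra k1
  have k2 : 0 < pm b * (L (g.pt o) - L (g.pt o₀)) := by linarith [k0.2, not_le.1 k1]
  refine h4.not_ge (le_trans ?_ (setLIntegral_mono' (f := fun _ => ENNReal.ofReal δ)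
    (isOpen_iv _ _ _).measurableSet fun t ht => ENNReal.ofReal_le_ofReal ?_))
  · rw [setLIntegral_const, vol_iv]; norm_num
  rw [gm, hf o _ ((lb_abs (hD e hg.ok c _ (isOpen_ir _ _) hA).1.continuousOn fun t' ht' => ?_).trans
    (min_le_right ε f))]
  · cases b <;> simp only [pm, if_true, Bool.false_eq_true, if_false] at k2 ⊢
    · linarith [hδ o o₀ (by linarith)]
    · linarith [hδ o₀ o (by linarith)]
  · have := mem_half (b := b) ht'
    have m : t' ∈ win (pm b * s) := (iv_eq b s 1).ge ⟨by linarith [ht.1], by linarith [ht.2]⟩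
    exact ⟨w1 m, k t' m⟩

theorem sml_zero {W : Type} (T : W → Option e.YT) (k : ℕ) {η : ℝ} (h : 0 ≤ η) : Sml T 0 k η :=
  ⟨0, by simpa using h, by simp⟩

theorem en_of {c : e.ZC} {I : Set ℝ} {x : ℝ} (h : en c I ≠ ⊤) (h' : (en c I).toReal ≤ x) :
    en c I ≤ ENNReal.ofReal x := (ENNReal.ofReal_toReal h).symm.trans_le (ENNReal.ofReal_le_ofReal h')

/-- **small energy** beyond a fixed time -/
theorem end_en (hW : WinStmt κ lam ν) (hD : DlStmt κ lam ν) (hM : MonoStmt κ lam ν) (hg : g.OK)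
    (C : ℝ) : ∃ η > 0, η ≤ 1 ∧ ∀ o₀ b (m a ε : ℝ), 0 < ε → ∃ R, a ≤ R ∧ ∃ ε' > 0,
      ∀ (W : Type) (T : W → Option e.YT) q c r, R + 10 ≤ r → Sml T q 6 η →
        e.cyl.AdmOn c (univ ×ˢ ir b (a - 1)) → e.cyl.EqOn (pt T q) c (univ ×ˢ iv b a r) →
        Sup c (ir b a) C → en c (iv b a r) ≤ ENNReal.ofReal C → Mom c b (L (g.pt o₀)) a m →
        (∀ t, r - 3 ≤ pm b * t → |L (sl c t) - L (g.pt o₀)| ≤ ε' ∧ gn (sl c t) ≤ ε') →
        en c (iv b R r) ≤ ENNReal.ofReal ε := by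
  obtain ⟨f, f0, hf⟩ := flat_all hg
  obtain ⟨γ, γ0, hγ⟩ := active hW hg C
  set A := |C| + 1
  have A0 : 0 < A := by positivity
  set z := min (min f 1) γ
  have z0 : 0 < z := by positivity
  have z1 : z ≤ f := (min_le_left _ _).trans (min_le_left _ _)
  have z2 : z ≤ 1 := (min_le_left _ _).trans (min_le_right _ _)
  have z3 : z ≤ γ := min_le_right _ _
  obtain ⟨η, η0, hη⟩ := hM e g hg C (z / 8 / A) (by positivity)
  refine ⟨min η 1, by positivity, min_le_right _ _, fun o₀ b m a ε hε => ?_⟩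
  set ε₁ := min z ε / 16
  have e0 : 0 < ε₁ := by positivity
  have e1 : ε₁ ≤ z / 16 := by have := min_le_left z ε; simp only [ε₁]; linarith
  have e2 : ε₁ ≤ ε / 16 := by have := min_le_right z ε; simp only [ε₁]; linarith
  obtain ⟨η₂, η2, hη2⟩ := hM e g hg C (ε₁ / A) (by positivity)
  obtain ⟨ε', e3, δ, d0, hG⟩ := good hW hD hg C e0
  obtain ⟨N, hN⟩ := exists_nat_gt (|C| / ε' + |m| / δ)
  have N0 : (0 : ℝ) ≤ N := N.cast_nonneg
  refine ⟨a + 2 + 8 * N, by linarith, ε₁, e0, fun W T q c r hr hs hA hE hS hC hm ht => ?_⟩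
  set l := L (g.pt o₀)
  have s1 := sml_mono hs le_rfl (min_le_right _ _)
  have hC' := hC.trans (ENNReal.ofReal_le_ofReal (le_abs_self C))
  have fin : ∀ {a' r'}, a ≤ a' → r' ≤ r → en c (iv b a' r') ≠ ⊤ ∧ (en c (iv b a' r')).toReal ≤ A :=
    fun h1 h2 => have k := (en_mono c (iv_mono h1 h2)).trans hC'
      ⟨ne_top_of_le_ne_top ENNReal.ofReal_ne_top k,
        (ENNReal.toReal_le_of_le_ofReal (abs_nonneg C) k).trans (by simp [A])⟩
  have sup : ∀ {a' r'}, a ≤ a' → Sup c (Jv (some (lo b a' r')) (some (hi b a' r'))) C :=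
    fun h x hx => hS x ⟨trivial, iv_sub_ir h (Jv_iv b _ _ ▸ hx.2)⟩
  have t0 := abs_le.1 ((pm_abs b _).trans_le (ht (pm b * (r - 5 / 2)) (by rw [pm_pm]; linarith)).1)
  have m1 : ∀ s, a < s - 1 → s ≤ r - 5 / 2 → (en c (iv b s (r - 5 / 2))).toReal / 2 ≤
      pm b * (L (sl c (pm b * s)) - l) + z / 8 + ε₁ := fun s h1 h2 => by
    have k := mono_iv (l := l) (hη W T q c _ _ (sml_mono hs (by norm_num) (min_le_left _ _))
      (loc_iv hA hE le_rfl le_rfl) (sup le_rfl)).2 h2 h1 (by linarith)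
    have k2 := mul_le_mul_of_nonneg_left (fin (a' := s - 1) (r' := r - 5 / 2 + 1) h1.le
      (by linarith)).2 (show 0 ≤ z / 8 / A by positivity)
    rw [div_mul_cancel₀ _ A0.ne'] at k2
    linarith [t0.1]
  have low : ∀ t ∈ ir b (a + 1), -z ≤ pm b * (L (sl c t) - l) := fun t h => by
    rcases le_total (pm b * t) (r - 5 / 2) with k | k
    · have := m1 _ (lt_sub_iff_add_lt.2 h) k
      rw [pm_pm] at this
      linarith [ENNReal.toReal_nonneg (a := en c (iv b (pm b * t) (r - 5 / 2)))]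
    · linarith [(abs_le.1 ((pm_abs b _).trans_le (ht t (by linarith)).1)).1]
  have cL := (hD e hg.ok c _ (isOpen_ir _ _) hA).1.continuousOn
  have hG2 := hm (fun t h => by linarith [low t h]) (fun t h => by
    have k := lb_ge cL (t := t) (σ := pm b) (x := pm b * l - z) fun t' h' => by
      have h1 := (mem_half (b := b) h').1
      have h2 : a + 2 < pm b * t := h
      exact ⟨show a - 1 < _ by linarith, by linarith [low t' (show a + 1 < _ by linarith)]⟩
    have k1 := hf o₀ (l - z) (by rw [sub_sub_cancel_left, abs_neg, abs_of_pos z0]; exact z1)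
    have k2 := hf o₀ (l + z) (by rw [add_sub_cancel_left, abs_of_pos z0]; exact z1)
    cases b <;> simp only [gm, pm, if_true, Bool.false_eq_true, if_false] at k ⊢
    · linarith [hg.ok.mψ (show lb c t ≤ l + z by linarith)]
    · linarith [hg.ok.mψ (show l - z ≤ lb c t by linarith)]) ⟨r, fun t h => by
    rw [gm, hf o₀ _ ((lb_abs cL fun t' h' => ?_).trans (show ε₁ ≤ f by linarith)), sub_self, mul_zero]
    have h1 := (mem_half (b := b) h').1
    have h2 : r < pm b * t := h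
    exact ⟨show a - 1 < _ by linarith, (ht t' (by linarith)).1⟩⟩
  have mi := fun a r => (isOpen_iv b a r).measurableSet
  obtain ⟨x, x1, x2, x3, x4⟩ := pigeon (em c) (volume.withDensity fun t => ENNReal.ofReal (gm c b l t))
    b (a + 2) (abs_nonneg C) (abs_nonneg m) e3 d0 hN
    ((em_apply c (mi _ _)).trans_le ((en_mono c (iv_mono (by linarith) (by linarith))).trans hC'))
    ((withDensity_apply _ (mi _ _)).trans_le ((lintegral_mono_set (iv_sub_ir le_rfl)).trans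
      (hG2.trans (ENNReal.ofReal_le_ofReal (le_abs_self m)))))
  rw [em_apply c (mi _ _)] at x3
  rw [withDensity_apply _ (mi _ _)] at x4
  have gd : ∀ s, x + 2 ≤ s → s ≤ x + 6 → pm b * (L (sl c (pm b * s)) - l) ≤ ε₁ := fun s h1 h2 =>
    hG W T q c b a r o₀ s s1 hA hE hS (by linarith) (by linarith)
      ((en_mono c (iv_mono (by linarith) (by linarith))).trans x3.le)
      ((lintegral_mono_set (iv_mono (by linarith) (by linarith))).trans_lt x4)
  have tl : en c (iv b (r - 3) r) ≤ ENNReal.ofReal (ε₁ * 3) := by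
    refine (en_le (mi _ _) fun t h => (ht t h.1.le).2).trans (le_of_eq ?_)
    rw [vol_iv, ← ENNReal.ofReal_mul e0.le]; congr 1; ring
  have un : ∀ {s y : ℝ}, a ≤ s → 0 ≤ y → (en c (iv b s (r - 5 / 2))).toReal ≤ y →
      en c (iv b s r) ≤ ENNReal.ofReal (y + ε₁ * 3) := fun {s y} h1 h2 h3 => by
    rw [ENNReal.ofReal_add h2 (by positivity)]
    refine (en_union c fun t h => ?_).trans (add_le_add (en_of (fin h1 (by linarith)).1 h3) tl)
    rcases lt_or_ge (pm b * t) (r - 5 / 2) with k | k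
    exacts [.inl ⟨h.1, k⟩, .inr ⟨by linarith, h.2⟩]
  have u1 := un (s := x + 2) (y := z / 2) (by linarith) (by positivity) (by
    linarith [m1 (x + 2) (by linarith) (by linarith), gd (x + 2) le_rfl (by linarith)])
  have hE0 : e.cyl.EqOn (pt T 0) c (univ ×ˢ iv b (x + 3) (r - 1)) := fun y hy => by
    have k := hE y ⟨trivial, iv_mono (by linarith) (by linarith) hy.2⟩
    have k1 : tau T q c y = 0 := by
      by_contra k2
      have h1 := hy.2.1
      have h2 := hy.2.2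
      have p1 := mem_half (b := b) (t := y.2 - 1 / 2) (t' := y.2 - 1) ⟨by linarith, by linarith⟩
      have p2 := mem_half (b := b) (t := y.2 - 1 / 2) (t' := y.2) ⟨by linarith, by linarith⟩
      have p3 := mem_half (b := b) (t := y.2 + 1 / 2) (t' := y.2 + 1) ⟨by linarith, by linarith⟩
      have p4 := mem_half (b := b) (t := y.2 + 1 / 2) (t' := y.2) ⟨by linarith, by linarith⟩
      have := hγ W T q c _ _ (sml_mono s1 (by norm_num) le_rfl) (loc_iv hA hE le_rfl le_rfl)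
        (sup le_rfl) y.1 y.2 (Jv_iv b a r ▸ ⟨by linarith, by linarith⟩)
        (Jv_iv b a r ▸ ⟨by linarith, by linarith⟩) k2
      rw [iv_eq' b] at this
      exact ((ENNReal.ofReal_le_ofReal_iff (by positivity)).1 (this.trans ((en_mono c
        (iv_mono (by linarith) (by linarith))).trans u1))).not_gt (by linarith)
    exact ⟨k.1, k.2.trans (congrArg (_ + ·) (k1.trans Finsupp.sum_zero_index.symm))⟩
  have k := mono_iv (l := l) (s := x + 6) (t := r - 5 / 2) (hη2 W T 0 c _ _ (sml_zero T 4 η2.le)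
    (loc_iv (admOn_mono hA (prod_mono_right (ir_mono (by linarith)))) hE0 le_rfl le_rfl)
    (sup (by linarith))).2 (by linarith) (by linarith) (by linarith)
  have k2 := mul_le_mul_of_nonneg_left (fin (a' := x + 6 - 1) (r' := r - 5 / 2 + 1) (by linarith)
    (by linarith)).2 (show 0 ≤ ε₁ / A by positivity)
  rw [div_mul_cancel₀ _ A0.ne'] at k2
  refine (en_mono c (iv_mono (by linarith) le_rfl)).trans ((un (s := x + 6) (y := 6 * ε₁)
    (by linarith) (by positivity) ?_).trans (ENNReal.ofReal_le_ofReal (by linarith)))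
  linarith [gd (x + 6) (by linarith) le_rfl, t0.1]

theorem eqv_symm (H : e.OK) {v v' : e.YC} (h : Eqv v v') : Eqv v' v := by
  obtain ⟨u, hu, h⟩ := h
  have g : Gau e.Y.I fun y => star (u y) :=
    ⟨fun y => Pb50.sa_star (hu.1 y), fun y => by rw [norm_star, hu.2]⟩
  refine ⟨_, g, ?_⟩
  rw [h, Pb50.act_act H.cyl (Pb50.gau_fst hu) (Pb50.gau_fst g)]
  simp only [fun y => Pb50.star_mul_one (hu.2 y), Pb50.act_one]

theorem nr_of_cl {c : e.ZC} {v : e.YC} {s η : ℝ} {k : ℕ} (h : Cl c (fz v) (win s) k η) :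
    Nr c v s k η := ⟨fun _ => 1, ⟨contMDiffOn_const, fun _ _ => norm_one⟩, by rwa [Pb50.act_one]⟩

/-- small energy: all windows are close to the limit -/
theorem end_nr (hW : WinStmt κ lam ν) (hg : g.OK) (C : ℝ) {v : e.YC} (hv : Crit v) {η : ℝ}
    (hη : 0 < η) : ∃ ε > 0, ∀ (W : Type) (T : W → Option e.YT) q c b R r, R + 10 ≤ r →
      Sml T q 6 1 → e.cyl.AdmOn c (univ ×ˢ ir b (R - 1)) →
      e.cyl.EqOn (pt T q) c (univ ×ˢ iv b R r) → Sup c (ir b R) C →
      en c (iv b R r) ≤ ENNReal.ofReal ε → Cl c (fz v) (ir b (r - 15 / 4)) 2 ε →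
      ∀ s, R + 2 ≤ pm b * s → Nr c v s 2 η := by
  obtain ⟨o₀, h0⟩ := hg.all v hv
  obtain ⟨η₁, e1, h1⟩ := hW.sep e g hg
  obtain ⟨η₂, e2, h2⟩ := nr_eqv hg.ok (hg.crit o₀).1 hv.1 h0 2 hη
  obtain ⟨ε₁, e3, h3⟩ := hW.nr e g hg (max C 1) (min η₁ η₂) 2 (by positivity)
  obtain ⟨η₃, e4, h4⟩ := nr_eqv hg.ok hv.1 (hg.crit o₀).1 (eqv_symm hg.ok h0) 2
    (show 0 < min η₁ η₂ by positivity)
  refine ⟨min (min ε₁ η₃) η, by positivity, fun W T q c b R r hr hs hA hE hS hen hc => ?_⟩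
  have w : ∀ {s a}, a ≤ s - 1 → win (pm b * s) ⊆ ir b a := fun h => (iv_eq b _ 1).trans_subset (iv_sub_ir h)
  have ad : ∀ {s}, R + 2 ≤ s → e.cyl.AdmOn c (univ ×ˢ win (pm b * s)) := fun h =>
    admOn_mono hA (prod_mono_right (w (by linarith)))
  have key := chain (P := fun s o => Nr c (g.pt o) (pm b * s) 2 (min η₁ η₂)) (A := R + 2)
    (B := r - 2) (o₀ := o₀) (fun s hs s' hs' k o o' a a' => h1 c _ _ o o'
      (by rwa [← mul_sub, pm_abs]) (admOn_mono hA (prod_mono_right (union_subset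
        (w (by linarith [hs.1])) (w (by linarith [hs'.1])))))
      (nr_mono a one_le_two (min_le_left _ _)) (nr_mono a' one_le_two (min_le_left _ _)))
    (fun s k => by
      have hl := loc_iv hA hE (a' := s - 2) (r' := s + 2) (by linarith [k.1]) (by linarith [k.2])
      rw [lo_win, hi_win] at hl
      exact h3 W T q c _ (sml_mono hs le_rfl (le_max_right _ _)) hl (fun x hx => (hS x ⟨trivial,
        iv_sub_ir (by linarith [k.1]) (iv_eq b s 2 ▸ hx.2)⟩).trans (le_max_left _ _))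
        (iv_eq b s 2 ▸ (en_mono c (iv_mono (by linarith [k.1]) (by linarith [k.2]))).trans
          (hen.trans (ENNReal.ofReal_le_ofReal ((min_le_left _ _).trans (min_le_left _ _))))))
    (h4 c _ (ad (by linarith)) (nr_of_cl (cl_mono hc (w (by linarith)) le_rfl
      ((min_le_left _ _).trans (min_le_right _ _)))))
  intro s k
  rw [← pm_pm b s]
  rcases le_total (pm b * s) (r - 2) with k' | k'
  · exact h2 c _ (ad k) (nr_mono (key _ ⟨k, k'⟩) le_rfl (min_le_right _ _))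
  · exact nr_of_cl (cl_mono hc (w (by linarith)) le_rfl (min_le_right _ _))

/-- decay and patching -/
theorem end_dec (hD : DecStmt κ lam ν) (H : e.OK) (hw : 0 < e.w) {v : e.YC} (hv : Crit v) (hn : Nd v)
    (h0 : ∃ y, v.Φ y ≠ 0) (hS : L v ∉ e.S) (k : ℕ) {ε : ℝ} (hε : 0 < ε) : ∃ η > 0,
    ∀ (W : Type) (T : W → Option e.YT) q c b R r, R + 10 ≤ r →
      e.cyl.AdmOn c (univ ×ˢ ir b (R - 1)) → e.cyl.EqOn (pt T q) c (univ ×ˢ iv b R r) →
      (∀ s, R + 2 ≤ pm b * s → Nr c v s 2 η) → Cl c (fz v) (ir b (r - 15 / 4)) k η →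
      Tz c v (ir b (r - 4)) k η → ∃ u, Gau e.Z.I u ∧
        (∀ x, pm b * x.2 ≤ R + 3 ∨ r ≤ pm b * x.2 → u x = 1) ∧
        Cl (e.cyl.act u c) (fz v) (ir b (R + 4)) k ε ∧ Tz (e.cyl.act u c) v (ir b (R + 4)) k ε := by
  obtain ⟨δ, d0, η₀, e0, h1⟩ := hD e v H hw hv hn h0 hS
  obtain ⟨D, h1⟩ := h1 k
  set K := (Fintype.card (Option κ) + 1) * e.D.F.μ.real univ
  have K0 : 0 ≤ K := by positivity
  obtain ⟨ρ, r0, r1, r2⟩ : ∃ ρ > 0, ρ ≤ ε / 3 ∧ K * (ρ ^ 2 * (4 / δ + 2)) ≤ ε / 3 := by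
    have t : Tendsto (fun ρ : ℝ => (ρ, K * (ρ ^ 2 * (4 / δ + 2)))) (𝓝[>] 0) (𝓝 (0, 0)) :=
      (Continuous.tendsto' (by fun_prop) 0 _ (by simp)).mono_left nhdsWithin_le_nhds
    obtain ⟨ρ, a, b⟩ := ((t.eventually (prod_mem_nhds (Iic_mem_nhds (show 0 < ε / 3 by positivity))
      (Iic_mem_nhds (show 0 < ε / 3 by positivity)))).and self_mem_nhdsWithin).exists
    exact ⟨ρ, b, a⟩
  obtain ⟨η₁, e1, h2⟩ := pat H hv.1 h0 k r0
  set z := min η₁ ρ
  have z0 : 0 < z := by positivity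
  have z1 : z ≤ η₁ := min_le_left _ _
  have z2 : z ≤ ρ := min_le_right _ _
  refine ⟨min η₀ (z / (2 * |D| + 1)), by positivity, fun W T q c b R r hr hA hE hN hc ht => ?_⟩
  set η := min η₀ (z / (2 * |D| + 1))
  have e2 : 0 < η := by positivity
  have e3 : η * (2 * |D| + 1) ≤ z := (le_div_iff₀ (by positivity)).1 (min_le_right _ _)
  have e4 : 0 ≤ |D| * η := by positivity
  obtain ⟨u, hu, h3⟩ := h1 W T q c _ _ η (min_le_left _ _) (loc_iv hA hE (a' := R + 1) (r' := r)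
    (by linarith) le_rfl) fun s hs => hN s (by
      rw [Jv_iv, win, iv_eq' b, iv_sub_iff (by linarith)] at hs; linarith [hs.1])
  rw [Jv_iv] at hu h3
  have h4 : ∀ s, R + 4 ≤ pm b * s → pm b * s ≤ r - 3 → Cl (e.cyl.act u c) (fz v) (win s) k
      (|D| * η * ex δ (some (lo b (R + 1) r)) (some (hi b (R + 1) r)) s) ∧
      0 ≤ ex δ (some (lo b (R + 1) r)) (some (hi b (R + 1) r)) s ∧
      ex δ (some (lo b (R + 1) r)) (some (hi b (R + 1) r)) s ≤ 2 := fun s a a' =>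
    have x := ex_le d0 (iv_Ioo b (R + 1) r ▸ (⟨by linarith, by linarith⟩ : s ∈ iv b (R + 1) r))
    ⟨cl_mono (h3 s (iv_eq' b s 3 ▸ iv_mono (by linarith) (by linarith))) Subset.rfl le_rfl
      (by gcongr; exacts [x.1, le_abs_self D]), x⟩
  have p := h4 (pm b * (r - 3)) (by rw [pm_pm]; linarith) (pm_pm b _).le
  obtain ⟨u', g1, g2, g3, g4⟩ := h2 c u b (r - 3) _ (isOpen_iv b (R + 1) r)
    (iv_mono (by linarith) (by linarith))
    (admOn_mono hA (prod_mono_right (iv_sub_ir (by linarith)))) hu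
    (cl_mono hc (iv_sub_ir (by linarith)) le_rfl (by nlinarith))
    (cl_mono p.1 ((iv_mono (by linarith) (by linarith)).trans (iv_eq b _ 1).ge) le_rfl (by nlinarith [p.2.2]))
  obtain ⟨U, G1, G2, G3⟩ := ext1 (b := b) (a := R + 4) (r := r) (by linarith)
    (gauOn_mono g1 (prod_mono_right fun t h => by
      have : R + 4 - 2 < pm b * t := h
      rcases lt_or_ge (pm b * t) r with k | k
      exacts [.inl ⟨by linarith, k⟩, .inr (show _ < pm b * t by linarith)]))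
    fun x h => g3 x (by linarith)
  have a0 : ∀ {I}, IsOpen I → I ⊆ ir b (R + 4) → Ag (e.cyl.act U c) (e.cyl.act u' c) I :=
    fun hI h => ag_act hI (fun x hx => G3 x (le_of_lt (h hx.2))) c
  have o1 := isOpen_iv b (R + 4) (r - 7 / 2)
  have o2 := isOpen_iv b (r - 3 - 3 / 4) (r - 3 + 3 / 4)
  have o3 := isOpen_ir b (r - 5 / 2)
  have a1 : Ag (e.cyl.act U c) (e.cyl.act u c) (iv b (R + 4) (r - 7 / 2)) :=
    (a0 o1 (iv_sub_ir le_rfl)).trans (ag_act o1 (fun x hx => g2 x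
      ⟨trivial, iv_mono (by linarith) (by linarith) hx.2⟩ (by linarith [hx.2.2])) c)
  have c2 := (a0 o2 (iv_sub_ir (by linarith))).cl o2 g4
  have a3 : Ag (e.cyl.act U c) c (ir b (r - 5 / 2)) := (a0 o3 (ir_mono (by linarith))).trans
    (ag_one o3 (fun x hx => g3 x (by linarith [mem_ofPred.1 hx.2])) c)
  have c1 : ∀ x ∈ (univ : Set e.Y.M) ×ˢ iv b (R + 4) (r - 7 / 2), Cl (e.cyl.act U c) (fz v)
      (iv b (R + 4) (r - 7 / 2) ∩ win x.2) k
      (|D| * η * ex δ (some (lo b (R + 1) r)) (some (hi b (R + 1) r)) x.2) := fun x hx =>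
    (a1.mono inter_subset_left).cl (o1.inter isOpen_Ioo) (cl_mono
      (h4 x.2 hx.2.1.le (by linarith [hx.2.2])).1 inter_subset_right le_rfl le_rfl)
  have c1' := fun w hw x hx => c1 x hx w hw x ⟨trivial, hx.2, by linarith, by linarith⟩
  have cov : ir b (R + 4) ⊆ iv b (R + 4) (r - 7 / 2) ∪
      (iv b (r - 3 - 3 / 4) (r - 3 + 3 / 4) ∪ ir b (r - 5 / 2)) := fun t h => by
    rcases lt_or_ge (pm b * t) (r - 7 / 2) with k | k
    · exact .inl ⟨h, k⟩
    rcases lt_or_ge (r - 5 / 2) (pm b * t) with k' | k'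
    exacts [.inr (.inr k'), .inr (.inl ⟨by linarith, by linarith⟩)]
  refine ⟨U, G1, fun x h => h.elim (fun h => G2 x (by linarith)) fun h =>
    (G3 x (by linarith)).trans (g3 x (by linarith)), fun w hw x hx => ?_, fun w hw => ?_⟩
  · rcases cov hx.2 with k | k | k
    · have b1 := c1' w hw x ⟨trivial, k⟩
      have b2 := mul_le_mul_of_nonneg_left (h4 x.2 k.1.le (by linarith [k.2])).2.2 e4
      exact ⟨fun i => (b1.1 i).trans (by nlinarith), b1.2.trans (by nlinarith)⟩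
    · exact cl_mono c2 Subset.rfl le_rfl (by linarith) w hw x ⟨trivial, k⟩
    · exact a3.cl o3 (cl_mono hc (ir_mono (by linarith)) le_rfl (by nlinarith)) w hw x ⟨trivial, k⟩
  have sq : ∀ {y z : ℝ}, |y| ≤ z → |y| ^ 2 ≤ z ^ 2 := fun h => pow_le_pow_left₀ (abs_nonneg _) h 2
  have t1 := tz_le (c := e.cyl.act U c) (v := v) o1.measurableSet (w := w)
    (f := fun t => 2 * ρ ^ 2 * ex δ (some (lo b (R + 1) r)) (some (hi b (R + 1) r)) t)
    (by simp only [ex, Option.elim_some]; fun_prop) fun x hx => by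
      have b1 := c1' w hw x hx
      obtain ⟨-, b2, b3⟩ := h4 x.2 hx.2.1.le (by linarith [hx.2.2])
      generalize ex δ _ _ x.2 = y at *
      have b4 : (|D| * η * y) ^ 2 ≤ 2 * ρ ^ 2 * y := by
        have : (|D| * η) ^ 2 ≤ ρ ^ 2 := pow_le_pow_left₀ e4 (by nlinarith) 2
        rw [mul_pow]
        nlinarith [mul_le_mul this (show y ^ 2 ≤ 2 * y by nlinarith) (by positivity) (by positivity)]
      exact ⟨fun i => (sq (b1.1 i)).trans b4, (pow_le_pow_left₀ (norm_nonneg _) b1.2 2).trans b4⟩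
  have t2 := tz_le (c := e.cyl.act U c) (v := v) o2.measurableSet (w := w) (f := fun _ => ρ ^ 2)
    measurable_const fun x hx => ⟨fun i => sq ((c2 w hw x hx).1 i),
      pow_le_pow_left₀ (norm_nonneg _) (c2 w hw x hx).2 2⟩
  have t3 := (a3.tz (v := v) o3 w).trans_le ((tz_mono c v (ir_mono (by linarith)) w).trans (ht w hw))
  have i1 := (lintegral_mono_set (iv_Ioo b (R + 1) r ▸ iv_mono (b := b) (a := R + 4) (a' := R + 1)
    (r := r - 7 / 2) (r' := r) (by linarith) (by linarith))).trans (lint_ex d0 _ _)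
  simp only [ENNReal.ofReal_mul (show 0 ≤ 2 * ρ ^ 2 by positivity)] at t1
  rw [lintegral_const_mul' _ _ ENNReal.ofReal_ne_top] at t1
  replace t1 := t1.trans (mul_le_mul_right (mul_le_mul_right i1 _) _)
  rw [setLIntegral_const, vol_iv] at t2
  rw [← ENNReal.ofReal_mul (by positivity), ← ENNReal.ofReal_mul K0] at t1 t2
  refine (tz_union _ v cov w).trans ((add_le_add t1 ((tz_union _ v Subset.rfl w).trans
    (add_le_add t2 t3))).trans ?_)
  have b5 : 0 ≤ K * ρ ^ 2 := by positivity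
  rw [← ENNReal.ofReal_add (mul_nonneg K0 (mul_nonneg (sq_nonneg _) (by linarith))) e2.le,
    ← ENNReal.ofReal_add (by positivity) (add_nonneg
      (mul_nonneg K0 (mul_nonneg (sq_nonneg _) (by linarith))) e2.le)]
  refine ENNReal.ofReal_le_ofReal ?_
  have b6 : K * (2 * ρ ^ 2 * (2 / δ)) + K * (ρ ^ 2 * (r - 3 + 3 / 4 - (r - 3 - 3 / 4))) =
    K * (ρ ^ 2 * (4 / δ + 2)) - K * ρ ^ 2 / 2 := by ring
  nlinarith

end Crest.Agent.X212.Sep15.S
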