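import Crest.Agent.X212.Sep15.Lin

/-!
# X212/Sep15/OpL (helper15): lines through the surgery `Op`

* `Tr b s m l a` : trivialisation of `l` along the box `b` over the heights `s`;
* `SwL` : compatible lines on the two sides of an exchange;
* `op_ext`, `op_ex`.
-/

set_option autoImplicit false
set_option linter.unusedSectionVars false

open Set Filter Topology Function Matrix
open scoped ContDiff Manifold
open Crest.Agent.X212.Dr59 Crest.Agent.X212.Cyl58 Crest.Agent.X212.Pj41 Crest.Agent.X212.Line51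
open Crest.Agent.X212.Bb31 (OE)

noncomputable section

namespace Crest.Agent.X212.Sep15

variable {Y Y' : CM 3} {R : CM 2} {κ κ' μ : Type} [Fintype κ] [Fintype κ'] [Fintype μ]

/-- `a` identifies `b^* l` with the pull-back of `m` over the heights `s` -/
abbrev Tr (b : R × ℝ → Y) (s : Set ℝ) (m : R → Matrix μ μ ℂ) (l : Y → Matrix κ κ ℂ)
    (a : R × ℝ → Matrix κ μ ℂ) : Prop :=
  Uni (IR 2) (fun p => m p.1) (fun p => l (b p)) a (univ ×ˢ s)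

variable {b₁ b₂ : R × ℝ → Y} {b₁' b₂' : R × ℝ → Y'}

/-- compatible lines on the two sides of an exchange -/
structure SwL (S : Sw b₁ b₂ b₁' b₂') (ε : ℝ) (m : R → Matrix μ μ ℂ) (l : Y → Matrix κ κ ℂ)
    (l' : Y' → Matrix κ' κ' ℂ) (a₁ a₂ : R × ℝ → Matrix κ μ ℂ) (a₁' a₂' : R × ℝ → Matrix κ' μ ℂ)
    (w : Y → Matrix κ' κ ℂ) : Prop where
  t₁ : Tr b₁' (Ioo (-ε) ε) m l' a₁'
  t₂ : Tr b₂' (Ioo (-ε) ε) m l' a₂'
  hw : Uni (𝓡 3) l (fun y => l' (S.φ y)) w S.φ.source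
  lo₁ : ∀ p : R × ℝ, p.2 ∈ Ioo (-ε) ε → p.2 < 0 → w (b₁ p) * a₁ p = a₁' p
  hi₂ : ∀ p : R × ℝ, p.2 ∈ Ioo (-ε) ε → 0 < p.2 → w (b₂ p) * a₂ p = a₁' p
  lo₂ : ∀ p : R × ℝ, p.2 ∈ Ioo (-ε) ε → p.2 < 0 → w (b₂ p) * a₂ p = a₂' p
  hi₁ : ∀ p : R × ℝ, p.2 ∈ Ioo (-ε) ε → 0 < p.2 → w (b₁ p) * a₁ p = a₂' p

theorem oe_prod {E H M E' H' N : Type*} [NormedAddCommGroup E] [NormedSpace ℝ E]
    [TopologicalSpace H] {I : ModelWithCorners ℝ E H} [TopologicalSpace M] [ChartedSpace H M]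
    [NormedAddCommGroup E'] [NormedSpace ℝ E'] [TopologicalSpace H'] {J : ModelWithCorners ℝ E' H'}
    [TopologicalSpace N] [ChartedSpace H' N] {W : Set N} {f : N → M} (h : OE J I W f) :
    OE (J.prod 𝓘(ℝ, ℝ)) (I.prod 𝓘(ℝ, ℝ)) (W ×ˢ univ) (Prod.map f (id : ℝ → ℝ)) :=
  ⟨h.op.prod isOpen_univ, fun _ hy => ld_prodMap (h.ld _ hy.1) (IsOE.id.loc _),
    fun _ hy _ hz e => Prod.ext (h.inj hy.1 hz.1 (congrArg Prod.fst e)) (Prod.ext_iff.1 e).2⟩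

theorem Box.oe {b : R × ℝ → Y} (hb : Box b) {s : Set ℝ} (hs : IsOpen s) :
    OE (IR 2) (𝓡 3) (univ ×ˢ s) b := (OE.of_oe hb).mono (isOpen_univ.prod hs) (subset_univ _)

theorem Sw.eq₁ (S : Sw b₁ b₂ b₁' b₂') {y : Y} (hy : y ∈ S.φ.source) {p : R × ℝ} (e : S.φ y = b₁' p) :
    (p.2 < 0 ∧ y = b₁ p) ∨ (0 < p.2 ∧ y = b₂ p) := by
  have h : p.2 ≠ 0 := S.b₁'_mem.1 (e ▸ S.φ.map_source hy)
  exact h.lt_or_gt.imp
    (fun k => ⟨k, S.φ.injOn hy (S.b₁_mem.2 h) (e.trans (S.lo₁ p k).symm)⟩)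
    fun k => ⟨k, S.φ.injOn hy (S.b₂_mem.2 h) (e.trans (S.hi₂ p k).symm)⟩

theorem Sw.eq₂ (S : Sw b₁ b₂ b₁' b₂') {y : Y} (hy : y ∈ S.φ.source) {p : R × ℝ} (e : S.φ y = b₂' p) :
    (p.2 < 0 ∧ y = b₂ p) ∨ (0 < p.2 ∧ y = b₁ p) := by
  have h : p.2 ≠ 0 := S.b₂'_mem.1 (e ▸ S.φ.map_source hy)
  exact h.lt_or_gt.imp
    (fun k => ⟨k, S.φ.injOn hy (S.b₂_mem.2 h) (e.trans (S.lo₂ p k).symm)⟩)
    fun k => ⟨k, S.φ.injOn hy (S.b₁_mem.2 h) (e.trans (S.hi₁ p k).symm)⟩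

variable {S : Sw b₁ b₂ b₁' b₂'} {C : End Y} {C' : End Y'} {ε : ℝ} {m : R → Matrix μ μ ℂ}
  {l : Y → Matrix κ κ ℂ} {l' : Y' → Matrix κ' κ' ℂ} {a₁ a₂ : R × ℝ → Matrix κ μ ℂ}
  {a₁' a₂' : R × ℝ → Matrix κ' μ ℂ} {w : Y → Matrix κ' κ ℂ}

theorem contMDiff_sq {b : R × ℝ → Y} (hb : Box b) : ContMDiff IC (IR 3) ∞ (sq b) :=
  (hb.contMDiff.comp (contMDiff_fst.prodMk
    (contDiff_sz.fst.contMDiff.comp contMDiff_snd))).prodMk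
    (contDiff_sz.snd.contMDiff.comp contMDiff_snd)

/-- the line on the new cap -/
theorem op_glue (O : Op S C C') (hε : 0 < ε) (hm : Pl (𝓡 2) m univ)
    (t₁ : Tr b₁ (Ioo (-ε) ε) m l a₁) (t₂ : Tr b₂ (Ioo (-ε) ε) m l a₂) (h : Ext C l) :
    ∃ (n : Type) (_ : Fintype n) (Q : C'.X → Matrix n n ℂ) (U : Y × ℝ → Matrix n κ ℂ)
      (B₁ B₂ : (R × ℝ) × ℝ → Matrix n μ ℂ), Pl (𝓡 4) Q univ ∧
      Uni (IR 3) (fun q => l q.1) (fun q => Q (C'.j (S.φ q.1, q.2))) U (S.φ.source ×ˢ univ) ∧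
      Uni ((IR 2).prod 𝓘(ℝ, ℝ)) (fun q => m q.1.1) (fun q => Q (C'.j (b₁' q.1, q.2))) B₁
        ((univ ×ˢ Ioo (-ε) ε) ×ˢ univ) ∧
      Uni ((IR 2).prod 𝓘(ℝ, ℝ)) (fun q => m q.1.1) (fun q => Q (C'.j (b₂' q.1, q.2))) B₂
        ((univ ×ˢ Ioo (-ε) ε) ×ˢ univ) ∧
      ∀ (p : R × ℝ) (s : ℝ), p.2 ∈ Ioo (-ε) ε →
        (p.2 < 0 → U (b₁ p, s) * a₁ p = B₁ (p, s) ∧ U (b₂ p, s) * a₂ p = B₂ (p, s)) ∧
        (0 < p.2 → U (b₂ p, s) * a₂ p = B₁ (p, s) ∧ U (b₁ p, s) * a₁ p = B₂ (p, s)) := by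
  classical
  obtain ⟨n, _, L, u, hL, hu⟩ := h
  let V : Set (R × ℂ) := {p | (p.2 ^ 2).im ∈ Ioo (-ε) ε}
  let ν : R × ℂ → R × ℝ := fun p => (p.1, (p.2 ^ 2).im)
  have hν : Mp IC (IR 2) V (univ ×ˢ Ioo (-ε) ε) ν := ⟨fun p _ =>
    (contMDiff_fst.prodMk (contDiff_sz.fst.contMDiff.comp contMDiff_snd)) p, fun _ hp => ⟨trivial, hp⟩⟩
  have hV : IsOpen V := isOpen_Ioo.preimage (contDiff_sz.continuous.fst.comp continuous_snd)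
  have k₁ := (t₁.comp hν).trans (hu.comp (mp_univ (contMDiff_sq S.o₁)))
  have k₂ := (t₂.comp hν).trans (hu.comp (mp_univ (contMDiff_sq S.o₂)))
  let r : R × ℂ → Matrix n μ ℂ := fun p =>
    if 0 < p.2.im then u (sq b₁ p) * a₁ (ν p) else u (sq b₂ p) * a₂ (ν p)
  have r1 : ∀ p : R × ℂ, 0 < p.2.im → r p = u (sq b₁ p) * a₁ (ν p) := fun p hp => if_pos hp
  have r2 : ∀ p : R × ℂ, p.2.im < 0 → r p = u (sq b₂ p) * a₂ (ν p) := fun p hp => if_neg hp.not_gt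
  have ci : Continuous fun p : R × ℂ => p.2.im := Complex.continuous_im.comp continuous_snd
  obtain ⟨Q, A, B, h1, h2, h3, h4⟩ := exists_gl (OE.of_pd O.i)
    ((OE.of_oe O.oe).mono hV (subset_univ _)) (fun x => (O.raw.cases x).imp id (by
      rintro ⟨p, hp, rfl⟩
      refine ⟨p, ?_, rfl⟩
      show (p.2 ^ 2).im ∈ Ioo (-ε) ε
      rw [sq_im, hp, mul_zero]
      exact ⟨neg_neg_of_pos hε, hε⟩))
    (hL.mono (subset_univ _)) (hm.comp (mp_univ contMDiff_fst)) (r := r) fun x hx p hp e => by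
      rcases O.raw.i_eq_e hx e with ⟨k, rfl⟩ | ⟨k, rfl⟩
      · exact ⟨(k₁.sm p hp).congr (eventually_of_mem ((isOpen_lt continuous_const ci).mem_nhds k) r1),
          r1 p k ▸ k₁.iso p hp⟩
      · exact ⟨(k₂.sm p hp).congr (eventually_of_mem ((isOpen_lt ci continuous_const).mem_nhds k) r2),
          r2 p k ▸ k₂.iso p hp⟩
  have ce : ContMDiff (IR 3) (IR 3) ∞ fun q : Y × ℝ => (q.1, Real.exp q.2) :=
    contMDiff_fst.prodMk (Real.contDiff_exp.contMDiff.comp contMDiff_snd)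
  have cr : ContMDiff ((IR 2).prod 𝓘(ℝ, ℝ)) 𝓘(ℝ, ℂ) ∞ fun q : (R × ℝ) × ℝ => rt (q.1.2, q.2) :=
    contDiff_rt.contMDiff.comp ((contMDiff_snd.comp contMDiff_fst).prodMk_space contMDiff_snd)
  have c1 : ContMDiff ((IR 2).prod 𝓘(ℝ, ℝ)) (𝓡 2) ∞ fun q : (R × ℝ) × ℝ => q.1.1 :=
    contMDiff_fst.comp contMDiff_fst
  have v1 : ∀ (p : R × ℝ) (s : ℝ), p.2 ∈ Ioo (-ε) ε → (p.1, rt (p.2, s)) ∈ V := fun p s hp => by
    show (rt (p.2, s) ^ 2).im ∈ Ioo (-ε) ε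
    rwa [rt_sq_im]
  have v2 : ∀ (p : R × ℝ) (s : ℝ), p.2 ∈ Ioo (-ε) ε → (p.1, -rt (p.2, s)) ∈ V := fun p s hp => by
    show ((-rt (p.2, s)) ^ 2).im ∈ Ioo (-ε) ε
    rwa [neg_sq, rt_sq_im]
  have n1 : ∀ (p : R × ℝ) (s : ℝ), ν (p.1, rt (p.2, s)) = p := fun p s => Prod.ext rfl (rt_sq_im _)
  have n2 : ∀ (p : R × ℝ) (s : ℝ), ν (p.1, -rt (p.2, s)) = p := fun p s =>
    Prod.ext rfl ((congrArg Complex.im (neg_sq _)).trans (rt_sq_im _))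
  have jm : ∀ y ∈ S.φ.source, ∀ s : ℝ, C.j (y, Real.exp s) ∈ O.i.source :=
    fun y hy s => O.raw.j_mem.2 (.inl hy)
  refine ⟨_, inferInstance, Q, fun q => A (C.j (q.1, Real.exp q.2)) * u (q.1, Real.exp q.2),
    fun q => B (q.1.1, -rt (q.1.2, q.2)), fun q => B (q.1.1, rt (q.1.2, q.2)), h1,
    uni_congr ((hu.comp (mp_univ ce)).trans (h2.comp ⟨fun q _ => (C.oe.contMDiff.comp ce) q,
      fun q hq => jm _ hq.1 _⟩)) (fun _ _ => rfl) fun q hq => congrArg Q (O.ej _ hq.1 _),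
    uni_congr (h3.comp ⟨fun q _ => (c1.prodMk cr.neg) q, fun q hq => v2 _ _ hq.1.2⟩) (fun _ _ => rfl)
      fun q _ => congrArg Q (O.j₁ _ _),
    uni_congr (h3.comp ⟨fun q _ => (c1.prodMk cr) q, fun q hq => v1 _ _ hq.1.2⟩) (fun _ _ => rfl)
      fun q _ => congrArg Q (O.j₂ _ _), fun p s hp => ⟨fun k => ⟨?_, ?_⟩, fun k => ⟨?_, ?_⟩⟩⟩
  · have i := rt_im_neg (p := (p.2, s)) k
    dsimp only
    rw [Matrix.mul_assoc, ← h4 _ (jm _ (S.b₁_mem.2 k.ne) s) _ (v2 p s hp)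
      (by rw [← O.ej _ (S.b₁_mem.2 k.ne), S.lo₁ p k, O.j₁]), r1 _ (by simpa using i), sq_neg, sq_rt, n2]
  · have i := rt_im_neg (p := (p.2, s)) k
    dsimp only
    rw [Matrix.mul_assoc, ← h4 _ (jm _ (S.b₂_mem.2 k.ne) s) _ (v1 p s hp)
      (by rw [← O.ej _ (S.b₂_mem.2 k.ne), S.lo₂ p k, O.j₂]), r2 _ i, sq_rt, n1]
  · have i := rt_im_pos (p := (p.2, s)) k
    dsimp only
    rw [Matrix.mul_assoc, ← h4 _ (jm _ (S.b₂_mem.2 k.ne') s) _ (v2 p s hp)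
      (by rw [← O.ej _ (S.b₂_mem.2 k.ne'), S.hi₂ p k, O.j₁]), r2 _ (by simpa using i), sq_neg, sq_rt, n2]
  · have i := rt_im_pos (p := (p.2, s)) k
    dsimp only
    rw [Matrix.mul_assoc, ← h4 _ (jm _ (S.b₁_mem.2 k.ne') s) _ (v1 p s hp)
      (by rw [← O.ej _ (S.b₁_mem.2 k.ne'), S.hi₁ p k, O.j₂]), r1 _ i, sq_rt, n1]

theorem mul_ct_eq {n : Type} [Fintype n] {U : Matrix n κ ℂ} {a : Matrix κ μ ℂ} {w : Matrix κ' κ ℂ}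
    {p : Matrix μ μ ℂ} {q : Matrix κ κ ℂ} {q' : Matrix κ' κ' ℂ} (ha : PIso a p q)
    (hw : PIso w q q') : U * wᴴ = U * a * (w * a)ᴴ := by
  rw [conjTranspose_mul, Matrix.mul_assoc, ← Matrix.mul_assoc a, ha.tgt, hw.ct_left]

/-- **a compatible line extends over the new cap** -/
theorem op_ext (O : Op S C C') (hε : 0 < ε) (hm : Pl (𝓡 2) m univ)
    (t₁ : Tr b₁ (Ioo (-ε) ε) m l a₁) (t₂ : Tr b₂ (Ioo (-ε) ε) m l a₂)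
    (L : SwL S ε m l l' a₁ a₂ a₁' a₂' w) (h : Ext C l) : Ext C' l' := by
  obtain ⟨n, i, Q, U, B₁, B₂, h1, h2, h3, h4, h5⟩ := op_glue O hε hm t₁ t₂ h
  have o0 := oe_prod (OE.of_pd S.φ)
  have o1 := oe_prod (S.o₁'.oe (isOpen_Ioo (a := -ε) (b := ε)))
  have o2 := oe_prod (S.o₂'.oe (isOpen_Ioo (a := -ε) (b := ε)))
  obtain ⟨u, e0, e1, e2⟩ := exists_fun3 o0.inj o1.inj o2.inj
    (fun y z e => S.dj' _ _ (congrArg Prod.fst e)) (a := fun q => U q * (w q.1)ᴴ)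
    (c := fun q => B₁ q * (a₁' q.1)ᴴ) (c' := fun q => B₂ q * (a₂' q.1)ᴴ)
    (by
      rintro ⟨y, s⟩ hy ⟨p, _⟩ hp e
      obtain ⟨e1, rfl⟩ := Prod.ext_iff.1 e
      rcases S.eq₁ hy.1 e1 with ⟨k, rfl⟩ | ⟨k, rfl⟩
      · rw [← (((h5 p _ hp.1.2).1 k).1), ← L.lo₁ p hp.1.2 k]
        exact mul_ct_eq (t₁.iso p hp.1) (L.hw.iso _ hy.1)
      · rw [← (((h5 p _ hp.1.2).2 k).1), ← L.hi₂ p hp.1.2 k]
        exact mul_ct_eq (t₂.iso p hp.1) (L.hw.iso _ hy.1))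
    (by
      rintro ⟨y, s⟩ hy ⟨p, _⟩ hp e
      obtain ⟨e1, rfl⟩ := Prod.ext_iff.1 e
      rcases S.eq₂ hy.1 e1 with ⟨k, rfl⟩ | ⟨k, rfl⟩
      · rw [← (((h5 p _ hp.1.2).1 k).2), ← L.lo₂ p hp.1.2 k]
        exact mul_ct_eq (t₂.iso p hp.1) (L.hw.iso _ hy.1)
      · rw [← (((h5 p _ hp.1.2).2 k).2), ← L.hi₁ p hp.1.2 k]
        exact mul_ct_eq (t₁.iso p hp.1) (L.hw.iso _ hy.1))
  have k0 := uni_oe (p := fun q => l' q.1) (q := fun q => Q (C'.j q)) o0 e0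
    ((L.hw.symm.comp ⟨fun _ _ => contMDiffAt_fst, fun _ hq => hq.1⟩).trans h2)
  have k1 := uni_oe (p := fun q => l' q.1) (q := fun q => Q (C'.j q)) o1 e1
    ((L.t₁.symm.comp ⟨fun _ _ => contMDiffAt_fst, fun _ hq => hq.1⟩).trans h3)
  have k2 := uni_oe (p := fun q => l' q.1) (q := fun q => Q (C'.j q)) o2 e2
    ((L.t₂.symm.comp ⟨fun _ _ => contMDiffAt_fst, fun _ hq => hq.1⟩).trans h4)
  refine ⟨n, i, Q, u, h1, (uni_union k0 (uni_union k1 k2)).mono ?_⟩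
  rintro ⟨y, s⟩ -
  have h0 : (0 : ℝ) ∈ Ioo (-ε) ε := ⟨neg_neg_of_pos hε, hε⟩
  rcases S.cases' y with ⟨x, hx, rfl⟩ | ⟨x, rfl⟩ | ⟨x, rfl⟩
  exacts [.inl ⟨(x, s), ⟨hx, trivial⟩, rfl⟩, .inr (.inl ⟨((x, 0), s), ⟨⟨trivial, h0⟩, trivial⟩, rfl⟩),
    .inr (.inr ⟨((x, 0), s), ⟨⟨trivial, h0⟩, trivial⟩, rfl⟩)]

/-- there is a compatible line which extends over the new cap -/
theorem op_ex (O : Op S C C') (hε : 0 < ε) (hm : Pl (𝓡 2) m univ)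
    (t₁ : Tr b₁ (Ioo (-ε) ε) m l a₁) (t₂ : Tr b₂ (Ioo (-ε) ε) m l a₂) (h : Ext C l) :
    ∃ (n : Type) (_ : Fintype n) (l' : Y' → Matrix n n ℂ) (a₁' a₂' : R × ℝ → Matrix n μ ℂ)
      (w : Y → Matrix n κ ℂ), SwL S ε m l l' a₁ a₂ a₁' a₂' w ∧ Ext C' l' := by
  obtain ⟨n, i, Q, U, B₁, B₂, -, h2, h3, h4, h5⟩ := op_glue O hε hm t₁ t₂ h
  have L : SwL S ε m l (fun y => Q (C'.j (y, 0))) a₁ a₂ (fun p => B₁ (p, 0)) (fun p => B₂ (p, 0))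
      fun y => U (y, 0) :=
    ⟨h3.comp ⟨fun _ _ => contMDiffAt_id.prodMk contMDiffAt_const, fun _ hp => ⟨hp, trivial⟩⟩,
      h4.comp ⟨fun _ _ => contMDiffAt_id.prodMk contMDiffAt_const, fun _ hp => ⟨hp, trivial⟩⟩,
      h2.comp ⟨fun _ _ => contMDiffAt_id.prodMk contMDiffAt_const, fun _ hp => ⟨hp, trivial⟩⟩,
      fun p hp k => ((h5 p 0 hp).1 k).1, fun p hp k => ((h5 p 0 hp).2 k).1,
      fun p hp k => ((h5 p 0 hp).1 k).2, fun p hp k => ((h5 p 0 hp).2 k).2⟩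
  exact ⟨n, i, _, _, _, _, L, op_ext O hε hm t₁ t₂ L h⟩

end Crest.Agent.X212.Sep15
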