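import Crest.Agent.X212.Cyl58.ME

/-!
# X212/Sep15/Defs (helper15): one-sided caps and the surgery `OP` (manifolds only)

* `CM n` closed manifolds with model `𝓡 n`; `End Y` open four-manifolds with one end `Y × ℝ`;
* `Sw`, `Op` : exchange of the tops of two boxes, and the branched four-dimensional piece;
* `Rg` : regluing along one box;  `Jo` : two caps joined along `Y`;  `Bs` : the base cap `R × ℂ`;
* the existence statements.
-/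

set_option autoImplicit false
set_option linter.unusedSectionVars false

open Set Filter Topology Function
open scoped ContDiff Manifold
open Crest.Agent.X212.Cyl58

noncomputable section

namespace Crest.Agent.X212.Sep15

/-- Euclidean space -/
abbrev EE (n : ℕ) : Type := EuclideanSpace ℝ (Fin n)

/-- the model of `M × ℝ` -/
abbrev IR (n : ℕ) : ModelWithCorners ℝ (EE n × ℝ) (ModelProd (EE n) ℝ) := (𝓡 n).prod 𝓘(ℝ, ℝ)

/-- the model of `R × ℂ` -/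
abbrev IC : ModelWithCorners ℝ (EE 2 × ℂ) (ModelProd (EE 2) ℂ) := (𝓡 2).prod 𝓘(ℝ, ℂ)

/-- closed manifolds (not necessarily connected) -/
structure CM (n : ℕ) : Type 1 where
  M : Type
  [tM : TopologicalSpace M]
  [cM : ChartedSpace (EE n) M]
  [mM : IsManifold (𝓡 n) ∞ M]
  [t2 : T2Space M]
  [cp : CompactSpace M]

attribute [instance] CM.tM CM.cM CM.mM CM.t2 CM.cp

instance {n : ℕ} : CoeSort (CM n) Type := ⟨CM.M⟩

instance {n : ℕ} (Y : CM n) : SecondCountableTopology Y :=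
  ChartedSpace.secondCountable_of_sigmaCompact (EE n) Y

instance {n : ℕ} (Y : CM n) : MeasurableSpace Y := borel _

instance {n : ℕ} (Y : CM n) : BorelSpace Y := ⟨rfl⟩

/-- the piece of a closed manifold -/
abbrev CM.pc {n : ℕ} (Y : CM n) : Glue52.Pc (EE n) :=
  Glue52.Pc.of (𝓡 n) Y (ContinuousLinearEquiv.refl ℝ _)

/-! ### ends -/

/-- an open four-manifold with one end `Y × ℝ` and compact core -/
structure End (Y : CM 3) : Type 1 where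
  X : Type
  [tX : TopologicalSpace X]
  [cX : ChartedSpace (EE 4) X]
  [mX : IsManifold (𝓡 4) ∞ X]
  [t2 : T2Space X]
  [sc : SecondCountableTopology X]
  j : Y × ℝ → X
  isEnd : IsEnd (𝓡 3) (𝓡 4) j
  cpt : IsCompact (j '' (univ ×ˢ Ioi 0))ᶜ

attribute [instance] End.tX End.cX End.mX End.t2 End.sc

instance {Y : CM 3} (C : End Y) : MeasurableSpace C.X := borel _

instance {Y : CM 3} (C : End Y) : BorelSpace C.X := ⟨rfl⟩

namespace End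

variable {Y : CM 3} (C : End Y)

theorem oe : IsOE (IR 3) (𝓡 4) C.j := C.isEnd.oe

/-- the part below height `T` (`C.K 0` is the cap) -/
def K (T : ℝ) : Set C.X := (C.j '' (univ ×ˢ Ioi T))ᶜ

/-- change of the parametrisation of the cross-section -/
def re {Y' : CM 3} (f : Y' ≃ₘ^∞⟮𝓡 3, 𝓡 3⟯ Y) : End Y' where
  X := C.X
  j p := C.j (f p.1, p.2)
  isEnd := C.isEnd.reparam f
  cpt := by
    convert C.cpt using 2
    ext x
    constructor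
    · rintro ⟨p, hp, rfl⟩
      exact ⟨_, ⟨mem_univ _, hp.2⟩, rfl⟩
    · rintro ⟨p, hp, rfl⟩
      exact ⟨(f.symm p.1, p.2), ⟨mem_univ _, hp.2⟩, by simp⟩

/-- the cap as a manifold with ends -/
def me : ME (EE 4) (EE 3) where
  P := Glue52.Pc.of (𝓡 4) C.X (ContinuousLinearEquiv.refl ℝ _)
  t2 := C.t2
  sc := C.sc
  α := Unit
  Y _ := Y.pc
  cY _ := Y.cp
  j _ := C.j
  isEnd _ := C.isEnd
  disj _ _ _ _ _ := rfl
  cpt := by rw [iUnion_const]; exact C.cpt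

theorem j_mem_K {T : ℝ} {p : Y × ℝ} : C.j p ∈ C.K T ↔ p.2 ≤ T := by
  refine ⟨fun h => not_lt.1 fun h' => h ⟨p, ⟨mem_univ _, h'⟩, rfl⟩, ?_⟩
  rintro h ⟨q, hq, e⟩
  rw [← C.oe.inj e] at h
  exact h.not_gt hq.2

theorem mem_K {T : ℝ} {x : C.X} (h : x ∉ range C.j) : x ∈ C.K T := fun ⟨p, _, e⟩ => h ⟨p, e⟩

theorem isCompact_K (T : ℝ) : IsCompact (C.K T) := by
  have h : IsCompact (⋃ _ : Unit, C.j '' (univ ×ˢ Ioi T))ᶜ := C.me.isCompact_core T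
  rwa [iUnion_const] at h

theorem isClosed_Ici (T : ℝ) : IsClosed (C.j '' (univ ×ˢ Ici T)) := C.isEnd.isClosed T

end End

/-! ### boxes -/

section box

variable {Y Y' : CM 3} {R : CM 2}

/-- a box -/
abbrev Box (b : R × ℝ → Y) : Prop := IsOE (IR 2) (𝓡 3) b

/-- the slab over a set of heights -/
def slab (b : R × ℝ → Y) (s : Set ℝ) : Set Y := b '' (univ ×ˢ s)

/-- `h × id` -/
def px {R R' : Type*} (h : R → R') (p : R × ℝ) : R' × ℝ := (h p.1, p.2)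

/-- `Y'` is `Y` with the tops of the boxes `b₁` and `b₂` exchanged -/
structure Sw (b₁ b₂ : R × ℝ → Y) (b₁' b₂' : R × ℝ → Y') where
  o₁ : Box b₁
  o₂ : Box b₂
  dj : ∀ p q, b₁ p ≠ b₂ q
  o₁' : Box b₁'
  o₂' : Box b₂'
  dj' : ∀ p q, b₁' p ≠ b₂' q
  φ : PartialDiffeomorph (𝓡 3) (𝓡 3) Y Y' ∞
  src : φ.source = (slab b₁ {0} ∪ slab b₂ {0})ᶜ
  tgt : φ.target = (slab b₁' {0} ∪ slab b₂' {0})ᶜ
  lo₁ : ∀ p : R × ℝ, p.2 < 0 → φ (b₁ p) = b₁' p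
  hi₂ : ∀ p : R × ℝ, 0 < p.2 → φ (b₂ p) = b₁' p
  lo₂ : ∀ p : R × ℝ, p.2 < 0 → φ (b₂ p) = b₂' p
  hi₁ : ∀ p : R × ℝ, 0 < p.2 → φ (b₁ p) = b₂' p

/-- the point `(x, Im z²)` of a box at the height `Re z²` -/
def sq {R Y : Type*} (b : R × ℝ → Y) (p : R × ℂ) : Y × ℝ := (b (p.1, (p.2 ^ 2).im), (p.2 ^ 2).re)

/-- the four-dimensional surgery: slit `C` along `b_i (R × 0) × [0, ∞)` and glue in `R × ℂ`, the
upper half plane to the first box and the lower half plane to the second box, by `w = z²`;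
the new height is `log t` -/
structure Op {b₁ b₂ : R × ℝ → Y} {b₁' b₂' : R × ℝ → Y'} (S : Sw b₁ b₂ b₁' b₂') (C : End Y)
    (C' : End Y') where
  i : PartialDiffeomorph (𝓡 4) (𝓡 4) C.X C'.X ∞
  e : R × ℂ → C'.X
  oe : IsOE IC (𝓡 4) e
  src : i.source = (C.j '' ((slab b₁ {0} ∪ slab b₂ {0}) ×ˢ Ici 0))ᶜ
  tgt : i.target = (e '' {p | p.2.im = 0})ᶜ
  up : ∀ p : R × ℂ, 0 < p.2.im → e p = i (C.j (sq b₁ p))
  dn : ∀ p : R × ℂ, p.2.im < 0 → e p = i (C.j (sq b₂ p))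
  ej : ∀ y ∈ S.φ.source, ∀ s : ℝ, C'.j (S.φ y, s) = i (C.j (y, Real.exp s))
  e₁ : ∀ p : R × ℂ, 0 < (p.2 ^ 2).re → p.2.re < 0 →
    e p = C'.j (b₁' (p.1, (p.2 ^ 2).im), Real.log (p.2 ^ 2).re)
  e₂ : ∀ p : R × ℂ, 0 < (p.2 ^ 2).re → 0 < p.2.re →
    e p = C'.j (b₂' (p.1, (p.2 ^ 2).im), Real.log (p.2 ^ 2).re)

/-- `Y'` is `Y` cut along `b (R × 0)` and reglued by `h` -/
structure Rg (b : R × ℝ → Y) (h : R → R) (b' : R × ℝ → Y') where
  o : Box b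
  o' : Box b'
  φ : PartialDiffeomorph (𝓡 3) (𝓡 3) Y Y' ∞
  src : φ.source = (slab b {0})ᶜ
  tgt : φ.target = (slab b' {0})ᶜ
  lo : ∀ p : R × ℝ, p.2 < 0 → φ (b p) = b' p
  hi : ∀ p : R × ℝ, 0 < p.2 → φ (b p) = b' (px h p)

/-- the base cap: `Y = R × S¹`, `X = R × ℂ`, `j (x, θ, t) = (x, eᵗ θ)` -/
structure Bs (R : CM 2) (C : End Y) where
  f : (R × Circle) ≃ₘ^∞⟮(𝓡 2).prod (𝓡 1), 𝓡 3⟯ Y
  g : (R × ℂ) ≃ₘ^∞⟮IC, 𝓡 4⟯ C.X
  eq : ∀ x (θ : Circle) (t : ℝ), C.j (f (x, θ), t) = g (x, Real.exp t * θ)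

end box

/-- two ends joined along `Y × ℝ` by `t ↦ -t` -/
structure Jo {Y : CM 3} (C₁ C₂ : End Y) (X : CM 4) where
  i₁ : C₁.X → X
  i₂ : C₂.X → X
  o₁ : IsOE (𝓡 4) (𝓡 4) i₁
  o₂ : IsOE (𝓡 4) (𝓡 4) i₂
  cov : ∀ x, x ∈ range i₁ ∨ x ∈ range i₂
  eq : ∀ p q, i₁ p = i₂ q ↔ ∃ y t, p = C₁.j (y, t) ∧ q = C₂.j (y, -t)

/-! ### existence statements -/

/-- existence of the exchanged three-manifold -/
def SwStmt : Prop := ∀ (Y : CM 3) (R : CM 2) (b₁ b₂ : R × ℝ → Y), Box b₁ → Box b₂ →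
  (∀ p q, b₁ p ≠ b₂ q) → ∃ (Y' : CM 3) (b₁' b₂' : R × ℝ → Y'), Nonempty (Sw b₁ b₂ b₁' b₂')

/-- existence of the reglued three-manifold -/
def RgStmt : Prop := ∀ (Y : CM 3) (R : CM 2) (b : R × ℝ → Y) (h : R ≃ₘ^∞⟮𝓡 2, 𝓡 2⟯ R), Box b →
  ∃ (Y' : CM 3) (b' : R × ℝ → Y'), Nonempty (Rg b h b')

/-- existence of the four-dimensional surgery -/
def OpStmt : Prop := ∀ (Y Y' : CM 3) (R : CM 2) (b₁ b₂ : R × ℝ → Y) (b₁' b₂' : R × ℝ → Y')
  (S : Sw b₁ b₂ b₁' b₂') (C : End Y), ∃ C' : End Y', Nonempty (Op S C C')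

/-- existence of the join -/
def JoStmt : Prop := ∀ (Y : CM 3) (C₁ C₂ : End Y), ∃ X : CM 4, Nonempty (Jo C₁ C₂ X)

/-- existence of the base cap -/
def BsStmt : Prop := ∀ (R : CM 2) (Y : CM 3) (f : (R × Circle) ≃ₘ^∞⟮(𝓡 2).prod (𝓡 1), 𝓡 3⟯ Y),
  ∃ (C : End Y) (B : Bs R C), B.f = f

end Crest.Agent.X212.Sep15
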