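import Crest.Agent.X212.Sep15.Op
import Crest.Agent.X212.Bb31.Push
import Crest.Agent.X212.Line51.Lit
import Crest.Agent.X212.Weil93.Main

/-!
# X212/Sep15/Lin (helper15): lines on caps

* `Pl I p U` : rank one projector fields; `exists_gl` : gluing through two parametrisations;
* `Ext C l` : the line `l` on `Y` extends over the cap;  `EXT Y C` : all lines extend;
* `Ext.of_uni`, `EXT.re`, `EXT.exr`, `exists_jo` (a line on the join).
-/

set_option autoImplicit false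
set_option linter.unusedSectionVars false

open Set Filter Topology Function Matrix
open scoped ContDiff Manifold
open Crest.Agent.R208 Crest.Agent.R208.F Crest.Agent.X212.Dr59 Crest.Agent.X212.Cyl58
  Crest.Agent.X212.Pj41 Crest.Agent.X212.Line51
open Crest.Agent.X212.Bb31 (OE)

noncomputable section

namespace Crest.Agent.X212.Sep15

section gen

variable {E : Type*} [NormedAddCommGroup E] [NormedSpace ℝ E] [FiniteDimensional ℝ E]
  {H : Type*} [TopologicalSpace H] {I : ModelWithCorners ℝ E H} [I.Boundaryless]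
  {M : Type*} [TopologicalSpace M] [ChartedSpace H M] [IsManifold I ∞ M]
  {E' : Type*} [NormedAddCommGroup E'] [NormedSpace ℝ E'] [FiniteDimensional ℝ E']
  {H' : Type*} [TopologicalSpace H'] {J : ModelWithCorners ℝ E' H'} [J.Boundaryless]
  {N : Type*} [TopologicalSpace N] [ChartedSpace H' N] [IsManifold J ∞ N]
  {E'' : Type*} [NormedAddCommGroup E''] [NormedSpace ℝ E''] [FiniteDimensional ℝ E'']
  {H'' : Type*} [TopologicalSpace H''] {K : ModelWithCorners ℝ E'' H''} [K.Boundaryless]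
  {P : Type*} [TopologicalSpace P] [ChartedSpace H'' P] [IsManifold K ∞ P]
  {κ l : Type*} [Fintype κ] [Fintype l]

variable (I) in
/-- a smooth field of rank one projectors -/
structure Pl (p : M → Matrix κ κ ℂ) (U : Set M) : Prop where
  sm : ∀ x ∈ U, MSm I p x
  prj : ∀ x ∈ U, Prj (p x)
  tr : ∀ x ∈ U, (p x).trace = 1

variable {p : M → Matrix κ κ ℂ} {q : M → Matrix l l ℂ} {u : M → Matrix l κ ℂ} {U V : Set M}
  {W : Set N} {f : N → M}

theorem Pl.on (h : Pl I p U) : (⟨p, 0⟩ : Ln E M κ).On I U := ⟨h.sm, h.prj, h.tr, Sm.zero, Dg.zero⟩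

theorem Pl.of_on {L : Ln E M κ} (h : L.On I U) : Pl I L.p U := ⟨h.sm, h.prj, h.tr⟩

theorem Pl.mono (h : Pl I p U) (s : V ⊆ U) : Pl I p V :=
  ⟨fun x hx => h.sm x (s hx), fun x hx => h.prj x (s hx), fun x hx => h.tr x (s hx)⟩

theorem Pl.comp (h : Pl I p U) (hf : Mp J I W U f) : Pl J (fun y => p (f y)) W :=
  ⟨fun y hy => (h.sm _ (hf.maps hy)).comp (hf.sm y hy), fun _ hy => h.prj _ (hf.maps hy),
    fun _ hy => h.tr _ (hf.maps hy)⟩

theorem Pl.refl (h : Pl I p U) : Uni I p p p U := ⟨h.sm, fun x hx => (h.prj x hx).refl⟩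

theorem mp_univ (hf : ContMDiff J I ∞ f) : Mp J I W univ f := ⟨fun y _ => hf y, mapsTo_univ _ _⟩

theorem uni_congr {p' : M → Matrix κ κ ℂ} {q' : M → Matrix l l ℂ} (h : Uni I p q u U)
    (e : ∀ x ∈ U, p' x = p x) (e' : ∀ x ∈ U, q' x = q x) : Uni I p' q' u U :=
  ⟨h.sm, fun x hx => by rw [e x hx, e' x hx]; exact h.iso x hx⟩

theorem uni_cover {ι : Sort*} {O : ι → Set M} (h : ∀ i, Uni I p q u (O i))
    (hc : ∀ x ∈ U, ∃ i, x ∈ O i) : Uni I p q u U :=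
  ⟨fun x hx => let ⟨i, hi⟩ := hc x hx; (h i).sm x hi, fun x hx => let ⟨i, hi⟩ := hc x hx; (h i).iso x hi⟩

theorem uni_union (h : Uni I p q u U) (h' : Uni I p q u V) : Uni I p q u (U ∪ V) :=
  ⟨fun x hx => hx.elim (h.sm x) (h'.sm x), fun x hx => hx.elim (h.iso x) (h'.iso x)⟩

theorem uni_smul (h : Uni I p q u U) {g : M → Circle} (hg : ∀ x ∈ U, CSm I g x) :
    Uni I p q (fun x => (g x : ℂ) • u x) U := by
  refine ⟨fun x hx => MSm.smul ((contMDiff_coe _).comp x (hg x hx)) (h.sm x hx), fun x hx => ?_⟩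
  have k : star (g x : ℂ) * g x = 1 := by
    rw [Complex.star_def, Complex.conj_mul', Circle.norm_coe]; simp
  have i := h.iso x hx
  exact ⟨by rw [conjTranspose_smul, Matrix.smul_mul, Matrix.mul_smul, smul_smul, k, one_smul, i.src],
    by rw [conjTranspose_smul, Matrix.smul_mul, Matrix.mul_smul, smul_smul, mul_comm, k, one_smul,
      i.tgt], by rw [Matrix.smul_mul, i.idem]⟩

theorem msm_oe (h : OE J I W f) {a : N → Matrix l κ ℂ} (e : ∀ y ∈ W, u (f y) = a y) {y : N}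
    (hy : y ∈ W) (ha : MSm J a y) : MSm I u (f y) :=
  MSm.of_comp (h.ld y hy) (ha.congr (eventually_of_mem (h.op.mem_nhds hy) e))

theorem uni_oe (h : OE J I W f) {a : N → Matrix l κ ℂ} (e : ∀ y ∈ W, u (f y) = a y)
    (ha : Uni J (fun y => p (f y)) (fun y => q (f y)) a W) : Uni I p q u (f '' W) :=
  ⟨by rintro _ ⟨y, hy, rfl⟩; exact msm_oe h e hy (ha.sm y hy),
    by rintro _ ⟨y, hy, rfl⟩; rw [e y hy]; exact ha.iso y hy⟩

theorem exists_sel {X α : Type*} [Inhabited α] (S : X → α → Prop)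
    (h : ∀ x a b, S x a → S x b → a = b) : ∃ u : X → α, ∀ x a, S x a → u x = a := by
  classical
  refine ⟨fun x => if k : ∃ a, S x a then k.choose else default, fun x a ha => ?_⟩
  have k : ∃ a, S x a := ⟨a, ha⟩
  exact (dif_pos k).trans (h x _ _ k.choose_spec ha)

theorem exists_fun1 {X A α : Type*} [Inhabited α] {f : A → X} {W : Set A} (hf : InjOn f W)
    (a : A → α) : ∃ u : X → α, ∀ y ∈ W, u (f y) = a y := by
  obtain ⟨u, hu⟩ := exists_sel (fun x m => ∃ y ∈ W, f y = x ∧ a y = m) (by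
    rintro _ _ _ ⟨y, hy, rfl, rfl⟩ ⟨z, hz, e, rfl⟩
    rw [hf hz hy e])
  exact ⟨u, fun y hy => hu _ _ ⟨y, hy, rfl, rfl⟩⟩

theorem exists_fun2 {X A B α : Type*} [Inhabited α] {f : A → X} {W : Set A} (hf : InjOn f W)
    {g : B → X} {V : Set B} (hg : InjOn g V) {a : A → α} {c : B → α}
    (h : ∀ y ∈ W, ∀ z ∈ V, f y = g z → a y = c z) :
    ∃ u : X → α, (∀ y ∈ W, u (f y) = a y) ∧ ∀ z ∈ V, u (g z) = c z := by
  obtain ⟨u, hu⟩ := exists_sel
    (fun x m => (∃ y ∈ W, f y = x ∧ a y = m) ∨ ∃ z ∈ V, g z = x ∧ c z = m) (by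
      rintro _ _ _ (⟨y, hy, rfl, rfl⟩ | ⟨y, hy, rfl, rfl⟩) (⟨z, hz, e, rfl⟩ | ⟨z, hz, e, rfl⟩)
      exacts [by rw [hf hz hy e], h y hy z hz e.symm, (h z hz y hy e).symm, by rw [hg hz hy e]])
  exact ⟨u, fun y hy => hu _ _ (.inl ⟨y, hy, rfl, rfl⟩), fun y hy => hu _ _ (.inr ⟨y, hy, rfl, rfl⟩)⟩

theorem exists_fun3 {X A B α : Type*} [Inhabited α] {f : A → X} {W : Set A} (hf : InjOn f W)
    {g g' : B → X} {V : Set B} (hg : InjOn g V) (hg' : InjOn g' V) (hd : ∀ y z, g y ≠ g' z)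
    {a : A → α} {c c' : B → α} (h : ∀ y ∈ W, ∀ z ∈ V, f y = g z → a y = c z)
    (h' : ∀ y ∈ W, ∀ z ∈ V, f y = g' z → a y = c' z) :
    ∃ u : X → α, (∀ y ∈ W, u (f y) = a y) ∧ (∀ z ∈ V, u (g z) = c z) ∧ ∀ z ∈ V, u (g' z) = c' z := by
  obtain ⟨v, h1, h2⟩ := exists_fun2 hg hg' (a := c) (c := c') fun y _ z _ e => (hd y z e).elim
  obtain ⟨u, h3, h4⟩ := exists_fun2 hf (injOn_id (g '' V ∪ g' '' V)) (a := a) (c := v) (by
    rintro y hy _ (⟨z, hz, rfl⟩ | ⟨z, hz, rfl⟩) e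
    exacts [(h y hy z hz e).trans (h1 z hz).symm, (h' y hy z hz e).trans (h2 z hz).symm])
  exact ⟨u, h3, fun z hz => (h4 _ (.inl ⟨z, hz, rfl⟩)).trans (h1 z hz),
    fun z hz => (h4 _ (.inr ⟨z, hz, rfl⟩)).trans (h2 z hz)⟩

/-- **gluing of two lines given in parametrisations** -/
theorem exists_gl [T2Space M] [SigmaCompactSpace M] {g : P → M} {V : Set P} (hf : OE J I W f)
    (hg : OE K I V g) (hc : ∀ x, x ∈ f '' W ∨ x ∈ g '' V) {p : N → Matrix κ κ ℂ}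
    {q : P → Matrix l l ℂ} (hp : Pl J p W) (hq : Pl K q V) {r : P → Matrix κ l ℂ}
    (hr : ∀ y ∈ W, ∀ z ∈ V, f y = g z → MSm K r z ∧ PIso (r z) (q z) (p y)) :
    ∃ (Q : M → Matrix (l ⊕ κ) (l ⊕ κ) ℂ) (a : N → Matrix (l ⊕ κ) κ ℂ) (c : P → Matrix (l ⊕ κ) l ℂ),
      Pl I Q univ ∧ Uni J p (fun y => Q (f y)) a W ∧ Uni K q (fun z => Q (g z)) c V ∧
      ∀ y ∈ W, ∀ z ∈ V, f y = g z → a y * r z = c z := by
  obtain ⟨p', e1⟩ := exists_fun1 hf.inj p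
  obtain ⟨q', e2⟩ := exists_fun1 hg.inj q
  obtain ⟨r', e3⟩ := exists_fun1 hg.inj r
  obtain ⟨Q, c, a, h1, h2, h3, h4, -⟩ := exists_glue_two (I := I) hg.isOpen_image hf.isOpen_image
    (eq_univ_of_forall fun x => (hc x).symm) (p := q') (q := p') (u := r')
    (by rintro _ ⟨z, hz, rfl⟩; exact ⟨msm_oe hg e2 hz (hq.sm z hz), e2 z hz ▸ hq.prj z hz⟩)
    (by rintro _ ⟨z, hz, rfl⟩; exact ⟨msm_oe hf e1 hz (hp.sm z hz), e1 z hz ▸ hp.prj z hz⟩)
    (by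
      rintro _ ⟨z, hz, rfl⟩ ⟨y, hy, e⟩
      refine ⟨msm_oe hg e3 hz (hr y hy z hz e).1, ?_⟩
      rw [e3 z hz, e2 z hz, ← e, e1 y hy]
      exact (hr y hy z hz e).2)
  have k1 : Uni J p (fun y => Q (f y)) (fun y => a (f y)) W :=
    ⟨fun y hy => (h3 _ ⟨y, hy, rfl⟩).1.comp (hf.ld y hy).contMDiffAt,
      fun y hy => e1 y hy ▸ (h3 _ ⟨y, hy, rfl⟩).2⟩
  have k2 : Uni K q (fun y => Q (g y)) (fun y => c (g y)) V :=
    ⟨fun y hy => (h2 _ ⟨y, hy, rfl⟩).1.comp (hg.ld y hy).contMDiffAt,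
      fun y hy => e2 y hy ▸ (h2 _ ⟨y, hy, rfl⟩).2⟩
  refine ⟨Q, _, _, ⟨fun x _ => (h1 x).1, fun x _ => (h1 x).2, fun x _ => ?_⟩, k1, k2,
    fun y hy z hz e => ?_⟩
  · rcases hc x with ⟨y, hy, rfl⟩ | ⟨y, hy, rfl⟩
    exacts [(k1.iso y hy).trace_eq ▸ hp.tr y hy, (k2.iso y hy).trace_eq ▸ hq.tr y hy]
  · rw [e, ← e3 z hz]
    exact (h4 _ ⟨z, hz, rfl⟩ ⟨y, hy, e⟩).2

end gen

variable {Y Y' : CM 3} {κ κ' : Type} [Fintype κ] [Fintype κ']

instance (C : End Y) : SigmaCompactSpace C.X :=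
  haveI := Manifold.locallyCompact_of_finiteDimensional (M := C.X) (𝓡 4)
  inferInstance

/-- the line `l` on `Y` extends over the cap -/
def Ext (C : End Y) (l : Y → Matrix κ κ ℂ) : Prop :=
  ∃ (n : Type) (_ : Fintype n) (Q : C.X → Matrix n n ℂ) (u : Y × ℝ → Matrix n κ ℂ),
    Pl (𝓡 4) Q univ ∧ Uni (IR 3) (fun p => l p.1) (fun p => Q (C.j p)) u univ

/-- all lines extend over the cap -/
def EXT (Y : CM 3) (C : End Y) : Prop :=
  ∀ (κ : Type) [Fintype κ] (l : Y → Matrix κ κ ℂ), Pl (𝓡 3) l univ → Ext C l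

theorem Ext.of_uni {C : End Y} {l : Y → Matrix κ κ ℂ} {l' : Y → Matrix κ' κ' ℂ}
    {w : Y → Matrix κ κ' ℂ} (h : Ext C l) (hw : Uni (𝓡 3) l' l w univ) : Ext C l' :=
  let ⟨n, i, Q, _, h1, h2⟩ := h
  ⟨n, i, Q, _, h1, (hw.comp (mp_univ contMDiff_fst)).trans h2⟩

theorem EXT.re {C : End Y} (h : EXT Y C) (f : Y' ≃ₘ^∞⟮𝓡 3, 𝓡 3⟯ Y) : EXT Y' (C.re f) := by
  intro κ _ l hl
  obtain ⟨n, i, Q, u, h1, h2⟩ := h κ _ (hl.comp (mp_univ f.symm.contMDiff))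
  exact ⟨n, i, Q, _, h1, uni_congr (h2.comp (f := fun p : Y' × ℝ => (f p.1, p.2))
    (mp_univ ((f.contMDiff.comp contMDiff_fst).prodMk contMDiff_snd)))
    (fun p _ => by simp) fun _ _ => rfl⟩

/-- **a line on the join** -/
theorem exists_jo {C₁ C₂ : End Y} {X : CM 4} (J : Jo C₁ C₂ X) {l : Y → Matrix κ κ ℂ}
    (h₁ : Ext C₁ l) (h₂ : Ext C₂ l) : ∃ (n : Type) (_ : Fintype n) (Q : X → Matrix n n ℂ)
      (u : Y × ℝ → Matrix n κ ℂ), Pl (𝓡 4) Q univ ∧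
      Uni (IR 3) (fun p => l p.1) (fun p => Q (J.i₁ (C₁.j p))) u univ := by
  obtain ⟨n₁, _, Q₁, u₁, p₁, k₁⟩ := h₁
  obtain ⟨n₂, _, Q₂, u₂, p₂, k₂⟩ := h₂
  have k := k₂.symm.trans (k₁.comp (f := fun p : Y × ℝ => (p.1, -p.2))
    (mp_univ (contMDiff_fst.prodMk contMDiff_snd.neg)))
  obtain ⟨r, hr⟩ := exists_fun1 (C₂.oe.inj.injOn (s := univ))
    fun p : Y × ℝ => u₁ (p.1, -p.2) * (u₂ p)ᴴ
  obtain ⟨Q, a, c, h1, h2, -, -⟩ := exists_gl (OE.of_oe J.o₁) (OE.of_oe J.o₂)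
    (by simpa using J.cov) p₁ p₂ (r := r) fun x _ z _ e => by
      obtain ⟨y, t, rfl, rfl⟩ := (J.eq x z).1 e
      refine ⟨msm_oe (OE.of_oe C₂.oe) hr trivial (k.sm _ trivial), ?_⟩
      rw [hr _ trivial]
      simpa only [neg_neg] using k.iso (y, -t) trivial
  exact ⟨_, inferInstance, Q, _, h1, k₁.trans (h2.comp (mp_univ C₁.oe.contMDiff))⟩

theorem EXT.exr {C : End Y} (h : EXT Y C) : Bb31.EXR C := by
  intro d hd
  obtain ⟨n, m, L, hL, hw⟩ := Weil93.weil (𝓡 3) Y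
  obtain ⟨t, ht⟩ := hw d hd
  choose k i Q u hQ hu using fun q => h _ _ (Pl.of_on (hL q))
  let G : ∀ q, Ln (EE 4) C.X (k q) := fun q => ⟨Q q, 0⟩
  have mj : Mp (IR 3) (𝓡 4) univ univ C.j := mp_univ C.oe.contMDiff
  have mf : Mp (IR 3) (𝓡 3) univ univ (Prod.fst : Y × ℝ → Y) := mp_univ contMDiff_fst
  have c1 : Cl (𝓡 4) 2 univ (∑ q, t q • (G q).F (𝓡 4)) :=
    cl_sum fun q _ => ((hQ q).on.cl_F isOpen_univ).smul _
  have e1 : ∀ q, Ex (IR 3) univ (pm (IR 3) (𝓡 4) C.j ((G q).F (𝓡 4)) -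
      pm (IR 3) (𝓡 3) Prod.fst ((L q).F (𝓡 3))) := fun q =>
    (Uni.ex_F (L := (L q).pull (IR 3) (𝓡 3) Prod.fst) (L' := (G q).pull (IR 3) (𝓡 4) C.j)
      isOpen_univ (hu q) ((hL q).pull mf) ((hQ q).on.pull mj)).congr fun p _ => by
        rw [Pi.sub_apply, Pi.sub_apply, (hL q).F_pull isOpen_univ isOpen_univ mf trivial,
          (hQ q).on.F_pull isOpen_univ isOpen_univ mj trivial]
  have e2 : Ex (IR 3) univ (pm (IR 3) (𝓡 4) C.j (∑ q, t q • (G q).F (𝓡 4)) - Sym24.pu d) := by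
    refine ((ex_sum (s := Finset.univ) fun q _ => (e1 q).smul (t q)).sub (ht.pm mf)).congr
      fun p _ => congrFun ?_ p
    rw [← Sym24.pm_fst (I := 𝓡 3), pm_sub, pm_sum, pm_sum]
    simp only [pm_smul, smul_sub, Finset.sum_sub_distrib]
    abel
  obtain ⟨la, s1, s2, s3⟩ := e2.deg (k := 1) ((c1.pm mj).dg.sub
    (by rw [← Sym24.pm_fst (I := 𝓡 3)]; exact (hd.pm mf).dg))
  let χ : Y × ℝ → ℝ := fun p => Real.smoothTransition (p.2 + 2)
  have hχ : ContMDiff (IR 3) 𝓘(ℝ, ℝ) ∞ χ :=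
    (Real.smoothTransition.contDiff.comp (contDiff_id.add contDiff_const)).contMDiff.comp contMDiff_snd
  obtain ⟨A, -, a2, a3, a4, -⟩ := Bb31.exists_patch' (a := χ • la) (b := 0) (OE.of_oe C.oe)
    (C.isClosed_Ici (-2)).isOpen_compl
    (fun x => (em _).symm.imp id fun k => image_mono (subset_univ _) k) fun p _ hp => by
      have : χ p = 0 := Real.smoothTransition.zero_of_nonpos (by
        linarith [not_le.1 fun k : -2 ≤ p.2 => hp ⟨p, ⟨trivial, k⟩, rfl⟩])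
      rw [Pi.smul_apply', this, zero_smul, pm_apply]
      exact map_zero _
  have sA := a3 Sm.zero (s1.fsmul fun p _ => hχ p)
  refine ⟨_, c1.sub (cl_dM isOpen_univ sA (a4 1 Dg.zero (s2.fsmul χ))), 1, one_pos, fun p hp => ?_⟩
  rw [pm_sub, Pi.sub_apply, Bb31.pm_dM (C.oe.contMDiff p) (sA _ trivial) (c := la), s3 p trivial,
    Pi.sub_apply, sub_sub_cancel]
  filter_upwards [(isOpen_lt continuous_const continuous_snd).mem_nhds hp] with z hz
  rw [a2 z trivial, Pi.smul_apply', show χ z = 1 from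
    Real.smoothTransition.one_of_one_le (by linarith [show -1 < z.2 from hz]), one_smul]

end Crest.Agent.X212.Sep15
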