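import Crest.Agent.X212.Sep15.Cm2
import Crest.Agent.X212.Sep15.Lin
import Crest.Agent.X212.Dr59.Lat
import Crest.Agent.X212.Num57.Qf

/-!
# X212/Sep15/QD (helper15): the property `Q` of caps and the leaves about hyperbolic pairs
-/

set_option autoImplicit false
set_option linter.unusedSectionVars false

open Set Filter Topology Function
open scoped ContDiff Manifold
open Crest.Agent.R208.F Crest.Agent.X212.Dr59 Crest.Agent.X212.Int54
open Crest.Agent.X212.Bb31 (Fm)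

noncomputable section

namespace Crest.Agent.X212.Sep15

/-- a hyperbolic pair of closed two-forms with compact support in the cap -/
def HP {Y : CM 3} (C : End Y) : Prop := ∃ a b : Fm 4 C.X,
  Cs (𝓡 4) 2 (interior (C.K 0)) a ∧ Cs (𝓡 4) 2 (interior (C.K 0)) b ∧ a * a = 0 ∧ b * b = 0 ∧
    IsConnected {x | tp (EE 4) (a x * b x) ≠ 0}

/-- a hyperbolic pair of closed one-forms on a surface -/
def HS (R : CM 2) : Prop := ∃ θ₁ θ₂ : Fm 2 R, Cl (𝓡 2) 1 univ θ₁ ∧ Cl (𝓡 2) 1 univ θ₂ ∧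
  IsConnected {x | tp (EE 2) (θ₁ x * θ₂ x) ≠ 0}

/-- lines extend, the cap is connected and contains a hyperbolic pair -/
def Q (Y : CM 3) (C : End Y) : Prop := EXT Y C ∧ PreconnectedSpace C.X ∧ HP C

/-- hyperbolic pairs survive the surgery -/
def HpOp : Prop := ∀ (Y Y' : CM 3) (R : CM 2) (b₁ b₂ : R × ℝ → Y) (b₁' b₂' : R × ℝ → Y')
  (S : Sw b₁ b₂ b₁' b₂') (C : End Y) (C' : End Y'), Op S C C' → HP C → HP C'

/-- the trivial commutator creates a hyperbolic pair -/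
def HpBase : Prop := ∀ (Y Y' : CM 3) (R : CM 2) (b : R × ℝ → Y) (b' : R × ℝ → Y') (G : Rg b id b')
  (σ₁ σ₂ : ℝ → ℝ) (M : Cm G (Diffeomorph.refl (𝓡 2) R ∞) (Diffeomorph.refl (𝓡 2) R ∞) σ₁ σ₂)
  (C : End Y) (C₁ : End M.Y₁) (C₂ : End Y'), HS R → Op M.S₁ C C₁ → Op M.S₂ C₁ C₂ → HP C₂

/-- two hyperbolic pairs give a positive plane -/
def HpJo : Prop := ∀ (Y : CM 3) (C₁ C₂ : End Y) (X : CM 4) (_ : Jo C₁ C₂ X) (O : Fm 4 X)
  (hO : Ori (𝓡 4) O), HP C₁ → HP C₂ → 2 ≤ Num57.bp hO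

end Crest.Agent.X212.Sep15
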