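import Crest.Agent.X212.Sep15.OpL
import Crest.Agent.X212.Sep15.QD
import Crest.Agent.X212.Lsf39.Main

/-!
# X212/Sep15/CmL (helper15): lines through a commutator

* `RgL` : compatible lines on the two sides of a regluing, `exists_rgL`;
* `cm_ext` : the reglued line extends; `EXT.cm`; connectedness; `clo_Q`.
-/

set_option autoImplicit false
set_option linter.unusedSectionVars false

open Set Filter Topology Function Matrix
open scoped ContDiff Manifold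
open Crest.Agent.X212.Dr59 Crest.Agent.X212.Cyl58 Crest.Agent.X212.Pj41 Crest.Agent.X212.Line51
  Crest.Agent.X212.Int54
open Crest.Agent.X212.Bb31 (OE Df Fm Pos)

noncomputable section

namespace Crest.Agent.X212.Sep15

variable {Y Y' : CM 3} {R : CM 2} {κ κ' μ : Type} [Fintype κ] [Fintype κ'] [Fintype μ]
  {b : R × ℝ → Y} {h : R → R} {b' : R × ℝ → Y'}

/-- `l'` is `l` reglued by the lift `g` of `h` -/
structure RgL (G : Rg b h b') (J : Set ℝ) (m : R → Matrix μ μ ℂ) (l : Y → Matrix κ κ ℂ)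
    (l' : Y' → Matrix κ' κ' ℂ) (a : R × ℝ → Matrix κ μ ℂ) (a' : R × ℝ → Matrix κ' μ ℂ)
    (w : Y → Matrix κ' κ ℂ) (g : R → Matrix μ μ ℂ) : Prop where
  t : Tr b J m l a
  t' : Tr b' J m l' a'
  hw : Uni (𝓡 3) l (fun y => l' (G.φ y)) w G.φ.source
  lo : ∀ p : R × ℝ, p.2 ∈ J → p.2 < 0 → w (b p) * a p = a' p
  hi : ∀ p : R × ℝ, p.2 ∈ J → 0 < p.2 → w (b p) * a p = a' (px h p) * g p.1

variable {J : Set ℝ} {m : R → Matrix μ μ ℂ} {l : Y → Matrix κ κ ℂ} {l' : Y' → Matrix κ' κ' ℂ}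
  {a : R × ℝ → Matrix κ μ ℂ} {a' : R × ℝ → Matrix κ' μ ℂ} {w : Y → Matrix κ' κ ℂ}
  {g : R → Matrix μ μ ℂ}

theorem mp_px {f : R → R} (hf : ContMDiff (𝓡 2) (𝓡 2) ∞ f) (J : Set ℝ) :
    Mp (IR 2) (IR 2) (univ ×ˢ J) (univ ×ˢ J) (px f) :=
  ⟨fun p _ => ((hf.comp contMDiff_fst).prodMk contMDiff_snd) p, fun _ hp => ⟨trivial, hp.2⟩⟩

/-- existence of the reglued line -/
theorem exists_rgL (G : Rg b h b') (hh : ContMDiff (𝓡 2) (𝓡 2) ∞ h) (hJ : IsOpen J) (h0 : 0 ∈ J)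
    (hm : Pl (𝓡 2) m univ) (hl : Pl (𝓡 3) l' univ) (t' : Tr b' J m l' a')
    (hg : Uni (𝓡 2) m (fun x => m (h x)) g univ) :
    ∃ (n : Type) (_ : Fintype n) (l : Y → Matrix n n ℂ) (a : R × ℝ → Matrix n μ ℂ)
      (w : Y → Matrix κ' n ℂ), Pl (𝓡 3) l univ ∧ RgL G J m l l' a a' w g := by
  classical
  let r : R × ℝ → Matrix κ' μ ℂ := fun p => if p.2 < 0 then a' p else a' (px h p) * g p.1
  have r1 : ∀ p : R × ℝ, p.2 < 0 → r p = a' p := fun p hp => if_pos hp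
  have r2 : ∀ p : R × ℝ, 0 < p.2 → r p = a' (px h p) * g p.1 := fun p hp => if_neg hp.not_gt
  have k := (hg.comp (mp_univ contMDiff_fst)).trans (t'.comp (mp_px hh J))
  have key : ∀ p : R × ℝ, p.2 ∈ J → p.2 ≠ 0 →
      MSm (IR 2) r p ∧ PIso (r p) (m p.1) (l' (G.φ (b p))) := fun p hp h1 => by
    rcases h1.lt_or_gt with h2 | h2
    · refine ⟨(t'.sm p ⟨trivial, hp⟩).congr (eventually_of_mem
        ((isOpen_lt continuous_snd continuous_const).mem_nhds h2) r1), ?_⟩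
      rw [r1 p h2, G.lo p h2]
      exact t'.iso p ⟨trivial, hp⟩
    · refine ⟨(k.sm p ⟨trivial, hp⟩).congr (eventually_of_mem
        ((isOpen_lt continuous_const continuous_snd).mem_nhds h2) r2), ?_⟩
      rw [r2 p h2, G.hi p h2]
      exact k.iso p ⟨trivial, hp⟩
  obtain ⟨Q, A, c, h1, h2, h3, h4⟩ := exists_gl (OE.of_pd G.φ.symm) (G.o.oe hJ) (fun y => by
      by_cases hy : y ∈ G.φ.source
      · exact .inl ⟨_, G.φ.map_source hy, G.φ.left_inv hy⟩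
      · rw [G.src, mem_compl_iff, not_not] at hy
        exact .inr (slab_mono b (singleton_subset_iff.2 h0) hy))
    (hl.mono (subset_univ _)) (hm.comp (mp_univ contMDiff_fst)) (r := r) fun y hy p hp e => by
      have e1 : b p ∈ G.φ.source := e ▸ G.φ.map_target hy
      have e2 : y = G.φ (b p) := by rw [← e]; exact (G.φ.right_inv hy).symm
      exact e2 ▸ key p hp.2 (G.b_mem.1 e1)
  have k2 : ∀ p : R × ℝ, p.2 ∈ J → p.2 ≠ 0 → (A (G.φ (b p)))ᴴ * c p = r p := fun p hp h5 => by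
    have h6 := G.φ.map_source (G.b_mem.2 h5)
    rw [← h4 _ h6 p ⟨trivial, hp⟩ (G.φ.left_inv (G.b_mem.2 h5)), ← Matrix.mul_assoc,
      (h2.iso _ h6).src, (key p hp h5).2.left]
  exact ⟨_, inferInstance, Q, c, fun y => (A (G.φ y))ᴴ, h1, h3, t',
    uni_congr (h2.symm.comp ⟨fun y hy => G.φ.contMDiffOn_toFun.contMDiffAt
      (G.φ.open_source.mem_nhds hy), fun y hy => G.φ.map_source hy⟩)
      (fun y hy => congrArg Q (G.φ.left_inv hy).symm) fun _ _ => rfl,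
    fun p hp h5 => (k2 p hp h5.ne).trans (r1 p h5), fun p hp h5 => (k2 p hp h5.ne').trans (r2 p h5)⟩

theorem mp_sub {f : R → R} (hf : ContMDiff (𝓡 2) (𝓡 2) ∞ f) {σ : ℝ → ℝ} (hσ : Up σ univ)
    {s : Set ℝ} (hs : MapsTo σ s J) : Mp (IR 2) (IR 2) (univ ×ˢ s) (univ ×ˢ J) (Prod.map f σ) :=
  ⟨fun p _ => (hf.prodMap hσ.contDiff.contMDiff) p, fun _ hp => ⟨trivial, hs hp.2⟩⟩

theorem ct_cancel {n : Type} [Fintype n] {U : Matrix n κ ℂ} {a : Matrix κ μ ℂ} {w : Matrix κ' κ ℂ}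
    {p : Matrix μ μ ℂ} {q : Matrix κ κ ℂ} {q' : Matrix κ' κ' ℂ} (ha : PIso a p q)
    (hw : PIso w q q') : U * wᴴ * (w * a) = U * a := by
  rw [Matrix.mul_assoc, ← Matrix.mul_assoc wᴴ, hw.src, ha.left]

variable {G : Rg b h b'} {s t : Df R} {σ₁ σ₂ : ℝ → ℝ}

theorem Cm.h_eq (M : Cm G t s σ₁ σ₂) (x : R) : h x = s.symm (t (s (t.symm x))) := by
  rw [← M.eq, t.apply_symm_apply, s.symm_apply_apply]

theorem Cm.contMDiff (M : Cm G t s σ₁ σ₂) : ContMDiff (𝓡 2) (𝓡 2) ∞ h := by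
  rw [funext M.h_eq]
  exact s.symm.contMDiff.comp (t.contMDiff.comp (s.contMDiff.comp t.symm.contMDiff))

theorem Cm.src (M : Cm G t s σ₁ σ₂) : M.S₁.φ.source = (slab b ({σ₁ 0} ∪ {σ₂ 0}))ᶜ := by
  rw [M.S₁.src, slab_sub b surjective_id, slab_sub b (t := t) t.surjective, image_singleton,
    image_singleton, slab, slab, slab, ← image_union, ← prod_union]

theorem Cm.src₂ (M : Cm G t s σ₁ σ₂) : M.S₂.φ.source = M.S₁.φ.target := by
  rw [M.S₂.src, slab_px _ (show Surjective (s : R → R) from s.surjective), ← M.S₁.tgt]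

/-- **the reglued line extends over the cap of a commutator** -/
theorem cm_ext (M : Cm G t s σ₁ σ₂) {C : End Y} {C₁ : End M.Y₁} {C₂ : End Y'} (O₁ : Op M.S₁ C C₁)
    (O₂ : Op M.S₂ C₁ C₂) (hJ : IsOpen J) (hJ' : Icc (σ₁ 0) (σ₂ 0) ⊆ J) (hm : Pl (𝓡 2) m univ)
    (L : RgL G J m l l' a a' w g) {S T : R → Matrix μ μ ℂ}
    (hS : Uni (𝓡 2) m (fun x => m (s x)) S univ) (hT : Uni (𝓡 2) m (fun x => m (t x)) T univ)
    (e : ∀ x, g (t x) * T x = (S (h (t x)))ᴴ * (T (s x) * S x)) (hC : Ext C l) : Ext C₂ l' := by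
  have m₁ := M.lv.u₁.strictMono
  have m₂ := M.lv.u₂.strictMono
  have lt := M.lv.lt
  have h0 : σ₁ 0 ≤ σ₂ 0 := (lt 0 0).le
  obtain ⟨ε, hε, hJ0⟩ : ∃ ε > (0 : ℝ), ∀ v ∈ Ioo (-ε) ε, σ₁ v ∈ J ∧ σ₂ v ∈ J := by
    obtain ⟨ε, hε, k⟩ := Metric.eventually_nhds_iff_ball.1
      ((M.lv.u₁.continuous.continuousAt.eventually (hJ.mem_nhds (hJ' (left_mem_Icc.2 h0)))).and
        (M.lv.u₂.continuous.continuousAt.eventually (hJ.mem_nhds (hJ' (right_mem_Icc.2 h0)))))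
    exact ⟨ε, hε, fun v hv => k v (by rwa [Real.ball_eq_Ioo, zero_sub, zero_add])⟩
  have J1 : MapsTo σ₁ (Ioo (-ε) ε) J := fun v hv => (hJ0 v hv).1
  have J2 : MapsTo σ₂ (Ioo (-ε) ε) J := fun v hv => (hJ0 v hv).2
  have t₁ : Tr (b ∘ Prod.map id σ₁) (Ioo (-ε) ε) m l fun p => a (p.1, σ₁ p.2) :=
    L.t.comp (mp_sub contMDiff_id M.lv.u₁ J1)
  have t₂ : Tr (b ∘ Prod.map t σ₂) (Ioo (-ε) ε) m l fun p => a (t p.1, σ₂ p.2) * T p.1 :=
    (hT.comp (mp_univ contMDiff_fst)).trans (L.t.comp (mp_sub t.contMDiff M.lv.u₂ J2))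
  obtain ⟨n, _, l₁, α₁, α₂, w₁, L₁, h₁⟩ := op_ex O₁ hε hm t₁ t₂ hC
  have G0 : (0 : ℝ) ∈ Icc (σ₁ 0) (σ₂ 0) := ⟨M.lv.neg.le, M.lv.pos.le⟩
  have oI := (isClosed_slab G.o (isCompact_Icc (a := σ₁ 0) (b := σ₂ 0))).isOpen_compl
  have oJ := G.o.oe (isOpen_Ioo (a := σ₁ 0) (b := σ₂ 0))
  have sI : univ ×ˢ Ioo (σ₁ 0) (σ₂ 0) ⊆ (univ : Set R) ×ˢ J :=
    prod_mono Subset.rfl (Ioo_subset_Icc_self.trans hJ')
  obtain ⟨W, W1, W2⟩ := exists_fun2 (injOn_id (slab b (Icc (σ₁ 0) (σ₂ 0)))ᶜ) oJ.inj (a := w)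
    (c := fun p => a' (px s.symm p) * ((S (s.symm p.1))ᴴ * (a p)ᴴ)) fun y hy p hp e =>
      (hy (by rw [show y = b p from e, mem_slab G.o]; exact Ioo_subset_Icc_self hp.2)).elim
  have hW : Uni (𝓡 3) l (fun y => l' (M.S₂.φ (M.S₁.φ y))) W M.S₁.φ.source := by
    have k1 : Uni (𝓡 3) l (fun y => l' (M.S₂.φ (M.S₁.φ y))) W (slab b (Icc (σ₁ 0) (σ₂ 0)))ᶜ :=
      ⟨fun y hy => (L.hw.sm y (G.mem_of_notMem G0 hy)).congr (eventually_of_mem (oI.mem_nhds hy) W1),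
        fun y hy => by
          rw [show W y = w y from W1 y hy, M.out y hy]
          exact L.hw.iso y (G.mem_of_notMem G0 hy)⟩
    have k2 := uni_oe (p := l) (q := fun y => l' (M.S₂.φ (M.S₁.φ y))) oJ W2
      (uni_congr (((L.t.symm.mono sI).trans (uni_congr (hS.symm.comp (mp_univ
        (s.symm.contMDiff.comp contMDiff_fst))) (fun p _ => by simp) fun _ _ => rfl)).trans
        ((L.t'.comp (mp_px s.symm.contMDiff J)).mono sI)) (fun _ _ => rfl)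
        fun p hp => congrArg l' (M.mid p hp.2))
    refine (uni_union k1 k2).mono fun y hy => or_iff_not_imp_left.2 fun h1 => ?_
    obtain ⟨p, hp, rfl⟩ := not_not.1 h1
    rw [M.src, mem_compl_iff, mem_slab G.o, mem_union, not_or] at hy
    exact ⟨p, ⟨trivial, lt_of_le_of_ne hp.2.1 (Ne.symm hy.1), lt_of_le_of_ne hp.2.2 hy.2⟩, rfl⟩
  obtain ⟨w₂, e₂⟩ := exists_fun1 (OE.of_pd M.S₁.φ).inj fun y => W y * (w₁ y)ᴴ
  have hw₂ : Uni (𝓡 3) l₁ (fun y => l' (M.S₂.φ y)) w₂ M.S₂.φ.source := by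
    rw [M.src₂, ← M.S₁.φ.image_source_eq_target]
    exact uni_oe (OE.of_pd M.S₁.φ) e₂ (L₁.hw.symm.trans hW)
  have key : ∀ {y : Y}, y ∈ M.S₁.φ.source → ∀ {A : Matrix κ μ ℂ} {x : R}, PIso A (m x) (l y) →
      w₂ (M.S₁.φ y) * (w₁ y * A) = W y * A := fun hy A x hA => by
    rw [e₂ _ hy, ct_cancel hA (L₁.hw.iso _ hy)]
  have mid : ∀ x y, y ∈ Ioo (σ₁ 0) (σ₂ 0) →
      W (b (x, y)) * a (x, y) = a' (s.symm x, y) * (S (s.symm x))ᴴ := fun x y hy => by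
    have i := (hS.iso (s.symm x) trivial).ct_right
    rw [s.apply_symm_apply] at i
    rw [W2 (x, y) ⟨trivial, hy⟩, Matrix.mul_assoc, Matrix.mul_assoc,
      (L.t.iso (x, y) (sI ⟨trivial, hy⟩)).src, i]
    rfl
  have hr : Uni (𝓡 2) m (fun x => m (h (t x))) (fun x => (S (h (t x)))ᴴ * (T (s x) * S x)) univ :=
    (hS.trans (hT.comp (mp_univ s.contMDiff))).trans (uni_congr (hS.symm.comp
      (mp_univ (M.contMDiff.comp t.contMDiff))) (fun x _ => congrArg m (M.eq x).symm) fun _ _ => rfl)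
  refine op_ext O₂ hε hm L₁.t₁ (a₂ := fun p => α₂ (px s p) * S p.1)
    ((hS.comp (mp_univ contMDiff_fst)).trans (L₁.t₂.comp (mp_px s.contMDiff _)))
    (a₁' := fun p => a' (p.1, σ₁ p.2))
    (a₂' := fun p => a' (h (t p.1), σ₂ p.2) * ((S (h (t p.1)))ᴴ * (T (s p.1) * S p.1)))
    ⟨L.t'.comp (mp_sub contMDiff_id M.lv.u₁ J1), (hr.comp (mp_univ contMDiff_fst)).trans
      (L.t'.comp (mp_sub (M.contMDiff.comp t.contMDiff) M.lv.u₂ J2)), hw₂, fun p hp k => ?_,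
      fun p hp k => ?_, fun p hp k => ?_, fun p hp k => ?_⟩ h₁
  · rw [← M.S₁.lo₁ p k, ← L₁.lo₁ p hp k, key (M.S₁.b₁_mem.2 k.ne) (t₁.iso p ⟨trivial, hp⟩)]
    exact (congrArg (· * _) (W1 _ fun h1 => (m₁ k).not_ge ((mem_slab G.o).1 h1).1)).trans
      (L.lo (p.1, σ₁ p.2) (J1 hp) ((m₁ k).trans M.lv.neg))
  · rw [Function.comp_apply, ← M.S₁.hi₁ (px s p) k, ← L₁.hi₁ (px s p) hp k, ← Matrix.mul_assoc,
      key ((M.S₁.b₁_mem (p := px s p)).2 k.ne') (t₁.iso (px s p) ⟨trivial, hp⟩)]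
    refine (congrArg (· * _) (mid (s p.1) (σ₁ p.2) ⟨m₁ k, lt _ _⟩)).trans ?_
    rw [s.symm_apply_apply, Matrix.mul_assoc, (hS.iso _ trivial).src]
    exact (L.t'.iso (p.1, σ₁ p.2) ⟨trivial, J1 hp⟩).idem
  · rw [Function.comp_apply, ← M.S₁.lo₂ (px s p) k, ← L₁.lo₂ (px s p) hp k, ← Matrix.mul_assoc,
      key ((M.S₁.b₂_mem (p := px s p)).2 k.ne) (t₂.iso (px s p) ⟨trivial, hp⟩), ← Matrix.mul_assoc]
    refine (congrArg (· * _ * _) (mid (t (s p.1)) (σ₂ p.2) ⟨lt _ _, m₂ k⟩)).trans ?_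
    rw [← M.eq, s.symm_apply_apply]
    simp only [Matrix.mul_assoc]
    rfl
  · rw [← M.S₁.hi₂ p k, ← L₁.hi₂ p hp k, key (M.S₁.b₂_mem.2 k.ne') (t₂.iso p ⟨trivial, hp⟩),
      ← Matrix.mul_assoc, ← e, ← Matrix.mul_assoc]
    exact congrArg (· * _) ((congrArg (· * _) (W1 _ fun h1 =>
      (m₂ k).not_ge ((mem_slab G.o).1 h1).2)).trans
      (L.hi (t p.1, σ₂ p.2) (J2 hp) (M.lv.pos.trans (m₂ k))))

theorem exists_tr (hb : Box b) (hl : Pl (𝓡 3) l univ) (ρ : ℝ) :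
    ∃ a, Tr b (Ioo (-ρ) ρ) (fun x => l (b (x, 0))) l a :=
  let ⟨a, ha⟩ := exists_uni_cyl (hl.comp (mp_univ hb.contMDiff)).on ρ
  ⟨a, ha.mono fun _ hp => (abs_lt.2 hp.2).le⟩

theorem exists_lift [PreconnectedSpace R] {o : Fm 2 R} (ho : Ori (𝓡 2) o) (hs : Pos o s)
    (hm : Pl (𝓡 2) m univ) : ∃ S, Uni (𝓡 2) m (fun x => m (s x)) S univ :=
  let ⟨_, hu⟩ := Lsf39.lsurf R ho s (fun x hx => by rw [mul_comm]; exact hs x hx) hm.on
  ⟨_, hu.symm⟩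

theorem EXT.cm [PreconnectedSpace R] {o : Fm 2 R} (ho : Ori (𝓡 2) o) (hs : Pos o s) (ht : Pos o t)
    (M : Cm G t s σ₁ σ₂) {C : End Y} {C₁ : End M.Y₁} {C₂ : End Y'} (O₁ : Op M.S₁ C C₁)
    (O₂ : Op M.S₂ C₁ C₂) (hC : EXT Y C) : EXT Y' C₂ := by
  intro κ _ l' hl
  obtain ⟨a', t'⟩ := exists_tr G.o' hl (σ₂ 0 - σ₁ 0)
  have hm := hl.comp (W := univ) (mp_univ (G.o'.contMDiff.comp
    (contMDiff_id.prodMk (contMDiff_const (c := (0 : ℝ))))))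
  obtain ⟨S, hS⟩ := exists_lift ho hs hm
  obtain ⟨T, hT⟩ := exists_lift ho ht hm
  have n := M.lv.neg
  have p := M.lv.pos
  have hr := (hS.trans (hT.comp (mp_univ s.contMDiff))).trans (uni_congr (hS.symm.comp
    (mp_univ (M.contMDiff.comp t.contMDiff)))
    (fun x _ => congrArg (fun x => l' (b' (x, 0))) (M.eq x).symm) fun _ _ => rfl)
  obtain ⟨k, _, l, a, w, h1, L⟩ := exists_rgL G M.contMDiff isOpen_Ioo ⟨by linarith, by linarith⟩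
    hm hl t' (uni_congr ((hT.symm.trans hr).comp (mp_univ t.symm.contMDiff))
      (fun x _ => by simp) fun x _ => by simp)
  refine cm_ext M O₁ O₂ isOpen_Ioo (fun y hy => ⟨by linarith [hy.1], by linarith [hy.2]⟩) hm L hS hT
    (fun x => ?_) (hC _ l h1)
  simp only [Diffeomorph.symm_apply_apply]
  rw [Matrix.mul_assoc, (hT.iso x trivial).src]
  exact (hr.iso x trivial).idem

/-! ### connectedness -/

theorem Op.conn [PreconnectedSpace R] {b₁ b₂ : R × ℝ → Y} {b₁' b₂' : R × ℝ → Y'}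
    {S : Sw b₁ b₂ b₁' b₂'} {C : End Y} {C' : End Y'} (O : Op S C C') [PreconnectedSpace C.X] :
    PreconnectedSpace C'.X := by
  have c : ContinuousOn O.i O.i.source := O.i.contMDiffOn_toFun.continuousOn
  rcases isEmpty_or_nonempty R with _ | ⟨⟨x₀⟩⟩
  · have e : O.i.source = univ := by simp [O.src, slab, univ_eq_empty_iff.2]
    refine ⟨(isPreconnected_univ.image O.i (e ▸ c)).subset_closure (subset_univ _) fun x _ => ?_⟩
    rcases O.raw.cases x with ⟨y, -, rfl⟩ | ⟨p, -, -⟩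
    exacts [subset_closure ⟨y, trivial, rfl⟩, isEmptyElim p.1]
  have key : ∀ A : Set C'.X, IsClopen A → Disjoint A (range O.e) → A = ∅ := fun A hA hd => by
    let N : Set C.X := C.j '' ((range b₁ ∪ range b₂) ×ˢ univ)
    have hN : IsOpen N := C.oe.isOpen_image ((S.o₁.isOpen_range.union S.o₂.isOpen_range).prod isOpen_univ)
    have h1 : ∀ x ∈ N, x ∈ O.i.source → O.i x ∈ range O.e := by
      rintro _ ⟨⟨_, u⟩, ⟨⟨p, rfl⟩ | ⟨p, rfl⟩, -⟩, rfl⟩ hx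
      · obtain ⟨z, h1, h2⟩ := exists_root p.2 u ((O.raw.j_mem.1 hx).imp S.b₁_mem.1 id)
        refine ⟨(p.1, z), (O.up _ h1).trans ?_⟩
        rw [sq, show (z ^ 2).im = p.2 from congrArg Prod.fst h2,
          show (z ^ 2).re = u from congrArg Prod.snd h2]
      · obtain ⟨z, h1, h2⟩ := exists_root p.2 u ((O.raw.j_mem.1 hx).imp S.b₂_mem.1 id)
        refine ⟨(p.1, -z), (O.dn _ (by simpa using h1)).trans ?_⟩
        rw [sq_neg, sq, show (z ^ 2).im = p.2 from congrArg Prod.fst h2,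
          show (z ^ 2).re = u from congrArg Prod.snd h2]
    have h2 : ∀ x ∉ O.i.source, x ∈ N := fun x hx => by
      rw [O.src, mem_compl_iff, not_not] at hx
      exact image_mono (prod_mono (union_subset_union (slab_subset _ _) (slab_subset _ _))
        (subset_univ _)) hx
    have h3 : (O.i.source ∩ O.i ⁻¹' A)ᶜ = N ∪ O.i.source ∩ O.i ⁻¹' Aᶜ := by
      ext x
      refine ⟨fun hx => (em (x ∈ O.i.source)).elim (fun k => .inr ⟨k, fun k' => hx ⟨k, k'⟩⟩)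
        fun k => .inl (h2 x k), ?_⟩
      rintro (k | k) k'
      exacts [disjoint_left.1 hd k'.2 (h1 x k k'.1), k.2 k'.2]
    have h4 : IsClopen (O.i.source ∩ O.i ⁻¹' A) := ⟨isOpen_compl_iff.1 (h3 ▸ hN.union
      (c.isOpen_inter_preimage O.i.open_source hA.compl.2)), c.isOpen_inter_preimage O.i.open_source hA.2⟩
    have h5 : O.i.source ∩ O.i ⁻¹' A = ∅ := (isClopen_iff.1 h4).resolve_right fun e => by
      have : C.j (b₁ (x₀, 0), 0) ∈ (O.i.source ∩ O.i ⁻¹' A)ᶜ :=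
        h3 ▸ .inl ⟨_, ⟨.inl ⟨_, rfl⟩, trivial⟩, rfl⟩
      exact this (e ▸ trivial)
    refine eq_empty_of_forall_notMem fun x hx => ?_
    rcases O.raw.cases x with ⟨y, hy, rfl⟩ | ⟨p, -, rfl⟩
    exacts [(h5 ▸ ⟨hy, hx⟩ : y ∈ (∅ : Set _)), disjoint_left.1 hd hx ⟨p, rfl⟩]
  refine preconnectedSpace_iff_clopen.2 fun A hA => ?_
  rcases disjoint_or_subset_of_isClopen (isPreconnected_range O.oe.continuous) hA with k | k
  · exact .inl (key A hA k.symm)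
  · exact .inr (compl_empty_iff.1 (key _ hA.compl (disjoint_compl_left_iff_subset.2 k)))

theorem Jo.conn [Nonempty Y] {C₁ C₂ : End Y} {X : CM 4} (J : Jo C₁ C₂ X) [PreconnectedSpace C₁.X]
    [PreconnectedSpace C₂.X] : ConnectedSpace X := by
  obtain ⟨y⟩ := ‹Nonempty Y›
  have e : J.i₁ (C₁.j (y, 0)) = J.i₂ (C₂.j (y, -0)) := (J.eq _ _).2 ⟨y, 0, rfl, rfl⟩
  have h := (isPreconnected_range J.o₁.continuous).union _ (mem_range_self _) (mem_range.2 ⟨_, e.symm⟩)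
    (isPreconnected_range J.o₂.continuous)
  rw [show range J.i₁ ∪ range J.i₂ = univ from eq_univ_of_forall J.cov] at h
  exact connectedSpace_iff_univ.2 ⟨⟨J.i₁ (C₁.j (y, 0)), trivial⟩, h⟩

theorem clo_EXT : Bb31.Clo EXT :=
  ⟨fun _ _ _ _ _ _ _ _ _ _ _ _ M _ _ _ _ ho hs ht O₁ O₂ h => h.cm ho hs ht M O₁ O₂,
    fun _ _ _ f h => h.re f, fun _ _ h => h.exr⟩

theorem HP.re {C : End Y} (h : HP C) (f : Y' ≃ₘ^∞⟮𝓡 3, 𝓡 3⟯ Y) : HP (C.re f) := by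
  have e : (C.re f).K 0 = C.K 0 := by
    refine congrArg (·ᶜ) (Subset.antisymm ?_ ?_)
    · rintro _ ⟨p, hp, rfl⟩
      exact ⟨_, ⟨mem_univ _, hp.2⟩, rfl⟩
    · rintro _ ⟨p, hp, rfl⟩
      exact ⟨(f.symm p.1, p.2), ⟨mem_univ _, hp.2⟩, congrArg C.j (by simp)⟩
  rw [HP, e]
  exact h

theorem clo_Q (H : HpOp) : Bb31.Clo Q :=
  ⟨fun _ _ _ _ _ _ _ _ _ _ _ _ M _ _ _ _ ho hs ht O₁ O₂ ⟨h1, _, h3⟩ =>
    ⟨h1.cm ho hs ht M O₁ O₂, haveI := O₁.conn; O₂.conn,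
      H _ _ _ _ _ _ _ _ _ _ O₂ (H _ _ _ _ _ _ _ _ _ _ O₁ h3)⟩,
    fun _ _ _ f h => ⟨h.1.re f, h.2.1, h.2.2.re f⟩, fun _ _ h => h.1.exr⟩

end Crest.Agent.X212.Sep15
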