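import Crest.Agent.X212.Qa50.Add
import Crest.Agent.X212.Mon62.REx

/-! X212 / QA-GAU (helper15): the terms at an abelian point without spinor. -/

set_option autoImplicit false
set_option linter.unusedSectionVars false
set_option maxHeartbeats 200000
noncomputable section
open scoped Manifold ContDiff Topology InnerProductSpace
open MeasureTheory Set Function Filter

namespace Crest.Agent.X212.Sep15.Gau
open An Nd18 Wz78 Qab60 Mp86 Qa50
open Num57 hiding c1 c2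
open Abel74 (fm fF G0 la0 mcA mcW mc_zero)
open Loc8 (Rd)
open Wrd81 (wd wd_ind Tf LlIn)
open Eqv71 (res_off isRes_ind)

variable {E : Type} [NormedAddCommGroup E] [NormedSpace ℝ E] [FiniteDimensional ℝ E]
  [MeasurableSpace E] [BorelSpace E]
  {HM : Type} [TopologicalSpace HM] {I : ModelWithCorners ℝ E HM} [I.Boundaryless]
  {M : Type} [TopologicalSpace M] [ChartedSpace HM M] [IsManifold I ∞ M] [T2Space M]
  [MeasurableSpace M] [BorelSpace M] [SecondCountableTopology M]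
  {ι : Type} [Fintype ι] {lam : Type} [Fintype lam]
  {B : Base M ι lam} {G : Geo I M ι lam} {Ω : Set M} {K : ℕ → ℝ}

section rl
variable {V : Type} [NormedAddCommGroup V] [NormedSpace ℝ V]

variable (I) in
/-- `s = u ξ` on `Ω`, both smooth and bounded -/
structure Rl (Ω : Set M) (ξ s : M → V) (u : M → ℝ) : Prop where
  ss : Sm I s
  bs : ∃ C, ∀ x, ‖s x‖ ≤ C
  su : Sm I u
  bu : ∃ C, ∀ x, ‖u x‖ ≤ C
  eq : ∀ x ∈ Ω, s x = u x • ξ x

theorem rl_mul {ξ s : M → V} {u f : M → ℝ} (hf : Tf I univ f) (hs : Sm I s) (hu : Sm I u)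
    (e : ∀ x ∈ Ω, s x = u x • ξ x) : Rl I Ω ξ (fun x => f x • s x) fun x => f x * u x :=
  have h1 : Sm I fun x => f x • s x := fun x => SA.smul (hf.sm x) (hs x)
  have h2 : Sm I fun x => f x * u x := fun x => SA.mul (hf.sm x) (hu x)
  ⟨h1, h1.continuous.bounded_above_of_compact_support hf.hcs.smul_right, h2,
    h2.continuous.bounded_above_of_compact_support hf.hcs.mul_right,
    fun x hx => by rw [e x hx, mul_smul]⟩

end rl

section res
variable {m : Md M ι lam} {W : m.Cn} {ξ s : M → m.A} {u : M → ℝ}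

theorem rd_nrm (R : Rd G.F m W Ω ξ) (H : m.OK I B) (x : M) : ‖ξ x‖ ≤ 4 := by
  by_cases hx : x ∈ Ω
  · refine abs_le_of_sq_le_sq' ?_ (by norm_num) |>.2
    rw [Abel74.norm_sq H (R.mem x hx) (R.sq x hx)]; norm_num
  · rw [R.off x hx, norm_zero]; norm_num

/-- **on `Ω` the resolvent on the line of `ξ` is the scalar resolvent** -/
theorem Rl.res (h : Rl I Ω ξ s u) (R : Rd G.F m W Ω ξ) (hΩ : IsClopen Ω) (H : m.OK I B)
    (C : m.IsConn B G W) (hF : G.F.Tame K) : Rl I Ω ξ (G.F.res (m.adW W) s) (G0 G.F u) := by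
  have k1 := res_spec (Mon62.exists_res_sm hF (mcA C).sm (mcA C).sk h.ss h.bs)
  have k2 := res_spec (Mon62.exists_res_sm hF mc_zero.sm (mc_zero (I := I)).sk h.su h.bu)
  have k3 := isRes_map (A' := m.adW W) (T := fun x => (ContinuousLinearMap.lsmul ℝ ℝ).flip (ξ x))
    mc_zero.sm (fun x => SA.clm _ (rd_sm R hΩ.1 x))
    ⟨_, fun x => (ContinuousLinearMap.le_opNorm _ _).trans
      (mul_le_mul_of_nonneg_left (rd_nrm R H x) (norm_nonneg _))⟩ (fun x a => by
      rw [Sob92.dv_clm _ (SA.md (rd_sm R hΩ.1 x)),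
        show Sob92.dv I (G.F.e a) ξ x = -m.adW W a x (ξ x) from
          eq_neg_of_add_eq_zero_left (rd_par R hΩ.1 a x)]
      ext; simp) k2
  have k4 := isRes_ind hΩ k1
  have e : Ω.indicator s = fun x => u x • ξ x := funext fun x => by
    by_cases hx : x ∈ Ω
    · rw [indicator_of_mem hx, h.eq x hx]
    · rw [indicator_of_notMem hx, R.off x hx, smul_zero]
  rw [e] at k4
  exact ⟨k1.1, k1.2.1, k2.1, k2.2.1, fun x hx => (indicator_of_mem hx _).symm.trans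
    (congrFun (isRes_unique (bumps_of_tame _ hF) (mcA C) k4 k3) x)⟩

end res

variable {r : ℕ} {c : Cfg M ι lam r} {ξ : M → c.m.A} (hB : B.OK I) (hG : G.OK B)
  (h : Ab B G Ω c ξ) (hΩ : IsClopen Ω) (hF : G.F.Tame K)
include h hΩ hF

theorem sw_z (w : SW M) : ∀ x ∈ Ω, c.sw G.F w x = 0 :=
  wd_ind (p := fun u : M → c.m.V => ∀ x ∈ Ω, u x = 0) h.z (fun t u hu x hx => by
    cases t with
    | G => exact res_off hΩ.compl (bumps_of_tame _ hF) (mcW h.adm.conn)
            (fun y hy => hu y (not_not.1 hy)) (not_not.2 hx)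
    | _ => simp [Cfg.lt, hu x hx]) w

theorem la_z {s : M → c.m.A} (hs : ∀ x ∈ Ω, s x = 0) (l : List (La M)) :
    ∀ x ∈ Ω, wd (c.la G.F) s l x = 0 :=
  wd_ind (p := fun u : M → c.m.A => ∀ x ∈ Ω, u x = 0) hs (fun t u hu x hx => by
    cases t with
    | G => exact res_off hΩ.compl (bumps_of_tame _ hF) (mcA h.adm.conn)
            (fun y hy => hu y (not_not.1 hy)) (not_not.2 hx)
    | mul f => simp [Cfg.la, hu x hx]) l

theorem la_rl {s : M → c.m.A} {u : M → ℝ} (k : Rl I Ω ξ s u) : ∀ l : List (La M), LlIn I univ l →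
    Rl I Ω ξ (wd (c.la G.F) s l) (wd (la0 G.F) u l)
  | [], _ => k
  | t :: l, hl => by
    have ih := la_rl k l fun t ht => hl t (List.mem_cons_of_mem _ ht)
    have ht := hl t List.mem_cons_self
    cases t with
    | mul f => exact rl_mul ht ih.ss ih.su ih.eq
    | G => exact ih.res h.rd hΩ h.adm.ok h.adm.conn hF

include hB hG

theorem sd_rl {f g g' : M → ℝ} (hf : Tf I univ f) (hg : Sm I g) (hg' : Sm I g') :
    Rl I Ω ξ (c.sd G.F (.cv f g g')) (G0 G.F (G0 G.F fun y =>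
      ⟪f y • dd2 G.F g g' y, c2 G.F (fm G.F c.m c.W ξ) y⟫_ℝ)) := by
  have H := h.adm.ok
  have C := h.adm.conn
  have s1 := fun (s : ι × ι) x => SA.mul (G.F.sm_D hg s.1 x) (G.F.sm_D hg' s.2 x)
  have s2 := sm_Fg hG C (Std94.sm_pg hB H)
  have k := rl_mul (Ω := Ω) (ξ := ξ) hf
    (s := fun x => ∑ s : ι × ι, (G.F.D s.1 g x * G.F.D s.2 g' x) • c.m.Fg G.F c.W x s)
    (u := fun x => ∑ s : ι × ι, G.F.D s.1 g x * G.F.D s.2 g' x * fF G.F c.m c.W ξ s.1 s.2 x)
    (fun x => contMDiffAt_finsetSum fun s _ => (s1 s x).smul (s2 s x))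
    (fun x => contMDiffAt_finsetSum fun s _ => (s1 s x).mul
      ((SA.app (SA.clm (innerSL ℝ) (s2 s x)) (rd_sm h.rd hΩ.1 x)).div_const 16))
    fun x hx => by simp only [h.rd.Fg_eq hB hG H C hx, smul_smul, Finset.sum_smul]
  have e : (fun y => ⟪f y • dd2 G.F g g' y, c2 G.F (fm G.F c.m c.W ξ) y⟫_ℝ) = fun x => f x *
      ∑ s : ι × ι, G.F.D s.1 g x * G.F.D s.2 g' x * fF G.F c.m c.W ξ s.1 s.2 x := funext fun y => by
    rw [real_inner_smul_left, PiLp.inner_apply]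
    simp only [dd2, c2, Abel74.k2_fm hG C, RCLike.inner_apply, conj_trivial, mul_comm]
  rw [e]
  simp only [Finset.smul_sum, smul_smul, ← mul_assoc] at k
  exact (k.res h.rd hΩ H C hF).res h.rd hΩ H C hF

omit h hΩ hF hB hG in
variable (I M ι lam) in
/-- **QA-GAU** -/
theorem gau : GauStmt I M ι lam := by
  intro r n B G Ω c ξ hB hG ⟨K, hF⟩ hΩ h T hT hb x hx
  have z : (0 : Fm (ι × ι) c.m.A) = tn (0 : V2 ι) (ξ x) := by ext1; simp [tn]
  have z' : ∀ θ : ι × ι → ℝ, c.m.p2 B x (WithLp.toLp 2 fun s => θ s • (0 : c.m.A)) =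
      tn (0 : V2 ι) (ξ x) := fun θ => by simp [← z, ← Pi.zero_def]
  have w := sw_z h hΩ hF
  rcases T with u | ⟨d, s, u⟩ | ⟨g, g2, ⟨⟨u, v⟩ | ⟨f, g', h'⟩, l⟩⟩ | ⟨d, s, g, g2, u, v, l⟩ | _ | _ | _
  · exact ⟨by simp [Cfg.tD, w u x hx], z⟩
  · exact ⟨by simp [Cfg.tD, w u x hx, cs], z⟩
  · refine ⟨rfl, Eq.trans ?_ (z' fun s => G.F.D s.1 g x * G.F.D s.2 g2 x)⟩
    simp only [Cfg.tC, Cfg.aw, la_z h hΩ hF (s := c.sd G.F (.q u v))
      (fun y hy => by simp [Cfg.sd, w _ y hy, Md.q, rk1]) l x hx]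
  · obtain ⟨-, -, ⟨a1, a2, a3⟩, a4⟩ := hT
    have k := (la_rl h hΩ hF (sd_rl hB hG h hΩ hF a1 a2.sm a3.sm) l a4).eq x hx
    refine ⟨rfl, ?_⟩
    simp only [Cfg.tC, Cfg.aw, k, smul_smul, Abel74.p2_smul (h.rd.mem x hx), tmF]
    refine congrArg (WithLp.toLp 2) (funext fun s => congrArg (· • ξ x) ?_)
    simp only [hs, sd, PiLp.smul_apply, Map77.idx_apply, hG.P, dd2, smul_eq_mul, ← mul_assoc,
      ← Finset.sum_mul, ContinuousLinearMap.id_apply]
    exact mul_comm _ _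
  · refine ⟨rfl, Eq.trans ?_ (z' fun s => G.F.D s.1 g x * G.F.D s.2 g2 x)⟩
    simp only [Cfg.tC, la_z h hΩ hF (s := c.qj G.F d s u v)
      (fun y hy => by simp [Cfg.qj, w _ y hy, Md.q, rk1]) l x hx]
  · exact hb.elim
  · exact ⟨rfl, z⟩
  · exact ⟨rfl, z⟩

end Crest.Agent.X212.Sep15.Gau
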