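import Crest.Agent.X212.Sw.Cyl

/-!
# X212/Sep15/SwB (helper15): basic facts on the format `Sw` (smoothness, slices, monotonicity)
-/

set_option autoImplicit false
set_option linter.unusedSectionVars false
set_option maxHeartbeats 200000
noncomputable section
open scoped Manifold ContDiff Topology InnerProductSpace
open MeasureTheory Set Function Filter

namespace Crest.Agent.X212.Sep15.S
open An Cyf70 Sw Sw.En3
open Wz78 (SA dir curv nab)
open Nd18 (Jv)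

variable {κ lam ν : Type} [Fintype κ] [Fintype lam] [Fintype ν] [DecidableEq ν]

section bg
variable {E : Type} [NormedAddCommGroup E] [NormedSpace ℝ E] [FiniteDimensional ℝ E]
  [MeasurableSpace E] [BorelSpace E]
  {HM : Type} [TopologicalSpace HM] {I : ModelWithCorners ℝ E HM}
  {M : Type} [TopologicalSpace M] [ChartedSpace HM M] [IsManifold I ∞ M] [MeasurableSpace M]
  {V : Type} [NormedAddCommGroup V] [InnerProductSpace ℝ V] {α : Type} [Fintype α] {x : M}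

theorem sa_lp {f : M → Fm α V} (hf : ∀ a, SA I (fun y => f y a) x) : SA I f x :=
  (PiLp.continuousLinearEquiv 2 ℝ fun _ : α => V).symm.contDiff.contMDiff.contMDiffAt.comp x
    (contMDiffAt_pi_space.2 hf)

theorem sa_ev {f : M → Fm α V} (hf : SA I f x) (a : α) : SA I (fun y => f y a) x :=
  (PiLp.proj (𝕜 := ℝ) 2 (fun _ : α => V) a).contDiff.contMDiff.contMDiffAt.comp x hf

theorem sa_inner {u v : M → V} (hu : SA I u x) (hv : SA I v x) :
    SA I (fun y => ⟪u y, v y⟫_ℝ) x :=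
  (contDiff_inner (𝕜 := ℝ) (E := V)).contMDiff.contMDiffAt.comp x (hu.prodMk_space hv)

theorem sa_clm {N N' : Type} [NormedAddCommGroup N] [NormedSpace ℝ N] [NormedAddCommGroup N']
    [NormedSpace ℝ N'] (L : N →L[ℝ] N') {u : M → N} (hu : SA I u x) : SA I (fun y => L (u y)) x :=
  L.contDiff.contMDiff.contMDiffAt.comp x hu

theorem sa_D {N : Type} [NormedAddCommGroup N] [NormedSpace ℝ N] {ι : Type} (F : Pre I M ι)
    {u : M → N} (hu : SA I u x) (a : ι) : SA I (F.D a u) x := Sob92.dv_smoothAt (F.sm a x) hu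

theorem idx_ap (S : α → α → ℝ) (η : Fm α ℝ) (a : α) :
    idx S (ContinuousLinearMap.id ℝ ℝ) η a = ∑ b, S a b * η b := by
  simp [idx]

theorem sa_idx {S : M → α → α → ℝ} {f : M → Fm α ℝ} (hS : ∀ a b, SA I (fun y => S y a b) x)
    (hf : SA I f x) : SA I (fun y => idx (S y) (ContinuousLinearMap.id ℝ ℝ) (f y)) x :=
  sa_lp fun a => by
    simp only [idx_ap]
    exact SA.sum _ fun b _ => (hS a b).mul (sa_ev hf b)

variable {nc : ℕ} {b : Bg I M κ lam ν nc} (h : b.OK) {c : Sw.Cfg M κ ν}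
include h

theorem sa_jp (x : M) : SA I b.jp x := SA.mul contMDiffAt_const (h.cc.sp x)

theorem sa_W (ha : ∀ i, SA I (c.a i) x) (i : Option κ) : SA I (b.W c i) x :=
  (h.cc.sm i x).add ((ha i).smul (sa_jp h x))

theorem sa_curv (ha : ∀ i, SA I (c.a i) x) (i j : Option κ) :
    SA I (curv I b.F.e b.F.c (b.W c) i j) x :=
  (((sa_D b.F.toPre (sa_W h ha j) i).sub (sa_D b.F.toPre (sa_W h ha i) j)).add
    (((sa_W h ha i).mul (sa_W h ha j)).sub ((sa_W h ha j).mul (sa_W h ha i)))).sub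
    (SA.sum _ fun k _ => SA.smul (b.F.c_sm i j k x) (sa_W h ha k))

theorem sa_fc (ha : ∀ i, SA I (c.a i) x) : SA I (b.fc c) x := sa_lp fun s =>
  SA.mul contMDiffAt_const (sa_inner (sa_clm hsL (sa_jp h x)) (sa_clm hsL (sa_curv h ha s.1 s.2)))

theorem sa_qd {u v : M → Eu ν} (hu : SA I u x) (hv : SA I v x) :
    SA I (fun y => b.qd y (u y) (v y)) x := sa_lp fun s => SA.mul contMDiffAt_const
  (sa_inner (sa_clm b.m.J (SA.app (h.cc.sρ s.1 x) (SA.app (h.cc.sρ s.2 x) hv))) hu)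

theorem sa_sd (s t : Option κ × Option κ) (x : M) : SA I (fun y => b.B.sd y s t) x :=
  (((SA.mul (h.B.sP _ _ x) (h.B.sP _ _ x)).sub (SA.mul (h.B.sP _ _ x) (h.B.sP _ _ x))).div_const
    2 |>.add ((h.B.so _ _ _ _ x).div_const 2)).div_const 2

theorem sa_p2 {f : M → F2 κ} (hf : SA I f x) : SA I (fun y => b.p2 y (f y)) x :=
  sa_idx (fun s t => sa_sd h s t x) hf

theorem sa_nab (ha : ∀ i, SA I (c.a i) x) {u : M → Eu ν} (hu : SA I u x) (i : Option κ) :
    SA I (nab I b.F.e (b.W c) i u) x := (sa_D b.F.toPre hu i).add (SA.app (sa_W h ha i) hu)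

theorem sa_eD (ha : ∀ i, SA I (c.a i) x) (hΦ : SA I c.Φ x) : SA I (b.eD c) x :=
  (SA.sum _ fun i _ => SA.app (h.cc.sρ i x) (sa_nab h ha hΦ i)).add
    (SA.app (h.cms.choose_spec.1 x) hΦ)

theorem sa_eC (ha : ∀ i, SA I (c.a i) x) (hΦ : SA I c.Φ x) : SA I (b.eC c) x :=
  (sa_p2 h ((sa_fc h ha).sub (SA.smul contMDiffAt_const (sa_qd h hΦ hΦ)))).sub
    (h.com.choose_spec.1 x)

end bg

/-! ### intervals -/

theorem isOpen_Jv (p q : Option ℝ) : IsOpen (Jv p q) := by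
  cases p <;> cases q <;> simp only [Jv, Option.mem_def, reduceCtorEq, IsEmpty.forall_iff,
    implies_true, Option.some.injEq, forall_eq', true_and, and_true]
  exacts [isOpen_univ, isOpen_Iio, isOpen_Ioi, isOpen_Ioo]

theorem ordConnected_Jv (p q : Option ℝ) : (Jv p q).OrdConnected :=
  ⟨fun _ hx _ hy _ hz => ⟨fun a ha => (hx.1 a ha).trans_le hz.1,
    fun a ha => hz.2.trans_lt (hy.2 a ha)⟩⟩

theorem Jv_some (a b : ℝ) : Jv (some a) (some b) = Ioo a b := by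
  ext; simp [Jv]

theorem mem_Jv_map {p q : Option ℝ} {f g : ℝ → ℝ} {s : ℝ} :
    s ∈ Jv (p.map f) (q.map g) ↔ (∀ a ∈ p, f a < s) ∧ ∀ b ∈ q, s < g b := by
  cases p <;> cases q <;> simp [Jv]

theorem Jv_sub (p q : Option ℝ) : Jv p q ⊆ Jv (p.map (· - 1)) (q.map (· + 1)) := fun _ hs =>
  mem_Jv_map.2 ⟨fun a ha => by linarith [hs.1 a ha], fun a ha => by linarith [hs.2 a ha]⟩

/-! ### cross-sections -/

section cr
variable {e : En3 κ lam ν} {W : Type} {T : W → Option e.YT} {q : W →₀ ℝ} {c : e.ZC} {v : e.YC}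

theorem sa_sl {N : Type} [NormedAddCommGroup N] [NormedSpace ℝ N] {f : e.Y.M × ℝ → N} {J : Set ℝ}
    (hJ : IsOpen J) (hf : ContMDiffOn (IC e.Y.I) 𝓘(ℝ, N) ∞ f (univ ×ˢ J)) {s : ℝ} (hs : s ∈ J) :
    Sm e.Y.I fun y => f (y, s) := fun y =>
  (hf.contMDiffAt ((isOpen_univ.prod hJ).mem_nhds ⟨trivial, hs⟩)).comp y
    (contMDiffAt_id.prodMk contMDiffAt_const)

/-- slices of smooth configurations are smooth -/
theorem adm_sl {J : Set ℝ} (hJ : IsOpen J) (h : e.cyl.AdmOn c (univ ×ˢ J)) {s : ℝ} (hs : s ∈ J) :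
    e.cyl.Adm (fz (sl c s)) where
  sa i := by
    cases i
    exacts [contMDiff_const, sm_fst (sa_sl hJ (h.sa _) hs)]
  sΦ := sm_fst (sa_sl hJ h.sΦ hs)
  pa i x := by
    have := h.pa i (x.1, s) ⟨trivial, hs⟩
    rw [Fintype.sum_option] at this ⊢
    cases i with
    | none => simp [En3.cyl, Nd18.YD.B, cP, fz, Nd18.ca]
    | some i => simpa [En3.cyl, Nd18.YD.B, cP, fz, Nd18.ca, sl] using this
  pΦ x := h.pΦ (x.1, s) ⟨trivial, hs⟩

theorem sm_a (hv : e.cyl.Adm (fz v)) (k : κ) : Sm e.Y.I (v.a k) :=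
  sm_slice_fst (hv.sa (some k)) 0

theorem sm_Φ (hv : e.cyl.Adm (fz v)) : Sm e.Y.I v.Φ := sm_slice_fst hv.sΦ 0

theorem sm_gr_a (h : e.OK) (hv : e.cyl.Adm (fz v)) (k : κ) : Sm e.Y.I ((gr v).a k) := fun y =>
  SA.mul contMDiffAt_const (sa_ev ((sm_slice_fst
    (fun x => sa_eC h.cyl (fun i => hv.sa i x) (hv.sΦ x)) 0 y).add
    (SA.smul contMDiffAt_const (h.sζ y))) _)

theorem sm_gr_Φ (h : e.OK) (hv : e.cyl.Adm (fz v)) : Sm e.Y.I (gr v).Φ := fun y =>
  (SA.app (sm_slice_fst (fun x => h.cyl.cc.sρ none x) 0 y).neg (sm_slice_fst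
    (fun x => sa_eD h.cyl (fun i => hv.sa i x) (hv.sΦ x)) 0 y)).sub
    (SA.smul contMDiffAt_const (sm_Φ hv y))

theorem integrable_Y {N : Type} [NormedAddCommGroup N] {f : e.Y.M → N} (hf : Continuous f) :
    Integrable f e.D.F.μ :=
  hf.integrable_of_hasCompactSupport (HasCompactSupport.of_compactSpace f)

theorem gn_nonneg (hw : 0 ≤ e.w) (v : e.YC) : 0 ≤ gn v := integral_nonneg fun _ =>
  add_nonneg (mul_nonneg zero_le_two (Finset.sum_nonneg fun _ _ => mul_self_nonneg _))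
    (mul_nonneg hw real_inner_self_nonneg)

theorem admOn_mono {O O' : Set (e.Y.M × ℝ)} (h : e.cyl.AdmOn c O) (s : O' ⊆ O) :
    e.cyl.AdmOn c O' :=
  ⟨fun i => (h.sa i).mono s, h.sΦ.mono s, fun i x hx => h.pa i x (s hx), fun x hx => h.pΦ x (s hx)⟩

/-- restriction of a local solution -/
theorem loc_mono {p p' r r' : Option ℝ} (h : Loc T q c p p') (h1 : ∀ a ∈ p, ∃ b ∈ r, a ≤ b)
    (h2 : ∀ a ∈ p', ∃ b ∈ r', b ≤ a) : Loc T q c r r' := by
  refine ⟨admOn_mono h.adm (prod_mono_right fun s hs => ?_), fun x hx => h.eq x ⟨trivial, ?_⟩⟩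
  · rw [mem_Jv_map] at hs ⊢
    refine ⟨fun a ha => ?_, fun a ha => ?_⟩
    · obtain ⟨b, hb, k⟩ := h1 a ha
      linarith [hs.1 b hb]
    · obtain ⟨b, hb, k⟩ := h2 a ha
      linarith [hs.2 b hb]
  · refine ⟨fun a ha => ?_, fun a ha => ?_⟩
    · obtain ⟨b, hb, k⟩ := h1 a ha
      exact k.trans_lt (hx.2.1 b hb)
    · obtain ⟨b, hb, k⟩ := h2 a ha
      exact (hx.2.2 b hb).trans_le k

theorem loc_win {p p' : Option ℝ} (h : Loc T q c p p') {a b : ℝ} (h1 : a ∈ Jv p p')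
    (h2 : b ∈ Jv p p') : Loc T q c (some a) (some b) :=
  loc_mono h (fun x hx => ⟨a, rfl, (h1.1 x hx).le⟩) fun x hx => ⟨b, rfl, (h2.2 x hx).le⟩

theorem loc_sl {p p' : Option ℝ} (h : Loc T q c p p') {s : ℝ} (hs : s ∈ Jv p p') :
    e.cyl.Adm (fz (sl c s)) := adm_sl (isOpen_Jv _ _) h.adm (Jv_sub _ _ hs)

end cr

end Crest.Agent.X212.Sep15.S
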