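import Crest.Agent.X212.Sep15.CvA
import Crest.Agent.X212.Pb50.Cyl

/-!
# X212/Sep15/Av (helper15): averages, intervals with a sign, pigeonhole, chains
-/

set_option autoImplicit false
set_option linter.unusedSectionVars false
set_option maxHeartbeats 200000
noncomputable section
open scoped Manifold ContDiff Topology InnerProductSpace
open MeasureTheory Set Function Filter

namespace Crest.Agent.X212.Sep15.S
open An Cyf70 Sw Sw.En3
open M (Mf pm)
open Nd18 (Jv)

theorem bp_nonneg (p : ℝ) : 0 ≤ bp p := Real.smoothTransition.monotone.deriv_nonneg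

theorem cont_bp : Continuous bp :=
  (Real.smoothTransition.contDiff (n := 1)).continuous_deriv le_rfl

theorem av_eq (f : ℝ → ℝ) : av f = ∫ p in Icc (0 : ℝ) 1, bp p * f p :=
  (setIntegral_eq_integral_of_forall_compl_eq_zero fun p hp => by
    rw [Pb50.bp_zero hp, zero_mul]).symm

theorem int_bp : ∫ p in Icc (0 : ℝ) 1, bp p = 1 := by
  rw [integral_Icc_eq_integral_Ioc, ← intervalIntegral.integral_of_le zero_le_one, bp,
    intervalIntegral.integral_deriv_eq_sub (fun x _ => (Real.smoothTransition.contDiff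
      (n := 1)).differentiable one_ne_zero x) (cont_bp.intervalIntegrable _ _)]
  simp

theorem av_ge {f : ℝ → ℝ} {σ x : ℝ} (hf : ContinuousOn f (Icc 0 1))
    (h : ∀ p ∈ Icc (0 : ℝ) 1, x ≤ σ * f p) : x ≤ σ * av f := by
  rw [av_eq, ← integral_const_mul]
  refine le_trans (b := ∫ p in Icc (0 : ℝ) 1, x * bp p) (by rw [integral_const_mul, int_bp, mul_one]) ?_
  refine setIntegral_mono_on (μ := volume) (cont_bp.const_mul _).continuousOn.integrableOn_Icc
    (continuousOn_const.mul (cont_bp.continuousOn.mul hf)).integrableOn_Icc measurableSet_Icc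
    fun p hp => ?_
  rw [mul_left_comm, mul_comm x]
  exact mul_le_mul_of_nonneg_left (h p hp) (bp_nonneg p)

/-- the ends of `iv b a r` -/
def lo (b : Bool) (a r : ℝ) : ℝ := if b then a else -r

/-- the ends of `iv b a r` -/
def hi (b : Bool) (a r : ℝ) : ℝ := if b then r else -a

theorem iv_Ioo (b : Bool) (a r : ℝ) : iv b a r = Ioo (lo b a r) (hi b a r) := by
  ext t
  cases b <;> simp only [iv, pm, lo, hi, mem_Ioo, mem_ofPred_eq, if_true, Bool.false_eq_true,
    if_false] <;> constructor <;> rintro ⟨h1, h2⟩ <;> constructor <;> linarith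

theorem Jv_iv (b : Bool) (a r : ℝ) : Jv (some (lo b a r)) (some (hi b a r)) = iv b a r := by
  rw [Jv_some, iv_Ioo]

theorem lo_win (b : Bool) (s d : ℝ) : lo b (s - d) (s + d) = pm b * s - d := by
  cases b <;> simp [lo, pm]; ring

theorem hi_win (b : Bool) (s d : ℝ) : hi b (s - d) (s + d) = pm b * s + d := by
  cases b <;> simp [hi, pm]; ring

theorem iv_eq' (b : Bool) (t d : ℝ) : Ioo (t - d) (t + d) = iv b (pm b * t - d) (pm b * t + d) := by
  rw [← iv_eq, pm_pm]

theorem iv_sub_iff {b : Bool} {a r a' r' : ℝ} (h : a < r) :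
    iv b a r ⊆ iv b a' r' ↔ a' ≤ a ∧ r ≤ r' := by
  refine ⟨fun k => ?_, fun k => iv_mono k.1 k.2⟩
  rw [iv_Ioo, iv_Ioo, Ioo_subset_Ioo_iff (by cases b <;> simp [lo, hi, h])] at k
  cases b <;> simp only [lo, hi, if_true, Bool.false_eq_true, if_false] at k <;>
    exact ⟨by linarith [k.1, k.2], by linarith [k.1, k.2]⟩

theorem pm_abs (b : Bool) (x : ℝ) : |pm b * x| = |x| := by cases b <;> simp [pm]

theorem mem_half {b : Bool} {t t' : ℝ} (h : t' ∈ Icc (t - 1 / 2) (t + 1 / 2)) :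
    pm b * t - 1 / 2 ≤ pm b * t' ∧ pm b * t' ≤ pm b * t + 1 / 2 := by
  cases b <;> simp only [pm, if_true, Bool.false_eq_true, if_false] <;>
    exact ⟨by linarith [h.1, h.2], by linarith [h.1, h.2]⟩

theorem pigeon (m₁ m₂ : Measure ℝ) (b : Bool) (a : ℝ) {A B ε δ : ℝ} (hA : 0 ≤ A) (hB : 0 ≤ B)
    (hε : 0 < ε) (hδ : 0 < δ) {N : ℕ} (hN : A / ε + B / δ < N)
    (h1 : m₁ (iv b a (a + 8 * N)) ≤ ENNReal.ofReal A)
    (h2 : m₂ (iv b a (a + 8 * N)) ≤ ENNReal.ofReal B) : ∃ x, a ≤ x ∧ x + 8 ≤ a + 8 * N ∧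
      m₁ (iv b x (x + 8)) < ENNReal.ofReal ε ∧ m₂ (iv b x (x + 8)) < ENNReal.ofReal δ := by
  by_contra h
  let m := ENNReal.ofReal ε⁻¹ • m₁ + ENNReal.ofReal δ⁻¹ • m₂
  have sub : ∀ n ∈ Finset.range N, (a + 8 * n : ℝ) + 8 ≤ a + 8 * N := fun n hn => by
    have : (n : ℝ) + 1 ≤ N := by exact_mod_cast Finset.mem_range.1 hn
    linarith
  have k : ∀ n ∈ Finset.range N, 1 ≤ m (iv b (a + 8 * n) (a + 8 * n + 8)) := fun n hn => by
    have e : ∀ {r : ℝ} {x : ENNReal}, 0 < r → ¬x < ENNReal.ofReal r → 1 ≤ ENNReal.ofReal r⁻¹ * x :=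
      fun hr hx => le_trans (by rw [← ENNReal.ofReal_mul (by positivity), inv_mul_cancel₀ hr.ne',
        ENNReal.ofReal_one]) (mul_le_mul_right (not_lt.1 hx) _)
    rcases not_and_or.1 (fun k => h ⟨_, le_add_of_nonneg_right (by positivity), sub n hn, k⟩)
      with k | k
    exacts [(e hε k).trans le_self_add, (e hδ k).trans le_add_self]
  have d : (Finset.range N : Set ℕ).PairwiseDisjoint fun n => iv b (a + 8 * n) (a + 8 * n + 8) :=
    fun n _ n' _ hn => disjoint_left.2 fun t h1 h2 => by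
      rcases lt_or_gt_of_ne hn with k | k
      · have : (n : ℝ) + 1 ≤ n' := by exact_mod_cast k
        linarith [h1.2, h2.1]
      · have : (n' : ℝ) + 1 ≤ n := by exact_mod_cast k
        linarith [h1.1, h2.2]
  have k1 := (Finset.sum_le_sum k).trans ((measure_biUnion_finset d fun n _ =>
    (isOpen_iv _ _ _).measurableSet).symm.trans_le (measure_mono (t := iv b a (a + 8 * N))
      (iUnion₂_subset fun n hn => iv_mono (le_add_of_nonneg_right (by positivity)) (sub n hn))))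
  have k2 : m (iv b a (a + 8 * N)) ≤ ENNReal.ofReal (A / ε + B / δ) := by
    rw [ENNReal.ofReal_add (by positivity) (by positivity), div_eq_inv_mul, div_eq_inv_mul,
      ENNReal.ofReal_mul (by positivity), ENNReal.ofReal_mul (by positivity)]
    exact add_le_add (mul_le_mul_right h1 _) (mul_le_mul_right h2 _)
  rw [Finset.sum_const, Finset.card_range, nsmul_one, ← ENNReal.ofReal_natCast] at k1
  exact ((ENNReal.ofReal_le_ofReal_iff (by positivity)).1 (k1.trans k2)).not_gt hN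

theorem chain {O : Type} {P : ℝ → O → Prop} {A B : ℝ} {o₀ : O}
    (h : ∀ s ∈ Icc A B, ∀ s' ∈ Icc A B, |s - s'| ≤ 1 → ∀ o o', P s o → P s' o' → o = o')
    (ex : ∀ s ∈ Icc A B, ∃ o, P s o) (h0 : P B o₀) : ∀ s ∈ Icc A B, P s o₀ := by
  have : ∀ n : ℕ, ∀ s ∈ Icc A B, B - s ≤ n → P s o₀ := fun n => by
    induction n with
    | zero => exact fun s hs k => (le_antisymm (by simpa using k) hs.2 : B = s) ▸ h0
    | succ n ih =>
      intro s hs k
      obtain ⟨o, ho⟩ := ex s hs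
      have m : min (s + 1) B ∈ Icc A B := ⟨le_min (by linarith [hs.1]) (hs.1.trans hs.2), min_le_right _ _⟩
      have m1 := min_le_left (s + 1) B
      have m2 : s ≤ min (s + 1) B := le_min (by linarith) hs.2
      refine h s hs _ m (abs_le.2 ⟨by linarith, by linarith⟩) o o₀ ho (ih _ m ?_) ▸ ho
      push_cast at k
      rcases min_cases (s + 1) B with e | e <;> rw [e.1]
      · linarith
      · simp
  exact fun s hs => this _ s hs (Nat.le_ceil _)

theorem lint_ex {δ : ℝ} (hδ : 0 < δ) (p p' : ℝ) :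
    ∫⁻ t in Ioo p p', ENNReal.ofReal (ex δ (some p) (some p') t) ≤ ENNReal.ofReal (2 / δ) := by
  have e : ∀ t, ex δ (some p) (some p') t =
      Real.exp (δ * p) * Real.exp (-δ * t) + Real.exp (-δ * p') * Real.exp (δ * t) := fun t => by
    simp only [ex, Option.elim_some, ← Real.exp_add]; congr 2 <;> ring
  have i1 := (integrableOn_exp_mul_Ioi (neg_lt_zero.2 hδ) p).const_mul (Real.exp (δ * p))
  have i2 := (integrableOn_exp_mul_Iic hδ p').const_mul (Real.exp (-δ * p'))
  simp only [e, fun t => ENNReal.ofReal_add (show 0 ≤ Real.exp (δ * p) * Real.exp (-δ * t) by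
    positivity) (show 0 ≤ Real.exp (-δ * p') * Real.exp (δ * t) by positivity)]
  rw [lintegral_add_left (by fun_prop), show 2 / δ = 1 / δ + 1 / δ by ring,
    ENNReal.ofReal_add (by positivity) (by positivity)]
  refine add_le_add ((lintegral_mono_set Ioo_subset_Ioi_self).trans (le_of_eq ?_))
    ((lintegral_mono_set (Ioo_subset_Iio_self.trans Iio_subset_Iic_self)).trans (le_of_eq ?_))
  · rw [← ofReal_integral_eq_lintegral_ofReal i1 (.of_forall fun t => by positivity),
      integral_const_mul, integral_exp_mul_Ioi (neg_lt_zero.2 hδ), neg_div_neg_eq, mul_div_assoc',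
      ← Real.exp_add]
    simp
  · rw [← ofReal_integral_eq_lintegral_ofReal i2 (.of_forall fun t => by positivity),
      integral_const_mul, integral_exp_mul_Iic hδ, mul_div_assoc', ← Real.exp_add]
    simp

theorem ex_le {δ p p' t : ℝ} (hδ : 0 < δ) (h : t ∈ Ioo p p') :
    0 ≤ ex δ (some p) (some p') t ∧ ex δ (some p) (some p') t ≤ 2 := by
  have a : Real.exp (-δ * (t - p)) ≤ 1 := Real.exp_le_one_iff.2 (by nlinarith [h.1])
  have b : Real.exp (-δ * (p' - t)) ≤ 1 := Real.exp_le_one_iff.2 (by nlinarith [h.2])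
  simp only [ex, Option.elim_some]
  exact ⟨by positivity, by linarith⟩

variable {κ lam ν : Type} [Fintype κ] [Fintype lam] [Fintype ν] [DecidableEq ν]
  {e : En3 κ lam ν} {W : Type} {T : W → Option e.YT} {q : W →₀ ℝ} {c : e.ZC} {v : e.YC}
  {b : Bool} {a r : ℝ}

theorem lb_ge {I : Set ℝ} (hc : ContinuousOn (fun t => L (sl c t)) I) {t σ x : ℝ}
    (h : ∀ t' ∈ Icc (t - 1 / 2) (t + 1 / 2), t' ∈ I ∧ x ≤ σ * L (sl c t')) : x ≤ σ * lb c t := by
  have m : ∀ p ∈ Icc (0 : ℝ) 1, t + p - 1 / 2 ∈ Icc (t - 1 / 2) (t + 1 / 2) := fun p hp =>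
    ⟨by linarith [hp.1], by linarith [hp.2]⟩
  exact av_ge (hc.comp (f := fun p => t + p - 1 / 2) (by fun_prop) fun p hp => (h _ (m p hp)).1)
    fun p hp => (h _ (m p hp)).2

theorem lb_abs {I : Set ℝ} (hc : ContinuousOn (fun t => L (sl c t)) I) {t l x : ℝ}
    (h : ∀ t' ∈ Icc (t - 1 / 2) (t + 1 / 2), t' ∈ I ∧ |L (sl c t') - l| ≤ x) : |lb c t - l| ≤ x := by
  have h1 := lb_ge hc (σ := 1) (x := l - x) fun t' ht =>
    ⟨(h t' ht).1, by linarith [(abs_le.1 (h t' ht).2).1]⟩
  have h2 := lb_ge hc (σ := -1) (x := -l - x) fun t' ht =>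
    ⟨(h t' ht).1, by linarith [(abs_le.1 (h t' ht).2).2]⟩
  exact abs_le.2 ⟨by linarith, by linarith⟩

theorem loc_iv {a' r' : ℝ} (hA : e.cyl.AdmOn c (univ ×ˢ ir b (a - 1)))
    (hE : e.cyl.EqOn (pt T q) c (univ ×ˢ iv b a r)) (h1 : a ≤ a') (h2 : r' ≤ r) :
    Loc T q c (some (lo b a' r')) (some (hi b a' r')) := by
  refine ⟨admOn_mono hA (prod_mono_right fun t ht => ?_), fun x hx =>
    hE x ⟨trivial, iv_mono h1 h2 (Jv_iv b a' r' ▸ hx.2)⟩⟩
  have := mem_Jv_map.1 ht
  have k1 := this.1 _ rfl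
  have k2 := this.2 _ rfl
  cases b <;> simp only [ir, lo, hi, pm, mem_ofPred_eq, if_true, Bool.false_eq_true, if_false] at * <;>
    linarith

theorem mono_iv {ε l s t : ℝ} (h : ∀ s t, s ≤ t → s - 1 ∈ Jv (some (lo b a r)) (some (hi b a r)) →
      t + 1 ∈ Jv (some (lo b a r)) (some (hi b a r)) → L (sl c t) + (en c (Ioo s t)).toReal / 2 ≤
      L (sl c s) + ε * (en c (Ioo (s - 1) (t + 1))).toReal) (h0 : s ≤ t) (h1 : a < s - 1)
    (h2 : t + 1 < r) : pm b * (L (sl c (pm b * t)) - l) + (en c (iv b s t)).toReal / 2 ≤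
      pm b * (L (sl c (pm b * s)) - l) + ε * (en c (iv b (s - 1) (t + 1))).toReal := by
  rw [iv_Ioo, iv_Ioo]
  rw [Jv_some] at h
  cases b <;> simp only [lo, hi, pm, if_true, Bool.false_eq_true, if_false, one_mul, neg_mul] at *
  · have := h (-t) (-s) (by linarith) ⟨by linarith, by linarith⟩ ⟨by linarith, by linarith⟩
    rw [show -t - 1 = -(t + 1) by ring, show -s + 1 = -(s - 1) by ring] at this
    linarith
  · linarith [h s t h0 ⟨by linarith, by linarith⟩ ⟨by linarith, by linarith⟩]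

theorem en_le {I : Set ℝ} (hI : MeasurableSet I) {ε : ℝ} (h : ∀ t ∈ I, gn (sl c t) ≤ ε) :
    en c I ≤ ENNReal.ofReal ε * volume I :=
  (setLIntegral_mono' hI fun t ht => ENNReal.ofReal_le_ofReal (h t ht)).trans
    (setLIntegral_const _ _).le

theorem tz_le {I : Set ℝ} (hI : MeasurableSet I) {w : List (Option κ)} {f : ℝ → ℝ}
    (hf : Measurable f) (h : ∀ x ∈ univ ×ˢ I, (∀ i, |e.D.Z.Dw w (c.a i - (fz v).a i) x| ^ 2 ≤ f x.2) ∧
      ‖e.D.Z.Dw w (c.Φ - (fz v).Φ) x‖ ^ 2 ≤ f x.2) : tz c v I w ≤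
      ENNReal.ofReal ((Fintype.card (Option κ) + 1) * e.D.F.μ.real univ) *
        ∫⁻ t in I, ENNReal.ofReal (f t) := by
  have m : Measurable fun t => ((Fintype.card (Option κ) : ENNReal) + 1) * ENNReal.ofReal (f t) := by
    fun_prop
  have e1 : ∀ {N : Type} [NormedAddCommGroup N] {y : N} {z : ℝ}, ‖y‖ ^ 2 ≤ z →
      ‖y‖ₑ ^ 2 ≤ ENNReal.ofReal z := fun h => by
    rw [← ofReal_norm, ← ENNReal.ofReal_pow (norm_nonneg _)]
    exact ENNReal.ofReal_le_ofReal h
  refine (setLIntegral_mono' (g := fun x : e.Y.M × ℝ => ((Fintype.card (Option κ) : ENNReal) + 1) *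
    ENNReal.ofReal (f x.2)) (MeasurableSet.univ.prod hI) fun x hx => ?_).trans (le_of_eq ?_)
  · rw [add_mul, one_mul, ← nsmul_eq_mul, ← Finset.card_univ, ← Finset.sum_const]
    exact add_le_add (Finset.sum_le_sum fun i _ => e1 ((h x hx).1 i)) (e1 (h x hx).2)
  rw [show e.D.Z.μ = e.D.F.μ.prod volume from rfl, ← Measure.prod_restrict, Measure.restrict_univ,
    lintegral_prod _ (by exact (m.comp measurable_snd).aemeasurable)]
  simp only []
  rw [lintegral_const, lintegral_const_mul _ (by fun_prop), mul_right_comm,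
    ENNReal.ofReal_mul (by positivity), ENNReal.ofReal_add (by positivity) zero_le_one,
    ENNReal.ofReal_natCast, ENNReal.ofReal_one, ofReal_measureReal]

theorem tz_union (c : e.ZC) (v : e.YC) {I I₁ I₂ : Set ℝ} (h : I ⊆ I₁ ∪ I₂) (w : List (Option κ)) :
    tz c v I w ≤ tz c v I₁ w + tz c v I₂ w :=
  (lintegral_mono_set (prod_union ▸ prod_mono_right h)).trans (lintegral_union_le _ _ _)

theorem tz_mono (c : e.ZC) (v : e.YC) {I I' : Set ℝ} (h : I ⊆ I') (w : List (Option κ)) :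
    tz c v I w ≤ tz c v I' w := lintegral_mono_set (prod_mono_right h)

theorem en_union (c : e.ZC) {I I₁ I₂ : Set ℝ} (h : I ⊆ I₁ ∪ I₂) : en c I ≤ en c I₁ + en c I₂ :=
  (lintegral_mono_set h).trans (lintegral_union_le _ _ _)

end Crest.Agent.X212.Sep15.S
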