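import Crest.Agent.X212.Sw.Cyl

/-!
# X212/Sep15/Dec1 (helper15): exponential decay in one gauge for all orders
-/

set_option autoImplicit false
noncomputable section
open Set

namespace Crest.Agent.X212.Sep15.S
open Sw Sw.En3
open Nd18 (Jv)

variable (κ lam ν : Type) [Fintype κ] [Fintype lam] [Fintype ν] [DecidableEq ν]

/-- SW-DEC with one gauge for all orders -/
def Dec1 : Prop := ∀ (e : En3 κ lam ν) (v : e.YC), e.OK → 0 < e.w → Crit v → Nd v →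
  (∃ y, v.Φ y ≠ 0) → L v ∉ e.S → ∃ δ > 0, ∃ η₀ > 0, ∃ C : ℕ → ℝ,
    ∀ (W : Type) (T : W → Option e.YT) q c p p' η, η ≤ η₀ → Loc T q c p p' →
    (∀ s, win s ⊆ Jv p p' → Nr c v s 2 η) → ∃ u, GauOn e.Z.I u (univ ×ˢ Jv p p') ∧
      ∀ k s, Ioo (s - 3) (s + 3) ⊆ Jv p p' →
        Cl (e.cyl.act u c) (fz v) (win s) k (C k * η * ex δ p p' s)

variable {κ lam ν}

theorem Dec1.dec (h : Dec1 κ lam ν) : DecStmt κ lam ν := fun e v a b c d f g =>
  let ⟨δ, h0, η₀, h1, C, h⟩ := h e v a b c d f g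
  ⟨δ, h0, η₀, h1, fun k => ⟨C k, fun W T q c p p' η a b d =>
    (h W T q c p p' η a b d).imp fun _ h => ⟨h.1, h.2 k⟩⟩⟩

end Crest.Agent.X212.Sep15.S
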