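import Crest.Agent.X212.Exc36.Loc
import Crest.Agent.X212.Lns95.Van
import Crest.Agent.X212.Eqv71.Job

/-! SPLIT (helper15): a solution seen from one side of a broken wall, by a job with other terms. -/

set_option autoImplicit false
set_option linter.unusedSectionVars false
set_option maxHeartbeats 800000
noncomputable section
open scoped Manifold ContDiff Topology InnerProductSpace
open MeasureTheory Set Function Filter

namespace Crest.Agent.X212.Sep15.Spl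
open An An.Job M Nd18 Wrd81 Eqv71 Exc36 Jb7

/-! ### supports -/

section gen
variable {E : Type} [NormedAddCommGroup E] [NormedSpace ℝ E] [FiniteDimensional ℝ E]
  [MeasurableSpace E] [BorelSpace E]
  {HM : Type} [TopologicalSpace HM] {I : ModelWithCorners ℝ E HM} [I.Boundaryless]
  {M : Type} [TopologicalSpace M] [ChartedSpace HM M] [IsManifold I ∞ M]
  [MeasurableSpace M] [BorelSpace M] [T2Space M] [SecondCountableTopology M]
  {lam : Type} [Fintype lam] {O Ω Ω' : Set M} {r r' n n' : ℕ} {ι : Type} [Fintype ι]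

theorem tf_i {f : M → ℝ} (h : Tf I Ω f) (k : Tf I Ω' f) : Tf I (Ω ∩ Ω') f :=
  ⟨h.sm, h.hcs, subset_inter h.sub k.sub⟩

theorem tv_i {f : M → Eu lam} (h : Tv I Ω f) (k : Tv I Ω' f) : Tv I (Ω ∩ Ω') f :=
  ⟨h.sm, h.hcs, subset_inter h.sub k.sub⟩

theorem sw_i {u : SW M} (h : SwIn I Ω u) (k : SwIn I Ω' u) : SwIn I (Ω ∩ Ω') u := fun t ht => by
  have a := h t ht
  have b := k t ht
  cases t
  exacts [tf_i a b, tf_i a b, trivial, trivial]

theorem ll_i {u : List (La M)} (h : LlIn I Ω u) (k : LlIn I Ω' u) : LlIn I (Ω ∩ Ω') u :=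
  fun t ht => by
    have a := h t ht
    have b := k t ht
    cases t
    exacts [tf_i a b, trivial]

theorem aw_i {ξ : AW M} (h : AwIn I Ω ξ) (k : AwIn I Ω' ξ) : AwIn I (Ω ∩ Ω') ξ := by
  obtain ⟨s, l⟩ := ξ
  refine ⟨?_, ll_i h.2 k.2⟩
  cases s
  exacts [⟨sw_i h.1.1 k.1.1, sw_i h.1.2 k.1.2⟩,
    ⟨tf_i h.1.1 k.1.1, tf_i h.1.2.1 k.1.2.1, tf_i h.1.2.2 k.1.2.2⟩]

theorem sg_i {g : Sg M lam} (h : SgIn I Ω g) (k : SgIn I Ω' g) : SgIn I (Ω ∩ Ω') g :=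
  ⟨tv_i h.1 k.1, sw_i h.2.1 k.2.1, sw_i h.2.2 k.2.2⟩

theorem co_i {d : Co M lam r} (h : CoIn I Ω d) (k : CoIn I Ω' d) : CoIn I (Ω ∩ Ω') d := by
  cases d
  exacts [trivial, ⟨sg_i h.1 k.1, fun g hg => sg_i (h.2 g hg) (k.2 g hg)⟩]

theorem tm_i {T : Tm M lam r n} (h : TmIn I Ω T) (k : TmIn I Ω' T) : TmIn I (Ω ∩ Ω') T := by
  cases T
  exacts [⟨sw_i h.1 k.1, h.2⟩, ⟨co_i h.1 k.1, tv_i h.2.1 k.2.1, sw_i h.2.2 k.2.2⟩,
    ⟨tf_i h.1 k.1, tf_i h.2.1 k.2.1, aw_i h.2.2 k.2.2⟩,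
    ⟨co_i h.1 k.1, tv_i h.2.1 k.2.1, tf_i h.2.2.1 k.2.2.1, tf_i h.2.2.2.1 k.2.2.2.1,
      sw_i h.2.2.2.2.1 k.2.2.2.2.1, sw_i h.2.2.2.2.2.1 k.2.2.2.2.2.1,
      ll_i h.2.2.2.2.2.2 k.2.2.2.2.2.2⟩,
    ⟨tf_i h.1 k.1, tf_i h.2.1 k.2.1, tf_i h.2.2.1 k.2.2.1, h.2.2.2.1, h.2.2.2.2.1,
      fun ξ j => aw_i (h.2.2.2.2.2 ξ j) (k.2.2.2.2.2 ξ j)⟩, sg_i h k, trivial]

theorem xi_i {ξ : Xi M lam r} (h : XiIn I Ω ξ) (k : XiIn I Ω' ξ) : XiIn I (Ω ∩ Ω') ξ := by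
  cases ξ
  exacts [trivial, aw_i h k, ⟨co_i h.1 k.1, tv_i h.2.1 k.2.1, sw_i h.2.2.1 k.2.2.1,
    sw_i h.2.2.2.1 k.2.2.2.1, ll_i h.2.2.2.2 k.2.2.2.2⟩]

theorem co_mp {d : Co M lam r'} (h : CoIn I Ω d) (f : Fin r' → Fin r) : CoIn I Ω (d.mp f) := by
  cases d
  exacts [trivial, h]

theorem tm_mp {T : Tm M lam r' n'} (h : TmIn I Ω T) (f : Fin r' → Fin r) (g : Fin n' → Fin n) :
    TmIn I Ω (T.mp f g) := by
  cases T
  exacts [h, ⟨co_mp h.1 f, h.2⟩, h, ⟨co_mp h.1 f, h.2⟩, h, h, h]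

/-- the term does not enter the rows `g j` -/
def Rw (g : Fin n' → Fin n) : Tm M lam r n → Prop
  | .cut i _ _ => i ∉ range g
  | .cz i _ _ => i ∉ range g
  | _ => True

theorem Rw.tS {g : Fin n' → Fin n} {T : Tm M lam r n} (h : Rw g T) (c : Cfg M ι lam r)
    (F : Fr I M ι) (j : Fin n') : c.tS F T (g j) = 0 := by
  cases T with
  | cut i => exact Pi.single_eq_of_ne (fun e => h ⟨j, e⟩) _
  | cz i => exact Pi.single_eq_of_ne (fun e => h ⟨j, e⟩) _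
  | _ => rfl

theorem rw_mp {n'' : ℕ} {g : Fin n' → Fin n} {g' : Fin n'' → Fin n} (h : ∀ i, g' i ∉ range g)
    (f : Fin r' → Fin r) (T : Tm M lam r' n'') : Rw g (T.mp f g') := by
  cases T
  exacts [trivial, trivial, trivial, trivial, trivial, h _, h _]

/-- the coordinates `f i` -/
abbrev zf (f : Fin r' → Fin r) (z : EuclideanSpace ℂ (Fin r)) : EuclideanSpace ℂ (Fin r') :=
  WithLp.toLp 2 fun i => z (f i)

/-- the spinor cut to `O` -/
abbrev ci (O : Set M) (f : Fin r' → Fin r) (c : Cfg M ι lam r) : Cfg M ι lam r' :=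
  cw c (O.indicator c.Φ) (zf f c.z)

variable (O) (f : Fin r' → Fin r) (g : Fin n' → Fin n) (c : Cfg M ι lam r) in
/-- the perturbations agree -/
structure PE (τ' : Pt M ι lam r' n') (τ : Pt M ι lam r n) : Prop where
  D : ∀ x ∈ O, τ'.D (ci O f c) x = τ.D c x
  C : ∀ x ∈ O, τ'.C (ci O f c) x = τ.C c x
  S : ∀ j, τ'.S (ci O f c) j = τ.S c (g j)

variable {f : Fin r' → Fin r} {g : Fin n' → Fin n} {c : Cfg M ι lam r}
  {τ' υ' : Pt M ι lam r' n'} {τ υ : Pt M ι lam r n}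

theorem PE.add (h : PE O f g c τ' τ) (k : PE O f g c υ' υ) : PE O f g c (τ'.add υ') (τ.add υ) :=
  ⟨fun x hx => congrArg₂ (· + ·) (h.D x hx) (k.D x hx),
    fun x hx => congrArg₂ (· + ·) (h.C x hx) (k.C x hx), fun j => congrArg₂ (· + ·) (h.S j) (k.S j)⟩

theorem PE.smul (h : PE O f g c τ' τ) (a : ℝ) : PE O f g c (τ'.smul a) (τ.smul a) :=
  ⟨fun x hx => congrArg (a • ·) (h.D x hx), fun x hx => congrArg (a • ·) (h.C x hx),
    fun j => congrArg ((a : ℂ) * ·) (h.S j)⟩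

theorem pe_dsum {K : Type} [Fintype K] {p : K → Prop} {τ' : ∀ i, p i → Pt M ι lam r' n'}
    {τ : ∀ i, p i → Pt M ι lam r n} (h : ∀ i k, PE O f g c (τ' i k) (τ i k)) :
    PE O f g c (Pt.dsum p τ') (Pt.dsum p τ) :=
  ⟨fun x hx => by simp only [Pt.dsum, fun i k => (h i k).D x hx],
    fun x hx => by simp only [Pt.dsum, fun i k => (h i k).C x hx],
    fun j => by simp only [Pt.dsum, fun i k => (h i k).S j]⟩

theorem pe_fsum {K : Type} {τ' : K → Pt M ι lam r' n'} {τ : K → Pt M ι lam r n}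
    (h : ∀ i, PE O f g c (τ' i) (τ i)) (q : K →₀ ℝ) : PE O f g c (fsum τ' q) (fsum τ q) :=
  ⟨fun x hx => by simp only [fsum, fun i => (h i).D x hx],
    fun x hx => by simp only [fsum, fun i => (h i).C x hx], fun j => by simp only [fsum, fun i => (h i).S j]⟩

theorem pe_van (h' : Van0 O τ') (h : Van0 O τ) : PE O f g c τ' τ :=
  ⟨fun x hx => (h'.D _ x hx).trans (h.D _ x hx).symm,
    fun x hx => (h'.C _ x hx).trans (h.C _ x hx).symm, fun j => (h'.S _ j).trans (h.S _ _).symm⟩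

theorem pe_zero {a : ℝ} (h : a = 0 ∨ (∀ x ∈ O, τ.D c x = 0 ∧ τ.C c x = 0) ∧ ∀ j, τ.S c (g j) = 0) :
    PE O f g c (τ'.smul 0) (τ.smul a) := by
  rcases h with rfl | h
  · exact ⟨fun _ _ => (zero_smul _ _).trans (zero_smul _ _).symm,
      fun _ _ => (zero_smul _ _).trans (zero_smul _ _).symm, fun _ => by simp [Pt.smul]⟩
  · exact ⟨fun x hx => by simp only [Pt.smul, (h.1 x hx).1, zero_smul, smul_zero],
      fun x hx => by simp only [Pt.smul, (h.1 x hx).2, zero_smul, smul_zero],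
      fun j => by simp [Pt.smul, h.2 j]⟩

theorem lo_ind {B : Base M ι lam} {G : Geo I M ι lam} (hB : B.OK I) (hG : G.OK B) (hO : IsClopen O)
    (hT : ∃ C, G.F.Tame C) (h : Ad0 c B G) (hb : ∃ C, ∀ x, ‖c.Φ x‖ ≤ C) :
    LO O B G c (O.indicator c.Φ) :=
  have s : Sb I c.Φ := ⟨h.sm, hb⟩
  ⟨hB, hG, hO, hT, h, ⟨fun _ => (indicator_of_mem · _), s.ind hO.compl, (s.ind hO).ind hO.compl⟩,
    (s.ind hO).sm⟩

theorem fix_ci {F : Fr I M ι} {O' : Set M} (k : O' ⊆ O) : Fix F (ci O f c) O' ↔ Fix F c O' :=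
  exists_congr fun _ => and_congr ⟨fun h => ⟨h.1, h.2, h.3⟩, fun h => ⟨h.1, h.2, h.3⟩⟩
    (forall₂_congr fun x hx => by rw [show (ci O f c).Φ x = c.Φ x from indicator_of_mem (k hx) _])

theorem ulim_ci {B : Base M ι lam} {α : Type} {l : Filter α} {O' : Set M}
    {e : α → ι → Π x : M, TangentSpace I x} {c : α → Cfg M ι lam r} {c₀ : Cfg M ι lam r}
    {u : ∀ i, M → CL (c i).m.V c₀.m.V} {ζ : α → Circle} (h : ULim I B l univ e c c₀ u ζ)
    (hO : IsOpen O) (k : O' ⊆ O) : ULim I B l O' e (fun i => ci O f (c i)) (ci O f c₀) u ζ :=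
  ⟨fun x _ => h.m x trivial, fun a => (h.A a).mono le_rfl (subset_univ _),
    ((h.Φ.mono le_rfl (subset_univ O)).congr' hO
      (.of_forall fun i x hx => by rw [show (ci O f (c i)).Φ x = _ from indicator_of_mem hx _])
      fun x hx => indicator_of_mem hx _).mono le_rfl k,
    ((show Continuous (zf f) by fun_prop).tendsto _).comp h.z⟩

end gen

section nk
variable {E3 : Type} [NormedAddCommGroup E3] [NormedSpace ℝ E3] [FiniteDimensional ℝ E3]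
  [MeasurableSpace E3] [BorelSpace E3]
  {H3 : Type} [TopologicalSpace H3] {I3 : ModelWithCorners ℝ E3 H3} [I3.Boundaryless]
  {Y : Type} [TopologicalSpace Y] [ChartedSpace H3 Y] [IsManifold I3 ∞ Y] [T2Space Y]
  [CompactSpace Y] [SecondCountableTopology Y] [MeasurableSpace Y] [BorelSpace Y]
  {κ lam : Type} [Fintype κ] [Fintype lam] {r r' : ℕ} {D : YD I3 Y κ lam}

theorem cls_cw {c : Cfg (Y × ℝ) (Option κ) lam r} {β : YC Y κ lam} {u : Y × ℝ → CL c.m.V β.m.V}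
    {ζ : Circle} {S : Set ℝ} {k : ℕ} {η : ℝ} (h : D.Cls c β u ζ S k η) {Φ}
    {z : EuclideanSpace ℂ (Fin r')} (h0 : ∀ x : Y × ℝ, x.2 ∈ S → Φ x = c.Φ x) :
    D.Cls (cw c Φ z) β u ζ S k η :=
  ⟨h.op, h.m, h.A, fun w hw x hx => by
    rw [Prm93.Dw_congr (v := YD.dP c β u ζ) w (((isOpen_univ.prod h.op).eventually_mem hx).mono
      fun z hz => by simp [YD.dP, h0 z hz.2])]
    exact h.P w hw x hx⟩

end nk

/-! ### jobs -/

variable {Wi : Type} {X : Mf 4} {A κ lam : Type} [Fintype A] [Fintype κ] [Fintype lam]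
  [DecidableEq lam] {M : Mark X A κ} {W : World M} {N : ML M lam}
  {Λ : Lns W N} {A' h : Type} [Fintype A'] [DecidableEq A'] [Fintype h] {r n r' n' : ℕ}

/-- the pieces on the side `b` of `a` (`Nd18.sdP`) -/
def Sd (c : M.Cl) (a : A) (b : Bool) : Set (Reg A) :=
  {π | M.sys.Piece c.1 π ∧ M.sys.U π ⊆ (M.sys.w a).sd b}

theorem mem_sd {c : M.Cl} {a : A} (ha : a ∈ c.1) (b : Bool) {x : X.M} (hx : x ∉ M.sys.cores c.1) :
    W.φ c x ∈ W.un c (Sd c a b) ↔ x ∈ (M.sys.w a).sd b := by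
  have := M.con
  refine ⟨fun k => ?_, fun k => ?_⟩
  · obtain ⟨π, h1, h2⟩ := mem_un.1 k
    exact h1.2 ((Cyl58.φ_mem_pc W.toCaps h1.1 hx).1 h2)
  · obtain ⟨π, h1, h2⟩ := Sys.exists_piece c.2 hx
    exact mem_un.2 ⟨π, ⟨h1, (M.sys.w a).subset_sd h1.toIsReg.conn
      ((h1.disjoint_cores c.2).mono_right (subset_biUnion_of_mem (u := fun a => (M.sys.w a).core) ha))
      h2 k⟩, (Cyl58.φ_mem_pc W.toCaps h1 hx).2 h2⟩

variable (J : Job Wi Λ A' h r n) (k : ℝ) (τ : Tr Wi X.M (lam ⊕ lam) h A' r' n')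

/-- the job with other terms (`Pr.jb`) -/
@[reducible] def alt : Job Wi Λ A' h r' n' :=
  { J with k := k, tw := τ.tw, co := τ.co, tc := τ.tc, cc := τ.cc }

variable (a : A) (b : Bool) (f : Fin r' → Fin r) (g : Fin n' → Fin n)

/-- the terms `τ` are the terms of `J` on the side `b` of `a` (for the cuts `H`) -/
structure TM (H : Set h) (s : A' → ℝ) : Prop where
  inj : Injective g
  tw : ∀ w, τ.co w s = J.co w s ∧ J.tw w = (τ.tw w).mp f g ∧ TmIn X.I ((M.sys.w a).sd b) (τ.tw w) ∨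
    τ.co w s = 0 ∧ (J.co w s = 0 ∨ TmIn X.I ((M.sys.w a).sd (!b)) (J.tw w) ∧ Rw g (J.tw w))
  tc : ∀ i ∈ H, ∀ w, τ.cc i w s = J.cc i w s ∧
    J.tc i w = ⟨(τ.tc i w).m, (τ.tc i w).n, (τ.tc i w).w, (τ.tc i w).ξ.mp f⟩ ∧
    XiIn X.I ((M.sys.w a).sd b) (τ.tc i w).ξ ∨ τ.cc i w s = 0 ∧ J.cc i w s = 0

variable {J} {c : M.Cl} in
/-- the part on the side `b` -/
abbrev res (y : J.Obc c) : (alt J k τ).Obc c :=
  ⟨y.s, ci (W.un c (Sd c a b)) f y.x, y.H, y.ψ, y.β, y.ζ, y.k, y.j, y.l⟩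

variable {J k τ a b f g} {c : M.Cl} {σ : Cel A'} {q : Wi →₀ ℝ} {y : J.Obc c} {π : Reg A}
  {p : Prt A A' h} {H : Set h}

theorem pc_sub (hπ : π ∈ Sd c a b) : W.pc c π ⊆ W.un c (Sd c a b) :=
  fun _ hx => mem_un.2 ⟨π, hπ, hx⟩

theorem tf_res (hπ : π ∈ Sd c a b) : (res k τ a b f y).TF π ↔ y.TF π :=
  exists_congr fun x => and_congr_right fun hx => by
    rw [show (res k τ a b f y).x.Φ x = y.x.Φ x from indicator_of_mem (pc_sub hπ hx) _]

theorem fix_res (hπ : π ∈ Sd c a b) :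
    Fix ((alt J k τ).G c y.s).F (res k τ a b f y).x (W.pc c π) ↔ Fix (J.G c y.s).F y.x (W.pc c π) :=
  fix_ci (pc_sub hπ)

theorem tm_tp {T : Tm X.M (lam ⊕ lam) r' n'} :
    (J.tp c).tm (T.mp f g) = ((J.tp c).tm T).mp f g := by
  rcases T with _ | ⟨_ | _, _⟩ | _ | ⟨_ | _, _⟩ | _ | _ | _ <;> rfl

theorem xi_tp {T : Xi X.M (lam ⊕ lam) r'} : (J.tp c).xi (T.mp f) = ((J.tp c).xi T).mp f := by
  rcases T with _ | _ | ⟨_ | _, _⟩ <;> rfl

section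
variable (hJ : J.OK) (hJ' : (alt J k τ).OK) (hσ : σ ∈ J.𝒦) (ha : a ∈ c.1) (hs : Sol σ q y)
  (T : TM J τ a b f g H y.s)
include hJ hσ hs

theorem lo : LO (W.un c (Sd c a b)) (J.B c) (J.G c y.s) y.x
    ((W.un c (Sd c a b)).indicator y.x.Φ) :=
  lo_ind (Λ.B_ok _ _) (hJ.G_ok hσ hs.ov) (isClopen_un fun _ k => k.1) (hJ.tame hσ hs.ov)
    (ad0 hs.sol.toAdm) (hs.bdd hJ hσ)

omit hJ hσ hs in
include ha in
theorem im_sub {C : Set X.M} (hC : C ⊆ (M.sys.cores c.1)ᶜ) :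
    W.φ c '' ((M.sys.w a).sd b ∩ C) ⊆ W.un c (Sd c a b) := by
  rintro _ ⟨x, hx, rfl⟩
  exact (mem_sd ha b (hC hx.2)).2 hx.1

include hJ' ha T

theorem pe_tw (w : Wi) : PE (W.un c (Sd c a b)) f g y.x
    ((An.tmP (J.B c) (J.G c y.s).F ((J.tp c).tm (τ.tw w))).smul (τ.co w y.s))
    ((An.tmP (J.B c) (J.G c y.s).F ((J.tp c).tm (J.tw w))).smul (J.co w y.s)) := by
  have L := lo (a := a) (b := b) hJ hσ hs
  by_cases h0 : J.co w y.s = 0
  · rw [show τ.co w y.s = 0 from (T.tw w).elim (fun k => k.1.trans h0) And.left]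
    exact pe_zero (.inl h0)
  rcases T.tw w with ⟨e1, e2, e3⟩ | ⟨e1, e2⟩
  · obtain ⟨V, h1, h2⟩ := hJ'.tw w
    have s := hJ'.hw_sub hσ hs.ov h2 (e1.trans_ne h0)
    have i := (hJ.tp_in hσ hs.ov (inter_subset_right.trans s)).tm (tm_i e3 h1)
    have z : ∀ i, zf f y.x.z i = y.x.z (f i) := fun _ => rfl
    rw [e1, e2, tm_tp]
    exact PE.smul ⟨fun x hx => L.tD (im_sub ha s) z g i hx, fun x hx => L.tC (im_sub ha s) z g i hx,
      fun j => L.tS (im_sub ha s) z g i T.inj j⟩ _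
  · obtain ⟨e2, e3⟩ := e2.resolve_left h0
    obtain ⟨V, h1, h2⟩ := hJ.tw w
    have s := hJ.hw_sub hσ hs.ov h2 h0
    obtain ⟨K, -, h3, h4⟩ := ((hJ.tp_in hσ hs.ov (inter_subset_right.trans s)).tm
      (tm_i e2 h1)).supp (ι := Option κ)
    rw [e1]
    refine pe_zero (.inr ⟨fun x hx => h4 _ _ _ _ fun k => ?_, fun j => Rw.tS ?_ _ _ j⟩)
    · obtain ⟨v, h5, rfl⟩ := h3 k
      exact (M.sys.w a).not_mem_sd ((mem_sd ha b (s h5.2)).1 hx) h5.1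
    · revert e3
      cases J.tw w <;> exact id

/-- the perturbations agree on the side -/
theorem pe_τ : PE (W.un c (Sd c a b)) f g y.x ((alt J k τ).τ c q y.s) (J.τ c q y.s) := by
  have L := lo (a := a) (b := b) hJ hσ hs
  refine PE.add (pe_dsum fun i hi => ?_) (pe_fsum (fun w => PE.add (pe_tw hJ hJ' hσ ha hs T w)
    (pe_dsum fun i hi => pe_fsum (fun T => ?_) _)) q) <;> have := J.conn_xs i.1 <;>
    rcases nk_dich (J.K c i.1 i.2 _ hi) L.cl with k | k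
  · exact ⟨fun x hx => (L.q1 _ k (nd_smul (hJ.xs i.1).2 _) hx).1,
      fun x hx => (L.q1 _ k (nd_smul (hJ.xs i.1).2 _) hx).2, fun _ => rfl⟩
  · exact pe_van ((van0_q1 _ _).mono k) ((van0_q1 _ _).mono k)
  · exact ⟨fun x hx => (L.q2 _ k T.2 hx).1, fun x hx => (L.q2 _ k T.2 hx).2,
      fun _ => ((van0_q2 _ _ _).S _ _).trans ((van0_q2 _ _ _).S _ _).symm⟩
  · exact pe_van ((van0_q2 _ _ _).mono k) ((van0_q2 _ _ _).mono k)

theorem σc_res {i : h} (hi : i ∈ H) (hx : (J.cut c i).x0 ∈ W.un c (Sd c a b)) :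
    (alt J k τ).σc c q y.s i (res k τ a b f y).x = J.σc c q y.s i y.x := by
  have L := lo (a := a) (b := b) hJ hσ hs
  refine Finsupp.sum_congr fun w _ => ?_
  show (_ * τ.cc i w y.s) • _ = _
  by_cases h0 : J.cc i w y.s = 0
  · rw [show τ.cc i w y.s = 0 from (T.tc i hi w).elim (fun k => k.1.trans h0) And.left, h0,
      mul_zero]
    exact (zero_smul _ _).trans (zero_smul _ _).symm
  obtain ⟨e1, e2, e3⟩ := (T.tc i hi w).resolve_right fun k => h0 k.2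
  obtain ⟨V, h1, h2⟩ := hJ'.tc i w
  have s := hJ'.hw_sub hσ hs.ov h2 (e1.trans_ne h0)
  have j := (hJ.tp_in hσ hs.ov (inter_subset_right.trans s)).xi (xi_i e3 h1)
  have z : ∀ i, zf f y.x.z i = y.x.z (f i) := fun _ => rfl
  have e := L.tc (im_sub ha s) z _ hx (t := (J.tp c).tc (τ.tc i w)) j
  rw [e1, e2]
  refine congrArg (_ • ·) (e.trans ?_)
  simp only [Tp.tc, xi_tp]

/-- **SPLIT** -/
theorem solOn (hP : p.P ⊆ Sd c a b) (hP' : p.P' ⊆ p.P)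
    (h0 : ∀ π ∈ Sd c a b, π ∉ p.P' → ¬y.TF π) (hH : p.H ⊆ y.H ∩ H)
    (hn : ∀ i ∈ p.H, J.nb i ⊆ ⋃ π ∈ p.P, M.sys.U π) (hz : r' = 0 ∨ ‖zf f y.x.z‖ = 1) :
    SolOn p σ q (res k τ a b f y) := by
  have L := lo (a := a) (b := b) hJ hσ hs
  have e := pe_τ hJ hJ' hσ ha hs T
  have u : W.un c p.P ⊆ W.un c (Sd c a b) := biUnion_subset_biUnion_left hP
  have u' : W.un c p.P' ⊆ W.un c p.P := biUnion_subset_biUnion_left hP'
  refine ⟨hs.cell, hs.inf, ⟨hs.sol.ok, hs.sol.conn, L.sm, fun x => ?_, hz⟩, fun x hx => ?_,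
    fun x hx => (L.eqs (u (u' hx)) ⟨e.D x (u (u' hx)), e.C x (u (u' hx))⟩).1.trans (hs.sol.D x),
    fun x hx => (L.eqs (u hx) ⟨e.D x (u hx), e.C x (u hx)⟩).2.trans (hs.sol.C x),
    fun j => (e.S j).trans (hs.sol.S _), fun i hi => ?_, fun a' b' ha' hb => ?_,
    fun a' ha' b' _ => hs.crit a' ha' b', hs.int.integrableOn⟩
  · show y.x.m.pp _ x (indicator _ _ x) = indicator _ _ x
    by_cases hx : x ∈ W.un c (Sd c a b)
    · rw [indicator_of_mem hx, hs.sol.pos]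
    · rw [indicator_of_notMem hx, map_zero]
  · refine indicator_apply_eq_zero.2 fun k => ?_
    obtain ⟨π, h1, h2⟩ := mem_un.1 k
    exact Obc.zero (h0 π h1 fun k' => hx (mem_un.2 ⟨π, k', h2⟩)) h2
  · have := hs.cut i (hH hi).1
    rw [Cut.Sol, ← σc_res hJ hJ' hσ ha hs T (hH hi).2 (u (hJ.cut_sub (hn i hi) ⟨(0, 0), rfl⟩))] at this
    exact this
  · obtain ⟨v, hv⟩ := hs.lim a' b' ha'
    refine ⟨v, fun j η hη => ?_⟩
    obtain ⟨S, h1, h2, h3⟩ := hv j η hη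
    exact ⟨S, h1, h2, cls_cw h3 fun x hx => indicator_of_mem (u (hJ.end_sub ha'
      (fun π k => (hP k).1) hb ((J.K c a' _ _ ha').ψ.map_source
        ((J.K c a' _ _ ha').mem_src.2 (h2 hx))))) _⟩

end

/-- **SPLIT** of strong limits -/
theorem strOn (hJ : J.OK) {α : Type} {l : Filter α} {y : α → J.Obc c} {y₀ : J.Obc c}
    (hs : Str l y y₀) (hP : p.P ⊆ Sd c a b) (hH : p.H ⊆ y₀.H) :
    StrOn p l (fun i => res k τ a b f (y i)) (res k τ a b f y₀) := by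
  have u : W.un c p.P ⊆ W.un c (Sd c a b) := biUnion_subset_biUnion_left hP
  refine ⟨hs.s, ?_, fun a' b' hb η hη => ?_⟩
  · obtain ⟨v, ζ, h1, h2⟩ := hs.lim
    exact ⟨v, ζ, ulim_ci h1 (isClopen_un fun _ k => k.1).2 u, fun i hi => h2 i (hH hi)⟩
  · obtain ⟨T, hT⟩ := hs.tail a' b' η hη
    refine ⟨T, hT.mono fun i hi ha t ht => ?_⟩
    obtain ⟨h1, v, ζ, h2⟩ := hi ha t ht
    exact ⟨h1, v, ζ, cls_cw h2 fun x hx => indicator_of_mem (u (hJ.end_sub ha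
      (fun π k => (hP k).1) hb ((J.K c a' _ _ ha).ψ.map_source
        ((J.K c a' _ _ ha).mem_src.2 (h1 hx))))) _⟩

end Crest.Agent.X212.Sep15.Spl
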