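import Crest.Agent.X212.Sep15.Top
import Crest.Agent.X212.Cyl58.Hpb
import Crest.Agent.X212.Lad50.Kh
import Crest.Agent.X212.Orx52.Exp

/-!
# X212/Sep15/All (helper15): the property `Q` of caps, with no hypothesis left
-/

set_option autoImplicit false
set_option maxHeartbeats 200000

open Set Function
open scoped ContDiff Manifold
open Crest.Agent.X212.Dr59 Crest.Agent.X212.Int54
open Crest.Agent.X212.Bb31 (Fm)

noncomputable section

namespace Crest.Agent.X212.Sep15

variable {R : CM 2} {o : Fm 2 R}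

theorem isCompact_core {A : ℂ → R} (h : H7.An o A) : IsCompact (H7.core A) :=
  Periodic.compact_of_continuous (c := 1)
    (fun t => ((h.per _ _).2 ⟨1, by simp⟩).symm) one_ne_zero
    (h.ld.contMDiff.continuous.comp Complex.continuous_ofReal)

/-- genus at least three gives a handle -/
theorem G3.hd (ho : Ori (𝓡 2) o) (g : H7.G3 o) : ∃ A B δ, H7.Hd o A B δ := by
  obtain ⟨A, h1, h2, h3⟩ := g
  have s : ∀ i, H7.core (A i) ⊆ range (A i) := fun i => range_subset_iff.2 fun t => ⟨_, rfl⟩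
  obtain ⟨A', B, δ, h, -⟩ := Orx52.hdStmt R o (H7.core (A 1) ∪ H7.core (A 2))ᶜ (A 0) ho
    ((isCompact_core (h1 1)).union (isCompact_core (h1 2))).isClosed.isOpen_compl (h1 0)
    (fun x hx => by
      rintro (k | k)
      · exact (h2 0 1 (by decide)).notMem_of_mem_left (s 0 hx) (s 1 k)
      · exact (h2 0 2 (by decide)).notMem_of_mem_left (s 0 hx) (s 2 k))
    (by
      convert h3 using 1
      ext x
      simp only [mem_sdiff, mem_compl_iff, mem_union, mem_iUnion, not_exists, Fin.forall_fin_succ,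
        IsEmpty.forall_iff, not_or]
      tauto)
  exact ⟨A', B, δ, h⟩

theorem hs_of_g3 (R : CM 2) (o : Fm 2 R) (ho : Ori (𝓡 2) o) (g : H7.G3 o) : HS R :=
  let ⟨_, _, _, h⟩ := G3.hd ho g
  Cyl58.hs h

/-- `Q` is closed under the operations of the tower -/
theorem clo : Bb31.Clo Q := clo_Q Cyl58.hpOp

/-- the top cap has the property `Q` -/
theorem base : H7.BaseQ Q := baseQ Lad50.Kh.killH1 Cyl58.hpBase hs_of_g3

/-- the join of two caps with `Q` is connected and has `b⁺ ≥ 2` -/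
theorem Q.jo {Y : CM 3} [Nonempty Y] {C₁ C₂ : End Y} {X : CM 4} (J : Jo C₁ C₂ X) (h₁ : Q Y C₁)
    (h₂ : Q Y C₂) : ConnectedSpace X ∧
      ∀ (O : Fm 4 X) (hO : Ori (𝓡 4) O), 2 ≤ Num57.bp hO :=
  haveI := h₁.2.1
  haveI := h₂.2.1
  ⟨J.conn, fun O hO => Cyl58.hpJo Y C₁ C₂ X J O hO h₁.2.2 h₂.2.2⟩

end Crest.Agent.X212.Sep15
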