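import Crest.Agent.X212.Sep15.Mono

/-!
# X212/Sep15/CvA (helper15): SW-CONV, definitions and leaves on cylinders
-/

set_option autoImplicit false
set_option linter.unusedSectionVars false
noncomputable section
open scoped Manifold ContDiff Topology InnerProductSpace
open MeasureTheory Set Function Filter

namespace Crest.Agent.X212.Sep15.S
open An Cyf70 Sw Sw.En3
open M (Mf pm)

variable {κ lam ν : Type} [Fintype κ] [Fintype lam] [Fintype ν] [DecidableEq ν]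

/-- the times beyond `a` on the side `b` -/
def ir (b : Bool) (a : ℝ) : Set ℝ := {t | a < pm b * t}

/-- the times between `a` and `r` on the side `b` -/
def iv (b : Bool) (a r : ℝ) : Set ℝ := {t | a < pm b * t ∧ pm b * t < r}

theorem isOpen_ir (b : Bool) (a : ℝ) : IsOpen (ir b a) := isOpen_lt continuous_const (by fun_prop)

theorem isOpen_iv (b : Bool) (a r : ℝ) : IsOpen (iv b a r) :=
  (isOpen_ir b a).inter (isOpen_lt (f := fun t => pm b * t) (by fun_prop) continuous_const)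

theorem pm_pm (b : Bool) (t : ℝ) : pm b * (pm b * t) = t := by cases b <;> simp [pm]

theorem iv_sub_ir {b : Bool} {a a' r : ℝ} (h : a' ≤ a) : iv b a r ⊆ ir b a' :=
  fun _ ht => h.trans_lt ht.1

theorem ir_mono {b : Bool} {a a' : ℝ} (h : a' ≤ a) : ir b a ⊆ ir b a' := fun _ ht => h.trans_lt ht

theorem iv_mono {b : Bool} {a a' r r' : ℝ} (h : a' ≤ a) (h' : r ≤ r') : iv b a r ⊆ iv b a' r' :=
  fun _ ht => ⟨h.trans_lt ht.1, ht.2.trans_le h'⟩

theorem iv_eq (b : Bool) (s d : ℝ) : Ioo (pm b * s - d) (pm b * s + d) = iv b (s - d) (s + d) := by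
  ext t
  cases b <;> simp only [iv, pm, mem_Ioo, mem_ofPred_eq, if_true, Bool.false_eq_true, if_false] <;>
    constructor <;> rintro ⟨h1, h2⟩ <;> constructor <;> linarith

theorem vol_iv (b : Bool) (a r : ℝ) : volume (iv b a r) = ENNReal.ofReal (r - a) := by
  have := iv_eq b ((a + r) / 2) ((r - a) / 2)
  rw [show (a + r) / 2 - (r - a) / 2 = a by ring, show (a + r) / 2 + (r - a) / 2 = r by ring] at this
  rw [← this, Real.volume_Ioo]
  congr 1; ring

section cyl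
variable {e : En3 κ lam ν}

/-- the distance to `v` over the times `I` (`K.tl b v c T w = tz (K.pb c) v (K.far b T) w`) -/
def tz (c : e.ZC) (v : e.YC) (I : Set ℝ) (w : List (Option κ)) : ENNReal :=
  ∫⁻ x in univ ×ˢ I, ∑ i, ‖e.D.Z.Dw w (c.a i - (fz v).a i) x‖ₑ ^ 2 +
    ‖e.D.Z.Dw w (c.Φ - (fz v).Φ) x‖ₑ ^ 2 ∂e.D.Z.μ

/-- `H^k`-closeness over the times `I` -/
def Tz (c : e.ZC) (v : e.YC) (I : Set ℝ) (k : ℕ) (ε : ℝ) : Prop :=
  ∀ w : List (Option κ), w.length ≤ k → tz c v I w ≤ ENNReal.ofReal ε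

/-- the integrand of the moment -/
def gm (c : e.ZC) (b : Bool) (l t : ℝ) : ℝ := pm b * (e.ψ (lb c t) - e.ψ l)

/-- a bound of the moment, usable once the levels are known -/
def Mom (c : e.ZC) (b : Bool) (l a m : ℝ) : Prop :=
  (∀ t ∈ ir b (a + 1), -1 ≤ pm b * (L (sl c t) - l)) → (∀ t ∈ ir b (a + 2), 0 ≤ gm c b l t) →
    (∃ r, ∀ t ∈ ir b r, gm c b l t = 0) →
    ∫⁻ t in ir b (a + 2), ENNReal.ofReal (gm c b l t) ≤ ENNReal.ofReal m

end cyl

variable (κ lam ν)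

/-- CV-SOB: Sobolev on an end; the tails of an asymptotic configuration -/
structure SobStmt : Prop where
  sob : ∀ e : En3 κ lam ν, e.OK → ∀ k, ∀ ε > 0, ∃ η > 0, ∀ (c : e.ZC) v b a, e.cyl.Adm (fz v) →
    e.cyl.AdmOn c (univ ×ˢ ir b a) → Tz c v (ir b a) (k + 4) η → Cl c (fz v) (ir b (a + 1 / 4)) k ε
  tail : ∀ (e : En3 κ lam ν) (X : Mf 4) (nc : ℕ) (B : Bg X.I X.M κ lam ν nc) (K : Nk e B) b v c,
    K.Inf b → B.Adm c → e.cyl.Adm (fz v) → K.Asy b v c → ∀ k, ∀ ε > 0,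
      ∀ᶠ a in atTop, Tz (K.pb c) v (ir b a) k ε

/-- CV-MOM: the part of the moment near the core is bounded below -/
def MomStmt : Prop := ∀ (e : En3 κ lam ν), e.OK → ∀ (X : Mf 4) (nc : ℕ) (B : Bg X.I X.M κ lam ν nc)
  (K : Nk e B) b, K.Inf b → ∀ l C a : ℝ, |K.p.getD 0| + |K.q.getD 0| + 5 ≤ a → ∃ M : ℝ, ∀ c,
    e.cyl.AdmOn (K.pb c) (univ ×ˢ K.J) →
    (∀ x ∈ univ ×ˢ K.deep 2, |x.2| < a + 2 → e.cyl.eD (K.pb c) x =
      e.b (nm (sl (K.pb c) x.2)) • e.m.ρ none x.1 ((K.pb c).Φ x) ∧ ‖e.cyl.eC (K.pb c) x‖ ≤ C) →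
    Mom (K.pb c) b l a (K.mo b l c + M)

end Crest.Agent.X212.Sep15.S
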