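import Crest.Agent.X212.Sw.Lv
import Crest.Agent.X212.Sep15.CvA

/-!
# X212/Sep15/CvD (helper15): SW-CONV, definitions and leaves
-/

set_option autoImplicit false
set_option linter.unusedSectionVars false
noncomputable section
open scoped Manifold ContDiff Topology InnerProductSpace
open MeasureTheory Set Function Filter

namespace Crest.Agent.X212.Sep15.S
open An Cyf70 Sw Sw.En3
open M (Mf pm)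

variable {κ lam ν : Type} [Fintype κ] [Fintype lam] [Fintype ν] [DecidableEq ν]

section fam
variable (d : Dt κ lam ν) {N : Type} [Fintype N] (ty : N → d.𝓔) (X : Mf 4) (nc nr : ℕ)
  (T : Type) [NormedAddCommGroup T] [NormedSpace ℝ T] [FiniteDimensional ℝ T]

/-- CV-FC: the curvature on the cores, the curvature equation on the necks -/
structure FcStmt : Prop where
  fc : ∀ (s : Pz X 0 fun i => d.e (ty i)) (𝓕 : Fam s nc T), 𝓕.OK → ∀ t₀ ∈ 𝓕.Q, ∀ C r : ℝ, ∃ B : ℝ,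
    ∀ᶠ t in 𝓝 t₀, ∀ q c, (𝓕.P t).Small 0 1 q → (𝓕.P t).bg.Adm c → (∀ x, ‖c.Φ x‖ ≤ C) →
      (𝓕.P t).ean c ≤ ENNReal.ofReal C → (𝓕.P t).bg.EqOn ((𝓕.P t).pt q) c (s.core r) →
      ∫⁻ x in s.core r, ‖(𝓕.P t).bg.fc c x‖ₑ ^ 2 ∂s.bg.F.μ ≤ ENNReal.ofReal B
  ec : ∃ C : ℝ, ∀ (P : Pc d X nc ty), P.OK → ∀ q c i, ∀ K ∈ P.nk i, P.Small 0 1 q →
    ∀ x ∈ univ ×ˢ K.deep 2, P.bg.EqOn (P.pt q) c {K.ψ x} → (d.e (ty i)).cyl.eD (K.pb c) x =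
      (d.e (ty i)).b (nm (sl (K.pb c) x.2)) • (d.e (ty i)).m.ρ none x.1 ((K.pb c).Φ x) ∧
      ‖(d.e (ty i)).cyl.eC (K.pb c) x‖ ≤ C

variable {d ty X nc T} in
/-- `C^k`-closeness on the core, in the frame of the site -/
def Cc {s : Pz X 0 fun i => d.e (ty i)} (𝓕 : Fam s nc T) (t : T) (c : Cfg X.M κ ν) (t₀ : T)
    (c₀ : Cfg X.M κ ν) (r : ℝ) (k : ℕ) (η : ℝ) : Prop :=
  ∀ w : List (Option κ), w.length ≤ k → ∀ x ∈ s.core r,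
    ‖s.bg.F.Dw w (𝓕.al t c - 𝓕.al t₀ c₀) x‖ ≤ η ∧ ‖s.bg.F.Dw w (c.Φ - c₀.Φ) x‖ ≤ η

/-- CV-SITE: the frame of the site -/
structure SiteStmt : Prop where
  /-- closeness on the core is closeness on the necks -/
  cl : ∀ (s : Pz X 0 fun i => d.e (ty i)) (𝓕 : Fam s nc T), 𝓕.OK → ∀ t ∈ 𝓕.Q, ∀ t₀ ∈ 𝓕.Q,
    ∀ c c₀ r k η, (𝓕.P t).bg.Adm c → (𝓕.P t₀).bg.Adm c₀ → Cc 𝓕 t c t₀ c₀ r k η →
    ∀ i, ∀ K ∈ s.nk i, Cl (K.pb c) (K.pb c₀) {τ ∈ K.J | |τ| ≤ r} k η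
  /-- a fixed gauge transformation -/
  act : ∀ (s : Pz X 0 fun i => d.e (ty i)) (𝓕 : Fam s nc T), 𝓕.OK → ∀ u, Gau X.I u → ∀ r k, ∀ ε > 0,
    ∃ η > 0, ∀ t ∈ 𝓕.Q, ∀ t₀ ∈ 𝓕.Q, ∀ c c₀, (𝓕.P t).bg.Adm c → (𝓕.P t₀).bg.Adm c₀ →
      Cc 𝓕 t c t₀ c₀ r k η → Cc 𝓕 t ((𝓕.P t).bg.act u c) t₀ ((𝓕.P t₀).bg.act u c₀) r k ε
  /-- locality -/
  loc : ∀ (s : Pz X 0 fun i => d.e (ty i)) (𝓕 : Fam s nc T) t t₀ c c₀ u u' r k η,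
    (∀ x ∈ s.core r, u' =ᶠ[𝓝 x] u) → Cc 𝓕 t ((𝓕.P t).bg.act u c) t₀ c₀ r k η →
      Cc 𝓕 t ((𝓕.P t).bg.act u' c) t₀ c₀ r k η
  /-- the distance -/
  dk : ∀ (s : Pz X 0 fun i => d.e (ty i)) (σ : Cel s nc nr T), σ.OK → ∀ (y₀ : σ.Pnt) k, ∀ ε > 0,
    ∃ η > 0, ∀ᶠ r in atTop, ∃ η' > 0, ∀ y : σ.Pnt, ‖y.1.1 - y₀.1.1‖ ≤ η' →
      Cc σ.toFam y.1.1 y.1.2 y₀.1.1 y₀.1.2 r k η' →
      (∀ i b, ∀ K ∈ s.nk i, K.Inf b → Tz (K.pb y.1.2) (σ.β i b) (ir b r) k η) → σ.dk k y y₀ ≤ ε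

end fam

end Crest.Agent.X212.Sep15.S
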