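import Crest.Agent.X212.Sep15.Cv
import Crest.Agent.X212.Brk46.Main
import Crest.Agent.X212.Cvf40.Main
import Crest.Agent.X212.Sm10.Site
import Crest.Agent.X212.St29.Mom

/-!
# X212/Sep15/Brk (helper15): SW-BRK assembled
-/

set_option autoImplicit false
noncomputable section

namespace Crest.Agent.X212.Sep15.S
open Sw
open M (Mf)

variable {κ lam ν : Type} [Fintype κ] [Fintype lam] [Fintype ν] [DecidableEq ν]

/-- **SW-BRK** -/
theorem brkStmt (hW : WinStmt κ lam ν) (hD : DlStmt κ lam ν) (hR : DriftStmt κ lam ν)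
    (hC : Dec1 κ lam ν) (hL : ∀ (d : Dt κ lam ν) [Fintype d.𝓔] (Sl : Type) [Fintype Sl] (X : Mf 4)
      (nc : ℕ) (T : Type) [NormedAddCommGroup T] [NormedSpace ℝ T] [FiniteDimensional ℝ T],
      LocStmt d (Prod.fst : d.𝓔 × Sl → d.𝓔) X nc T) : BrkStmt κ lam ν :=
  Brk46.brk hD hR hW hC.dec fun d _ Sl _ Γ C η₀ _ =>
    (conv hW hD hC (St29.Mom.mom κ lam ν hD) d Sl Γ C).imp fun _ h => ⟨h.1, fun X nc nr T _ _ _ =>
      h.2 η₀ X nc nr T (hL d Sl X nc T) (Cvf40.fcStmt X nc d _ T) (Sm10.Cv.site X nc nr d _ T)⟩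

end Crest.Agent.X212.Sep15.S

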