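import Crest.Agent.X212.Sep15.Hh
import Crest.Agent.X212.Hm83.Poi

/-!
# X212/Sep15/Eqv (helper15): SW-EQV, gauge transformations between points of a cell are allowed
-/

set_option autoImplicit false
set_option linter.unusedSectionVars false
set_option maxHeartbeats 200000
noncomputable section
open scoped Manifold ContDiff Topology InnerProductSpace
open MeasureTheory Set Function Filter

namespace Crest.Agent.X212.Sep15.S
open An Cyf70 Sw Sw.En3 Sob92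
open Wz78 (SA)
open Neck67 (Lb)
open Nd18 (Jv)

variable {κ lam ν : Type} [Fintype κ] [Fintype lam] [Fintype ν] [DecidableEq ν]

/-- complex scalars as a bilinear map -/
def csB (J : En ν) : ℂ →L[ℝ] Eu ν →L[ℝ] Eu ν :=
  Complex.reCLM.smulRight 1 + Complex.imCLM.smulRight J

theorem csB_apply (J : En ν) (z : ℂ) (v : Eu ν) : csB J z v = cs J z v := by simp [csB, cs]

theorem cs_eq_zero {J : En ν} (h1 : J * J = -1) (h2 : Skw J) {z : ℂ} {v : Eu ν} (hv : v ≠ 0)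
    (h : cs J z v = 0) : z = 0 := by
  have a : ⟪v, J v⟫_ℝ = 0 := by linarith [h2 v v, real_inner_comm v (J v)]
  have b := congrArg (⟪v, ·⟫_ℝ) h
  simp only [cs, inner_add_right, real_inner_smul_right, a, mul_zero, add_zero, inner_zero_right,
    mul_eq_zero, inner_self_eq_zero, hv, or_false] at b
  rw [cs, b, zero_smul, zero_add, smul_eq_zero] at h
  refine Complex.ext b (h.resolve_right fun k => hv (neg_eq_zero.1 ?_))
  exact (congrArg (· v) h1).symm.trans ((congrArg J k).trans (map_zero J))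

variable {e : En3 κ lam ν}

/-- the Poincaré inequality for complex functions, with a spinor as a weight -/
theorem poi_cs (h : e.OK) {φ : e.Y.M → Eu ν} (hφ : Sm e.Y.I φ) {y₀ : e.Y.M} (h0 : φ y₀ ≠ 0) :
    ∃ c ≥ 0, ∀ (ξ : e.Y.M → ℂ) (g : e.Y.M → ℝ), Sm e.Y.I ξ → Continuous g →
      (∀ y, ∑ a, ‖e.D.F.D a ξ y‖ ^ 2 + ‖cs e.m.J (ξ y) (φ y)‖ ^ 2 ≤ g y) →
      ∫ y, ‖ξ y‖ ^ 2 ∂e.D.F.μ ≤ c * ∫ y, g y ∂e.D.F.μ := by
  obtain ⟨c, c0, hc⟩ := Hm83.poi_gen e.D.F (fun _ => e.Y.dim.le.trans (by norm_num))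
    (V := ℂ) (A := fun _ _ => 0) (fun _ => contMDiff_const) (fun _ _ v w => by simp)
    (T := fun y => (csB e.m.J).flip (φ y)) (fun y => sa_clm _ (hφ y)) fun ξ hξ h1 h2 =>
      funext fun y => (const_of_D e.D.F.toPre hξ (fun a x => (add_zero _).symm.trans (h1 a x))
        y y₀).trans (cs_eq_zero h.cyl.m.Jsq h.cyl.m.Jsk h0 ((csB_apply _ _ _).symm.trans (h2 y₀)))
  refine ⟨c, c0, fun ξ g a b k => hc ξ g a b fun y => le_trans (le_of_eq ?_) (k y)⟩
  simp only [Wz78.nab, zero_apply, add_zero, ContinuousLinearMap.flip_apply,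
    csB_apply]
  rfl

theorem sa_sl' {N : Type} [NormedAddCommGroup N] [NormedSpace ℝ N] {f : e.Y.M × ℝ → N} {J : Set ℝ}
    (hf : ∀ x ∈ univ ×ˢ J, SA (IC e.Y.I) f x) {s : ℝ} (hs : s ∈ J) :
    Sm e.Y.I fun y => f (y, s) := fun y =>
  (hf (y, s) ⟨trivial, hs⟩).comp y (contMDiffAt_id.prodMk contMDiffAt_const)

/-- integrability from an inequality on the slices -/
theorem l0_of_slices {N : Type} [NormedAddCommGroup N] [NormedSpace ℝ N] {f : e.Y.M × ℝ → N}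
    {g : e.Y.M × ℝ → ℝ} {J : Set ℝ} (hJ : IsOpen J) (hf : ∀ x ∈ univ ×ˢ J, SA (IC e.Y.I) f x)
    (hg : IntegrableOn g (univ ×ˢ J) e.D.Z.μ) {c : ℝ}
    (h : ∀ t ∈ J, ∫ y, ‖f (y, t)‖ ^ 2 ∂e.D.F.μ ≤ c * ∫ y, g (y, t) ∂e.D.F.μ) :
    L0 e.D.Z.toPre (univ ×ˢ J) f := by
  have hO := isOpen_univ (X := e.Y.M).prod hJ
  have m := (aesm (F := e.D.Z.toPre) hO hf).norm.pow 2
  have e1 : e.D.Z.μ.restrict (univ ×ˢ J) = e.D.F.μ.prod (volume.restrict J) := by
    rw [show e.D.Z.μ = e.D.F.μ.prod volume from rfl, ← Measure.prod_restrict, Measure.restrict_univ]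
  rw [L0.iff hO hf, IntegrableOn]
  rw [IntegrableOn, e1] at hg
  rw [e1] at m ⊢
  refine (integrable_prod_iff' m).2 ⟨(ae_restrict_mem hJ.measurableSet).mono fun t ht =>
    integrable_Y ((sa_sl' hf ht).continuous.norm.pow 2), (hg.integral_prod_right.const_mul c).mono'
      m.norm.prod_swap.integral_prod_right' ((ae_restrict_mem hJ.measurableSet).mono fun t ht => ?_)⟩
  rw [Real.norm_of_nonneg (integral_nonneg fun _ => norm_nonneg _)]
  simpa only [Pi.pow_apply, norm_pow, norm_norm] using h t ht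

section nk
variable {X : M.Mf 4} {nc : ℕ} {b : Bg X.I X.M κ lam ν nc} (K : Nk e b)
  {N : Type} [NormedAddCommGroup N] [NormedSpace ℝ N]

theorem isOpen_far (s : Bool) (T : ℝ) : IsOpen (K.far s T) :=
  (isOpen_Jv _ _).inter (isOpen_lt continuous_const (by fun_prop))

theorem far_mono (s : Bool) {T T' : ℝ} (h : T ≤ T') : K.far s T' ⊆ K.far s T :=
  fun _ ht => ⟨ht.1, h.trans_lt ht.2⟩

theorem far_src (s : Bool) (T : ℝ) : univ ×ˢ K.far s T ⊆ K.ψ.source :=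
  K.src ▸ prod_mono_right inter_subset_left

theorem sa_pb {f : X.M → N} (hf : Sm X.I f) {x : e.Y.M × ℝ} (hx : x ∈ K.ψ.source) :
    SA (IC e.Y.I) (fun x => f (K.ψ x)) x := (hf _).comp x (iso_smAt K.iso hx)

theorem lb_pb {f : X.M → N} (hf : b.F.Cb f) {O : Set (e.Y.M × ℝ)} (hO : O ⊆ K.ψ.source) (k : ℕ) :
    ∃ C, Lb e.D.Z.toPre O k (fun x => f (K.ψ x)) C :=
  let ⟨C, h1, h2⟩ := hf
  ⟨C k, Lb.of_Dw (fun _ hx => sa_pb K h1 (hO hx)) fun w hw x hx =>
    (iso_Dw' K.iso w h1 (fun _ _ => rfl) (hO hx)).symm ▸ h2 k w hw _⟩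

/-- convergence at an end in the calculus `Lq` -/
theorem asy_lq {s : Bool} {v : e.YC} {c : Sw.Cfg X.M κ ν} (h : K.Asy s v c) (hc : b.Adm c)
    (hv : e.cyl.Adm (fz v)) : ∃ T, ∀ T' ≥ T, ∀ k,
      (∀ i, Lq e.D.Z.toPre (univ ×ˢ K.far s T') k fun x => c.a i (K.ψ x) - (fz v).a i x) ∧
      Lq e.D.Z.toPre (univ ×ˢ K.far s T') k fun x => c.Φ (K.ψ x) - v.Φ x.1 := by
  obtain ⟨T, h1, h2⟩ := h
  have hO := isOpen_univ (X := e.Y.M).prod (isOpen_far K s T)
  exact ⟨T, fun T' hT k => ⟨fun i => (Lq.of_hh hO k (fun _ hx =>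
    (sa_pb K (hc.sa i) (far_src K s T hx)).sub (hv.sa i _)) (h1 i)).sub
      (prod_mono_right (far_mono K s hT)), (Lq.of_hh hO k (fun _ hx =>
    (sa_pb K hc.sΦ (far_src K s T hx)).sub (hv.sΦ _)) h2).sub (prod_mono_right (far_mono K s hT))⟩⟩

end nk

/-- **SW-EQV** -/
theorem eqv (hP : PbStmt κ lam ν) : EqvStmt κ lam ν := by
  intro X nc N _ e P h β hβ hi c u hc hu hc'
  refine ⟨hu, fun i s K hK hs => ?_⟩
  have hv := (hβ i s ⟨K, hK, hs⟩).1
  obtain ⟨y₀, h0⟩ := hi i s ⟨K, hK, hs⟩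
  obtain ⟨T₁, h1⟩ := asy_lq K (hc.2 i s K hK hs) hc.1 hv
  obtain ⟨T₂, h2⟩ := asy_lq K (hc'.2 i s K hK hs) hc'.1 hv
  replace h1 := h1 _ (le_max_left T₁ T₂)
  replace h2 := h2 _ (le_max_right T₁ T₂)
  refine ⟨max T₁ T₂, ?_⟩
  have hJ := isOpen_far K s (max T₁ T₂)
  have hO := isOpen_univ (X := (e i).Y.M).prod hJ
  have sr := far_src K s (max T₁ T₂)
  obtain ⟨-, -, cb⟩ := hP.eqv X nc N e P h β hβ
  let L : ℝ →L[ℝ] ℂ := (ContinuousLinearMap.id ℝ ℝ).smulRight Complex.I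
  have su : ∀ x ∈ univ ×ˢ K.far s (max T₁ T₂), SA _ (fun x => u (K.ψ x)) x :=
    fun x hx => sa_pb K hu.1 (sr hx)
  have du : ∀ j, ∀ x ∈ univ ×ˢ K.far s (max T₁ T₂), (e i).D.Z.D j (fun x => u (K.ψ x)) x =
      L (c.a j (K.ψ x) - (P.bg.act u c).a j (K.ψ x)) * u (K.ψ x) := fun j x hx => by
    refine (iso_D_comp K.iso (sr hx) ((hu.1 _).mdifferentiableAt (by simp)) j).trans
      ((D_unit (hu.1 _) (.of_forall hu.2) j).trans ?_)
    simp only [L, Bg.act, sub_sub_cancel, ContinuousLinearMap.smulRight_apply,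
      ContinuousLinearMap.id_apply, Complex.real_smul]
    ring
  have lu := lb_unit hO (fun x hx => ⟨su x hx, hu.2 _⟩) du fun k j => by
    obtain ⟨C, a⟩ := lb_pb K ((cb c hc).1 j) sr k
    obtain ⟨C', a'⟩ := lb_pb K ((cb _ hc').1 j) sr k
    exact ⟨_, (a.sub' hO a').clm hO L⟩
  have sf : ∀ x ∈ univ ×ˢ K.far s (max T₁ T₂), SA _ (fun x => u (K.ψ x) - 1) x :=
    fun x hx => (su x hx).sub contMDiffAt_const
  have df : ∀ k j, Lq (e i).D.Z.toPre (univ ×ˢ K.far s (max T₁ T₂)) k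
      ((e i).D.Z.D j fun x => u (K.ψ x) - 1) := fun k j =>
    (Lq.bil hO (ContinuousLinearMap.mul ℝ ℂ) (lu k).choose_spec
      ((((h1 k).1 j).sub' hO ((h2 k).1 j)).clm hO L)).congr hO fun x hx => by
        rw [Pre.D_def, Wz78.dv_sub' (su x hx) contMDiffAt_const, dv_const, ← Pre.D_def, du j x hx,
          sub_sub_sub_cancel_right, Pi.zero_apply, sub_zero, mul_comm]
        rfl
  have z : Lq (e i).D.Z.toPre (univ ×ˢ K.far s (max T₁ T₂)) 0
      fun x => cs (e i).m.J (u (K.ψ x) - 1) ((β i s).Φ x.1) :=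
    ((h2 0).2.sub' hO (Lq.bil hO (csB (e i).m.J) (lu 0).choose_spec (h1 0).2)).congr hO
      fun x _ => by
        simp only [Bg.act, K.hJ, ← csB_apply, map_sub, sub_apply]
        rw [csB_apply _ 1]
        simp [cs]
  obtain ⟨C, -, hC⟩ := poi_cs (h.en i) (sm_Φ hv) h0
  have l0 := l0_of_slices hJ sf (g := fun x => ∑ a, ‖(e i).D.Z.D (some a)
      (fun x => u (K.ψ x) - 1) x‖ ^ 2 + ‖cs (e i).m.J (u (K.ψ x) - 1) ((β i s).Φ x.1)‖ ^ 2)
    (by exact (integrable_finsetSum Finset.univ fun a _ => (L0.iff hO (df 0 _).1).1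
      (df 0 (some a))).add ((L0.iff hO z.1).1 z)) fun t ht => hC _ _ (sa_sl' sf ht)
      ((continuous_finsetSum _ fun a _ => (sa_sl' (df 0 (some a)).1 ht).continuous.norm.pow 2).add
        ((sa_sl' z.1 ht).continuous.norm.pow 2)) fun y => le_of_eq (by
          simp only [← D_some_at (e i).D.F.toPre (sf (y, t) ⟨trivial, ht⟩).md]
          rfl)
  refine Lq.hh hO fun k => ?_
  cases k
  exacts [l0, ⟨l0, df _⟩]

end Crest.Agent.X212.Sep15.S
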