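import Crest.Agent.X212.Sep15.Pg
import Crest.Agent.X212.Pb50.Rep

/-!
# X212/Sep15/Cv (helper15): SW-CONV, bounded moments give strong convergence
-/

set_option autoImplicit false
set_option linter.unusedSectionVars false
set_option maxHeartbeats 200000
noncomputable section
open scoped Manifold ContDiff Topology InnerProductSpace
open MeasureTheory Set Function Filter

namespace Crest.Agent.X212.Sep15.S
open An Cyf70 Sw Sw.En3
open M (Mf pm)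

variable {κ lam ν : Type} [Fintype κ] [Fintype lam] [Fintype ν] [DecidableEq ν]
  {X : Mf 4} {nc nr : ℕ}

theorem ev_sub {p : ℝ → Prop} (h : ∀ᶠ r in atTop, p r) (c : ℝ) : ∀ᶠ r in atTop, p (r - c) :=
  (tendsto_atTop_add_const_right _ (-c) tendsto_id).eventually h

theorem tz_cl (e : En3 κ lam ν) {η : ℝ} (h : 0 < η) : ∀ᶠ ε in 𝓝[>] 0, ∀ (c : e.ZC) v b s k,
    Cl c (fz v) (iv b (s - 3 / 4) (s + 3 / 4)) k ε → Tz c v (iv b (s - 3 / 4) (s + 3 / 4)) k η := by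
  set K := (Fintype.card (Option κ) + 1) * e.D.F.μ.real univ
  have t : Tendsto (fun ε : ℝ => K * (ε ^ 2 * (3 / 2))) (𝓝[>] 0) (𝓝 0) :=
    (Continuous.tendsto' (by fun_prop) 0 _ (by simp)).mono_left nhdsWithin_le_nhds
  filter_upwards [t.eventually (Iic_mem_nhds h)] with ε hε c v b s k hc w hw
  refine (tz_le (isOpen_iv _ _ _).measurableSet (f := fun _ => ε ^ 2) measurable_const fun x hx =>
    ⟨fun i => pow_le_pow_left₀ (abs_nonneg _) ((hc w hw x hx).1 i) 2,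
      pow_le_pow_left₀ (norm_nonneg _) (hc w hw x hx).2 2⟩).trans ?_
  rw [setLIntegral_const, vol_iv, ← ENNReal.ofReal_mul (by positivity),
    ← ENNReal.ofReal_mul (by positivity), show s + 3 / 4 - (s - 3 / 4) = 3 / 2 by ring]
  exact ENNReal.ofReal_le_ofReal hε

section fam
variable {d : Dt κ lam ν} {N : Type} [Fintype N] {ty : N → d.𝓔}
  {T : Type} [NormedAddCommGroup T] [NormedSpace ℝ T] [FiniteDimensional ℝ T]
  {s : Pz X 0 fun i => d.e (ty i)} {ι : Type} {l : Filter ι}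

theorem fo_far {𝓕 : Fam s nc T} (h : 𝓕.OK) {q : ι → d.W →₀ ℝ} {q₀ : d.W →₀ ℝ} (hq : St.Cv l q q₀) :
    ∀ᶠ a in atTop, ∀ j b, ∀ K ∈ s.nk j, K.Inf b → a0 K + 5 ≤ a ∧
      ∀ w, (w ∈ q₀.support ∨ ∃ i, w ∈ (q i).support) → ∀ t ∈ 𝓕.Q, ∀ x ∈ univ ×ˢ ir b a,
        (𝓕.P t).fo w (K.ψ x) = 0 := by
  classical
  choose r hr using h.cfo
  obtain ⟨J, hJ, -⟩ := hq
  refine ev_ends fun j b K h1 h2 => ?_
  filter_upwards [(eventually_all_finset (J ∪ q₀.support)).2 fun w _ => eventually_ge_atTop (r w),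
    eventually_ge_atTop (a0 K + 5)] with a k1 k2
  refine ⟨k2, fun w hw t ht x hx => hr w t ht _ fun k => k j b K h1 h2 ⟨x, ⟨trivial,
    ir_J K h2 (by linarith) hx.2, (k1 w ?_).trans_lt hx.2⟩, rfl⟩⟩
  by_cases k : w ∈ J
  · exact Finset.mem_union_left _ k
  · refine Finset.mem_union_right _ (hw.elim id fun ⟨i, hi⟩ => ?_)
    rwa [Finsupp.mem_support_iff, ← hJ i w k, ← Finsupp.mem_support_iff]

variable {σ : Cel s nc nr T} (hS : SiteStmt d ty X nc nr T) (h : σ.OK) {y : ι → σ.Pnt} {a : ℝ}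
  (ha : ∀ j b, ∀ K ∈ s.nk j, K.Inf b → a0 K + 5 ≤ a)
  (hT : ∀ k, ∀ ε > 0, ∀ᶠ R in atTop, ∀ᶠ i in l, ∀ j b, ∀ K ∈ s.nk j, K.Inf b →
    TP (K.pb (y i).1.2) (σ.β j b) b a R k ε)
  {t₀ : T} {c₀ : Cfg X.M κ ν} (ht : t₀ ∈ σ.Q) (hc : (σ.P t₀).bg.Adm c₀)

variable (y t₀ c₀ l) in
/-- local convergence -/
def LC : Prop := ∀ (r : ℝ) (k : ℕ), ∀ η > 0, ∀ᶠ i in l, ∃ u, Gau X.I u ∧
  Cc σ.toFam (y i).1.1 ((σ.P (y i).1.1).bg.act u (y i).1.2) t₀ c₀ r k η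

include hS h ht hc

theorem cc_nk (z : σ.Pnt) {u : X.M → ℂ} (hu : Gau X.I u) {r η x : ℝ} {k : ℕ}
    (e : Cc σ.toFam z.1.1 ((σ.P z.1.1).bg.act u z.1.2) t₀ c₀ r k η) {j : N} {b : Bool}
    {K : Nk (d.e (ty j)) s.bg} (h1 : K ∈ s.nk j) (h2 : K.Inf b) (hx : a0 K ≤ x) :
    Cl ((d.e (ty j)).cyl.act (fun x => u (K.ψ x)) (K.pb z.1.2)) (K.pb c₀) (iv b x r) k η :=
  have m := (iv_sub_ir (r := r) le_rfl).trans (ir_J K h2 hx)
  ((f_act h.toOK z.2.1 h1 u _).symm.mono m).cl (isOpen_iv _ _ _) (cl_mono (hS.cl s _ h.toOK _ z.2.1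
    _ ht _ _ r k η (Pb50.adm_of fun x => (Pb50.LA.of_adm z.2.2.1 x).act (h.ok _ z.2.1).bg (hu.1 x))
    hc e j K h1) (fun τ hτ => ⟨m hτ, by
      rw [← pm_abs b, abs_of_pos (((a0_nonneg K).trans hx).trans_lt hτ.1)]; exact hτ.2.le⟩) le_rfl le_rfl)

include ha hT in
/-- the limit has the right limits in some gauge -/
theorem as_lim [l.NeBot] (hC : Dec1 κ lam ν) (hL : LC l y t₀ c₀) {q : d.W →₀ ℝ}
    (hE : ∀ j b, ∀ K ∈ s.nk j, K.Inf b →
      (d.e (ty j)).cyl.EqOn (pt (fun w => d.yt w (ty j)) q) (K.pb c₀) (univ ×ˢ ir b a)) :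
    ∃ V, Gau X.I V ∧ (σ.P t₀).As σ.β ((σ.P t₀).bg.act V c₀) := by
  have H := h.site.en
  have gd := fun j b K h1 h2 => h.gd j b ⟨K, h1, h2⟩
  have ad : ∀ {j b x}, ∀ K ∈ s.nk j, K.Inf b → a - 5 ≤ x →
      (d.e (ty j)).cyl.AdmOn (K.pb c₀) (univ ×ˢ ir b x) := fun K h1 h2 hx => admOn_mono
    (f_adm h.toOK ht h1 hc) (prod_mono_right (ir_J K h2 (by linarith [ha _ _ K h1 h2])))
  have W : ∀ x x' k, a ≤ x → ∀ ε > 0, ∀ᶠ i in l, ∃ u, Gau X.I u ∧ ∀ j b, ∀ K ∈ s.nk j, K.Inf b →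
      ∀ G ε₁, ε₁ ≤ 1 → GauOn (d.e (ty j)).Z.I G (univ ×ˢ iv b x x') →
      Cl ((d.e (ty j)).cyl.act G (K.pb (y i).1.2)) (fz (σ.β j b)) (iv b x x') k ε₁ →
      Cl ((d.e (ty j)).cyl.act (fun z => G z * star (u (K.ψ z))) (K.pb c₀)) (fz (σ.β j b))
        (iv b x x') k (ε₁ + ε) := fun x x' k hx ε hε => by
    obtain ⟨η, h0, hη⟩ := ex_small (ev_ends fun j b K h1 h2 => trf (y := x') (H j)
      (gd j b K h1 h2).crit.1 (ad K h1 h2 le_rfl) (show a - 5 < x by linarith) k hε)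
    refine (hL x' k η h0).mono fun i ⟨u, hu, e⟩ => ⟨u, hu, fun j b K h1 h2 G ε₁ k1 k2 k3 => ?_⟩
    have k4 : a0 K ≤ x := by linarith [ha _ _ K h1 h2]
    have m := (iv_sub_ir (r := x') le_rfl).trans (ir_J K h2 k4)
    exact hη j b K h1 h2 _ _ G ε₁ k1 (admOn_mono (f_adm h.toOK (y i).2.1 h1 (y i).2.2.1)
      (prod_mono_right m)) (gauOn_ψ K hu m) k2 (cc_nk hS h ht hc (y i) hu e h1 h2 k4) k3
  obtain ⟨η₁, e1, p1⟩ := ex_small (pg h.site h.gd 0 one_pos)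
  obtain ⟨η₂, e2, p2⟩ := ex_small (ev_ends fun j b K h1 h2 =>
    dec_half hC (H j) (h.w0.trans_eq K.hw) (gd j b K h1 h2) e1)
  set ε := min 1 (min η₁ η₂ / 2)
  have e3 : 0 < ε := by positivity
  have e4 : ε + ε ≤ min η₁ η₂ := by linarith [min_le_right 1 (min η₁ η₂ / 2)]
  obtain ⟨R, p3, hR⟩ := ((hT 0 ε e3).and (eventually_ge_atTop (a + 1))).exists
  obtain ⟨i, ⟨u, hu, p4⟩, p5⟩ :=
    ((W (R + 4 - 3 / 4) (R + 4 + 3 / 4) 0 (by linarith) ε e3).and p3).exists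
  obtain ⟨w, w1, -, w2⟩ := glue h.site (show a - 1 < a by linarith) (w := fun x => star (u x))
    ⟨fun x => Pb50.sa_star (hu.1 x), fun x => (norm_star _).trans (hu.2 x)⟩
    (Q := fun j b K g => Cl ((d.e (ty j)).cyl.act g (K.pb c₀)) (fz (σ.β j b))
      (iv b (R + 4 - 3 / 4) (R + 4 + 3 / 4)) 0 η₁) fun j b K h1 h2 => by
      obtain ⟨G, r, g1, g2, g3, -⟩ := (p5 j b K h1 h2).2
      have k : a0 K ≤ a - 1 := by linarith [ha _ _ K h1 h2]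
      exact ⟨k, _, gauOn_mul (gauOn_star (gauOn_ψ K hu (ir_J K h2 k))) (gauOn_of g1 _),
        fun x hx => by simp only [g2 x (.inl hx.2.2.le), one_mul],
        cl_mono (p4 j b K h1 h2 G ε (min_le_left _ _) (gauOn_of g1 _) (cl_mono g3
          (iv_sub_ir (by linarith)) le_rfl le_rfl)) Subset.rfl le_rfl (e4.trans (min_le_left _ _))⟩
  obtain ⟨V, v1, -, v2⟩ := p1 (R + 4) c₀ w (fun j b K G => ∀ w, tz ((d.e (ty j)).cyl.act G (K.pb c₀))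
    (σ.β j b) (ir b (R + 3)) w ≠ ⊤) w1 fun j b K h1 h2 => by
      obtain ⟨g, g1, g2⟩ := w2 j b K h1 h2
      obtain ⟨G, g3, g4, g5⟩ := p2 j b K h1 h2 _ _ q _ b R (ad K h1 h2 (by linarith))
        (fun x hx => hE j b K h1 h2 x (prod_mono_right (ir_mono (by linarith)) hx)) fun τ hτ => by
          obtain ⟨i, ⟨u, hu, k1⟩, k2⟩ :=
            ((W (pm b * τ - 1) (pm b * τ + 1) 2 (by linarith) ε e3).and p3).exists
          obtain ⟨G, k3, k4⟩ := (k2 j b K h1 h2).1 τ hτ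
          have k5 := k1 j b K h1 h2 G ε (min_le_left _ _)
          rw [← iv_eq'] at k5
          exact ⟨_, gauOn_mul (gauOn_star (gauOn_ψ K hu ((iv_eq' b _ _).trans_subset
            ((iv_sub_ir le_rfl).trans (ir_J K h2 (by linarith [ha _ _ K h1 h2])))))) k3,
            cl_mono (k5 k3 k4) Subset.rfl le_rfl (e4.trans (min_le_right _ _))⟩
      exact ⟨by linarith [ha _ _ K h1 h2], f_adm h.toOK ht h1 hc, (ag_act (isOpen_iv _ _ _)
        (fun x hx => g1 x ⟨trivial, iv_sub_ir (by linarith) hx.2⟩) _).cl (isOpen_iv _ _ _) g2, G,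
        gauOn_mono g3 (prod_mono_right (ir_mono (by linarith))),
        cl_mono g4 (iv_sub_ir (by linarith)) le_rfl le_rfl, g5⟩
  have A := Pb50.adm_of fun x => (Pb50.LA.of_adm hc x).act (h.ok _ ht).bg (v1.1 x)
  refine ⟨V, v1, (f_as h.toOK ht).2 ⟨A, fun j b K h1 h2 => ?_⟩⟩
  obtain ⟨-, G, g1, g2⟩ := v2 j b K h1 h2
  have k : a0 K ≤ R + 4 + 1 / 2 := by linarith [ha _ _ K h1 h2]
  have o := isOpen_ir b (R + 4 + 1 / 2)
  refine asy_of K h2 k (gd j b K h1 h2).crit.1 (f_adm h.toOK ht h1 A) fun w => ?_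
  rw [(((f_act h.toOK ht h1 V c₀).mono (ir_J K h2 k)).trans
    (ag_act o (fun x hx => g2 x (le_of_lt hx.2)) _)).tz o]
  exact ne_top_of_le_ne_top (g1 w) (tz_mono _ _ (ir_mono (by linarith)) w)

omit ht hc in
include ha hT in
/-- strong convergence -/
theorem cvg {y₀ : σ.Pnt} (hL : LC l y y₀.1.1 y₀.1.2)
    (h0 : Tendsto (fun i => (y i).1.1) l (𝓝 y₀.1.1)) : σ.Cvg l y y₀ := fun k ε hε => by
  have H := h.site.en
  have gd := fun j b K h1 h2 => h.gd j b ⟨K, h1, h2⟩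
  obtain ⟨η, e0, p0⟩ := hS.dk s σ h y₀ k ε hε
  obtain ⟨ε₁, e1, p1⟩ := ex_small (ev_ends (P := s) fun j b K _ _ => tz_cl (d.e (ty j)) (half_pos e0))
  obtain ⟨η₁, e2, p2⟩ := ex_small (pg h.site h.gd k e1)
  obtain ⟨r, ⟨η', e3, p3⟩, p4, p5, hr⟩ := (p0.and ((ev_sub (hT k _ (lt_min e2 (half_pos e0))) 1).and
    ((ev_ends fun j b K h1 h2 => show ∀ᶠ r in atTop, Cl (K.pb y₀.1.2) (fz (σ.β j b))
      (ir b (r - 5 + 4)) k (η₁ / 2) by
        obtain ⟨η₂, e4, p⟩ := sob (H j) k (half_pos e2)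
        filter_upwards [ev_sub (tail K h2 (((f_as h.toOK y₀.2.1).1 y₀.2.2).2 j b K h1 h2) _ e4) 5,
          eventually_ge_atTop (a0 K + 5)] with r k1 k2
        exact p _ _ b _ (gd j b K h1 h2).crit.1 (admOn_mono (f_adm h.toOK y₀.2.1 h1 y₀.2.2.1)
          (prod_mono_right (ir_J K h2 (by linarith)))) k1).and (eventually_ge_atTop a)))).exists
  filter_upwards [hL (r + 5 / 8 + 3 / 4) k _ (lt_min e3 (half_pos e2)), p4,
    (tendsto_iff_norm_sub_tendsto_zero.1 h0).eventually (Iic_mem_nhds e3)] with i ⟨u, hu, k1⟩ k2 k3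
  have o := fun b => isOpen_iv b (r + 5 / 8 - 3 / 4) (r + 5 / 8 + 3 / 4)
  obtain ⟨V, v1, v2, v3⟩ := p2 (r + 5 / 8) (y i).1.2 u (fun j b K G =>
    Tz ((d.e (ty j)).cyl.act G (K.pb (y i).1.2)) (σ.β j b) (ir b (r - 1)) k (η / 2) ∧
      ∃ r', ∀ x, r' ≤ pm b * x.2 → G x = 1) hu fun j b K h1 h2 => by
      obtain ⟨G, r', g1, g2, g3, g4⟩ := (k2 j b K h1 h2).2
      have k4 : a0 K ≤ r + 5 / 8 - 3 / 4 := by linarith [ha _ _ K h1 h2]
      have m := (iv_sub_ir (r := r + 5 / 8 + 3 / 4) le_rfl).trans (ir_J K h2 k4)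
      have A := f_adm h.toOK (y i).2.1 h1 (y i).2.2.1
      exact ⟨k4, A, cl_mono (cl_tri (o b) (admOn_act (H j) (o b) (admOn_mono A (prod_mono_right m))
        (gauOn_ψ K hu m)) (admOn_mono (f_adm h.toOK y₀.2.1 h1 y₀.2.2.1) (prod_mono_right m))
        (admOn_of (gd j b K h1 h2).crit.1 _) (cc_nk hS h y₀.2.1 y₀.2.2.1 (y i) hu k1 h1 h2 k4)
        (cl_mono (p5 j b K h1 h2) (iv_sub_ir (by linarith)) le_rfl le_rfl)) Subset.rfl le_rfl
        (by linarith [min_le_right η' (η₁ / 2)]), G, gauOn_of g1 _,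
        cl_mono g3 (iv_sub_ir (by linarith)) le_rfl (min_le_left _ _),
        tz_of g4 Subset.rfl le_rfl (min_le_right _ _), r', fun x hx => g2 x (.inr hx)⟩
  have al : (σ.P (y i).1.1).Al V := (Pb50.al_fam h.toOK (y i).2.1 V).2 ⟨v1, fun j b K h1 h2 => by
    obtain ⟨-, G, ⟨-, r', g1⟩, g2⟩ := v3 j b K h1 h2
    refine ⟨max r' (r + 5 / 8 + 1 / 2), Pb50.hh_congr (Pb50.Hi.zero.hh _) (Pb50.isOpen_far K _)
      fun x hx => ?_⟩
    have := max_lt_iff.1 (mem_ofPred.1 hx.2.2)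
    simp only [g2 x this.2.le, g1 x this.1.le, sub_self, Pi.zero_apply]⟩
  refine ⟨⟨((y i).1.1, (σ.P (y i).1.1).bg.act V (y i).1.2), (y i).2.1, Pb50.as_act (h.ok _ (y i).2.1).toOK
    (fun j b k => (h.gd j b ((Pb50.inf_iff h.toOK (y i).2.1 j b).1 k)).crit) (y i).2.2 al⟩,
    ⟨rfl, V, al, rfl⟩, p3 _ k3 (hS.loc s _ _ _ _ _ u V r k η' (v2 r (by linarith))
      fun w hw x hx => ?_) fun j b K h1 h2 w hw => ?_⟩
  · have := k1 w hw x fun j b K h1 h2 m => hx j b K h1 h2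
      (image_mono (Pb50.far_mono K (by linarith)) m)
    exact ⟨this.1.trans (min_le_left _ _), this.2.trans (min_le_left _ _)⟩
  · obtain ⟨g0, G, ⟨g1, -⟩, g2⟩ := v3 j b K h1 h2
    have o' := isOpen_ir b (r + 5 / 8 + 1 / 2)
    rw [((f_act h.toOK (y i).2.1 h1 V _).mono (ir_J K h2 (by linarith [ha _ _ K h1 h2]))).tz
      (isOpen_ir b r), ← add_halves η, ENNReal.ofReal_add (by positivity) (by positivity)]
    refine (tz_union _ _ (I₂ := ir b (r + 5 / 8 + 1 / 2)) (fun τ hτ => ?_) w).trans (add_le_add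
      (p1 j b K h1 h2 _ _ b _ k g0 w hw) (((ag_act o' (fun x hx => g2 x (le_of_lt hx.2)) _).tz o'
        w).trans_le (tz_of g1 (ir_mono (by linarith)) le_rfl le_rfl w hw)))
    have : r < pm b * τ := hτ
    rcases lt_or_ge (r + 5 / 8 + 1 / 2) (pm b * τ) with k | k
    exacts [.inr k, .inl ⟨by linarith, by linarith⟩]

end fam

theorem Mom.mono {e : En3 κ lam ν} {c : e.ZC} {b : Bool} {l a m m' : ℝ} (h : Mom c b l a m)
    (k : m ≤ m') : Mom c b l a m' := fun a b c => (h a b c).trans (ENNReal.ofReal_le_ofReal k)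

/-- **SW-CONV** -/
theorem conv (hW : WinStmt κ lam ν) (hD : DlStmt κ lam ν) (hC : Dec1 κ lam ν) (hM : MomStmt κ lam ν)
    (d : Dt κ lam ν) [Fintype d.𝓔] (Sl : Type) [Fintype Sl] (Γ : Ctx d) (C : ℝ) :
    ∃ η > 0, ∀ (η₀ : ℝ) (X : Mf 4) (nc nr : ℕ) (T : Type) [NormedAddCommGroup T] [NormedSpace ℝ T]
      [FiniteDimensional ℝ T], LocStmt d (Prod.fst : d.𝓔 × Sl → _) X nc T →
      FcStmt d (Prod.fst : d.𝓔 × Sl → _) X nc T → SiteStmt d (Prod.fst : d.𝓔 × Sl → _) X nc nr T →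
      ∀ (s : StS d Sl X) (σ : Cel s nc nr T), σ.OK → ∀ (ι : Type) (𝒰 : Ultrafilter ι) q y ρ q₀ t₀,
      σ.PS 𝒰 q y ρ → St.Cv (𝒰 : Filter ι) q q₀ →
      (∀ᶠ i in (𝒰 : Filter ι), σ.Sm η (q i) ∧ σ.Bnd C η₀ (y i)) →
      t₀ ∈ σ.Q → Tendsto (fun i => (y i).1.1) 𝒰 (𝓝 t₀) →
      (∀ j b, s.Inf j b → ∃ r, ∀ᶠ i in (𝒰 : Filter ι), s.mo σ.β j b (y i).1.2 ≤ r) →
      ∃ y₀ : σ.Pnt, (σ.P y₀.1.1).bg.Sol ((σ.P y₀.1.1).pt q₀) y₀.1.2 ∧ σ.R y₀.1.1 y₀.1.2 = 0 ∧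
        σ.Cvg 𝒰 y y₀ := by
  choose η' e0 e1 hη using fun ε => endL hW hD (mono hW hD) hC.dec (Γ.ok ε) C
  obtain ⟨η, e2, e3, e4⟩ := ex_small ((eventually_all.2 fun ε => ev_small (e0 ε) fun _ h => h).and
    (ev_small one_pos fun _ h => h))
  refine ⟨η, e2, fun η₀ X nc nr T _ _ _ hL hF hS s σ h ι 𝒰 q y ρ q₀ t₀ hP hq hB ht h0 hm => ?_⟩
  obtain ⟨a, ha⟩ := (fo_far h.toOK hq).exists
  obtain ⟨c₀, hc, lc⟩ := hL s _ h.toOK ι 𝒰 (fun i => (y i).1.1) q (fun i => (y i).1.2) t₀ q₀ C ht h0 hq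
    ((hB.and hP.eq).mono fun i k => ⟨(y i).2.2.1, k.1.2.sup, k.2.2.1⟩) fun r => by
      obtain ⟨B, hB'⟩ := hF.fc s _ h.toOK t₀ ht C r
      refine ⟨B, ?_⟩
      filter_upwards [h0.eventually hB', hB, hP.eq, hP.far r] with i k1 k2 k3 k4
      have k5 := fun x hx => k3.1 x (core_reg k4 hx)
      exact ⟨k5, k1 _ _ (small_mono (k2.1 _ (y i).2.1) e4) (y i).2.2.1 k2.2.sup k2.2.en k5⟩
  have hT : ∀ k, ∀ ε > 0, ∀ᶠ R in atTop, ∀ᶠ i in (𝒰 : Filter ι), ∀ j b, ∀ K ∈ s.nk j, K.Inf b →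
      TP (K.pb (y i).1.2) (σ.β j b) b a R k ε := fun k ε hε => by
    refine (ev_ends fun j b K h1 h2 => ?_).mono fun R hR => ev_ends hR
    obtain ⟨a1, a2⟩ := ha j b K h1 h2
    have a3 := a0_nonneg K
    obtain ⟨m, hm⟩ := hm j b ⟨K, h1, h2⟩
    simp only [Pz.mo, Option.mem_def.1 h1, Option.elim_some] at hm
    obtain ⟨D, hD⟩ := hF.ec
    obtain ⟨M, hM⟩ := hM _ (h.site.en j) X 0 _ K b h2 (L (σ.β j b)) D a a1
    obtain ⟨R₀, ε', e5, p⟩ := hη j.1 _ (h.gd j b ⟨K, h1, h2⟩) b (m + M) a k ε hε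
    refine (eventually_ge_atTop R₀).mono fun R hR => ?_
    filter_upwards [hP.far (max R₀ (a + 3)), hP.eq, hB, hm,
      ev_words (k + 6) fun w => hP.tl 8 w ε' e5] with i k1 k2 k3 k4 k5
    have A := f_adm h.toOK (y i).2.1 h1 (y i).2.2.1
    have k6 := fun b r hr => (le_max_right _ _).trans (k1 j b r hr)
    obtain ⟨r, r1, r2, r3⟩ : ∃ r, R₀ ≤ r ∧ (∀ r' ∈ ρ i j b, r ≤ r') ∧
        Tz (K.pb (y i).1.2) (σ.β j b) (ir b (r - 8)) (k + 6) ε' := by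
      cases e : ρ i j b with
      | none =>
        obtain ⟨r, r1, r2⟩ := ((eventually_ge_atTop R₀).and (ev_sub (tail K h2
          (((f_as h.toOK (y i).2.1).1 (y i).2.2).2 j b K h1 h2) (k + 6) e5) 8)).exists
        exact ⟨r, r1, by simp, r2⟩
      | some r => exact ⟨r, (le_max_left _ _).trans (k1 j b r e), fun _ k => (Option.some.inj k).le,
          fun w hw => far_ir K h2 (show a0 K ≤ r - 8 by linarith [k6 b r e]) ▸ k5 w hw j b K h1 h2 r e⟩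
    have dp : iv b a r ⊆ K.deep 2 := (iv_sub_ir le_rfl).trans (ir_deep K h2 (by linarith))
    refine p _ _ (q i) _ r r1 (sml_mono (sml_of (k3.1 _ (y i).2.1) j) le_rfl (e3 _))
      (admOn_mono A (prod_mono_right (ir_J K h2 (by linarith))))
      (f_eq h.toOK (y i).2.1 h1 dp k2.1 (fun x hx => mem_reg h.site h1
        (Pb50.deep_J K two_pos (dp hx.2)) fun b' r' hr => ?_)
        fun w hw x hx => a2 w (.inr ⟨i, hw⟩) _ (y i).2.1 x ⟨trivial, hx.2.1⟩)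
      (fun x _ => k3.2.sup _) ((en_mono _ dp).trans ((f_en h.toOK (y i).2.1 h1 _).trans k3.2.en))
      ((hM _ A fun x hx hx' => ?_).mono (by linarith)) r3 R hR
    · by_cases e : b' = b
      · exact (e ▸ hx.2.2.le).trans (r2 r' (e ▸ hr))
      · have := hx.2.1
        have := k6 b' r' hr
        cases b <;> cases b' <;> simp only [pm, not_true, if_true, Bool.false_eq_true, if_false]
          at * <;> linarith
    · obtain ⟨K', k7, k8, -, k9⟩ := f_nk h.toOK (y i).2.1 h1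
      have := hD _ (h.ok _ (y i).2.1) (q i) (y i).1.2 j K' k7 (small_mono (k3.1 _ (y i).2.1) e4) x
        (k9 ▸ hx) (by
          rintro _ rfl
          refine k2.1 _ (k8 ▸ mem_reg h.site h1 (Pb50.deep_J K two_pos hx.2) fun b' r' hr => ?_)
          linarith [le_abs_self (pm b' * x.2), pm_abs b' x.2, k6 b' r' hr])
      simpa only [Nk.pb, k8] using this
  have ha' := fun j b K h1 h2 => (ha j b K h1 h2).1
  obtain ⟨V, hV, as⟩ := as_lim hS h ha' hT ht hc.toAdm hC lc (q := q₀) fun j b K h1 h2 =>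
    f_eq h.toOK ht h1 (ir_deep K h2 (by linarith [ha' j b K h1 h2])) hc.eq (fun _ _ => trivial)
      fun w hw => (ha j b K h1 h2).2 w (.inl hw) _ ht
  have cv := cvg hS h ha' hT (y₀ := ⟨(t₀, (σ.P t₀).bg.act V c₀), ht, as⟩) (fun r k ε hε => by
    obtain ⟨η₁, e5, p⟩ := hS.act s _ h.toOK V hV r k ε hε
    refine (lc r k η₁ e5).mono fun i ⟨u, hu, e⟩ => ⟨fun x => V x * u x,
      ⟨fun x => Wz78.SA.mul (hV.1 x) (hu.1 x), fun x => by rw [norm_mul, hu.2, hV.2, one_mul]⟩, ?_⟩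
    have o := (h.ok _ (y i).2.1).bg
    exact Pb50.act_act o hu hV _ ▸ p _ (y i).2.1 _ ht _ _
      (Pb50.adm_of fun x => (Pb50.LA.of_adm (y i).2.2.1 x).act o (hu.1 x)) hc.toAdm e) h0
  refine ⟨_, sol_act (h.ok _ ht) hc hV, funext fun j => by_contra fun k => ?_, cv⟩
  obtain ⟨⟨f, f1, f2⟩, f3⟩ := (h.R j).imp_left fun k => k 7 le_rfl
  obtain ⟨i, ⟨y', k1, k2⟩, k3⟩ := ((Pb50.near_of_cvg h.toOK (Pb50.cr_of_gd h.gd) (by norm_num) cv
    ((f1.continuousOn.continuousAt ((Pb50.isOpen_U h.toOK).mem_nhds ht)).eventually_ne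
      ((f2 _).trans_ne k))).and hP.eq).exists
  exact k1 ((f2 y').trans ((f3 _ _ k2.1 k2.2).trans (congrFun k3.2.2 j)))

end Crest.Agent.X212.Sep15.S
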