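import Crest.Agent.X212.Sep15.End
import Crest.Agent.X212.Sep15.Dec1
import Crest.Agent.X212.Cut71.Cy

/-!
# X212/Sep15/Glu (helper15): SW-CONV, tails on an end, the half-line, gluing of gauges
-/

set_option autoImplicit false
set_option linter.unusedSectionVars false
set_option maxHeartbeats 200000
noncomputable section
open scoped Manifold ContDiff Topology InnerProductSpace
open MeasureTheory Set Function Filter

namespace Crest.Agent.X212.Sep15.S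
open An Cyf70 Sw Sw.En3
open M (Mf pm)
open Nd18 (Jv)
open Pb50 (LA LG)
open Wz78 (SA)
open Win39 (nh gau_at)

variable {κ lam ν : Type} [Fintype κ] [Fintype lam] [Fintype ν] [DecidableEq ν]

theorem ev_small {p : ℝ → Prop} {ε : ℝ} (h0 : 0 < ε) (h : ∀ η ≤ ε, p η) : ∀ᶠ η in 𝓝[>] 0, p η :=
  mem_nhdsWithin_of_mem_nhds (mem_of_superset (Iic_mem_nhds h0) h)

theorem ex_small {p : ℝ → Prop} (h : ∀ᶠ η in 𝓝[>] 0, p η) : ∃ η > 0, p η :=
  (h.and self_mem_nhdsWithin).exists.imp fun _ h => ⟨h.2, h.1⟩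

theorem ev_words {α : Type} {l : Filter α} {p : List (Option κ) → α → Prop} (k : ℕ)
    (h : ∀ w, ∀ᶠ x in l, p w x) : ∀ᶠ x in l, ∀ w : List (Option κ), w.length ≤ k → p w x :=
  (eventually_all_finite (List.finite_length_le (Option κ) k)).2 fun w _ => h w

section cyl
variable {e : En3 κ lam ν} {g : e.Gen} {c : e.ZC} {v : e.YC} {b : Bool} {k : ℕ} {ε : ℝ}

theorem tz_of {I I' : Set ℝ} {k' : ℕ} {ε' : ℝ} (h : Tz c v I k ε) (h1 : I' ⊆ I) (h2 : k' ≤ k)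
    (h3 : ε ≤ ε') : Tz c v I' k' ε' := fun w hw =>
  (tz_mono c v h1 w).trans ((h w (hw.trans h2)).trans (ENNReal.ofReal_le_ofReal h3))

theorem sob (H : e.OK) (k : ℕ) (hε : 0 < ε) : ∃ η > 0, ∀ (c : e.ZC) v b a, e.cyl.Adm (fz v) →
    e.cyl.AdmOn c (univ ×ˢ ir b a) → Tz c v (ir b a) (k + 4) η → Cl c (fz v) (ir b (a + 4)) k ε := by
  obtain ⟨η, h0, h⟩ := Cut71.cl_of_tlz H k hε
  refine ⟨η, h0, fun c v b a hv hc ht w hw x hx => ?_⟩
  have s : Ioo (x.2 - 4) (x.2 + 4) ⊆ ir b a :=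
    (iv_eq' b _ _).trans_subset (iv_sub_ir (by linarith [mem_ofPred.1 hx.2]))
  exact h c v x.2 hv (fun z hz => .of_on hc (op (isOpen_ir _ _)) ⟨trivial, s hz.2⟩)
    (tz_of ht s le_rfl le_rfl) w hw x ⟨trivial, by linarith, by linarith⟩

/-- the tail beyond `R` is small in a gauge that is `1` before `a` and far out -/
def TP (c : e.ZC) (v : e.YC) (b : Bool) (a R : ℝ) (k : ℕ) (ε : ℝ) : Prop :=
  (∀ s, R ≤ pm b * s → Nr c v s 2 ε) ∧ ∃ u r, Gau e.Z.I u ∧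
    (∀ x, pm b * x.2 ≤ a ∨ r ≤ pm b * x.2 → u x = 1) ∧
    Cl (e.cyl.act u c) (fz v) (ir b R) k ε ∧ Tz (e.cyl.act u c) v (ir b R) k ε

/-- **an end** -/
theorem endL (hW : WinStmt κ lam ν) (hD : DlStmt κ lam ν) (hM : MonoStmt κ lam ν)
    (hC : DecStmt κ lam ν) (hg : g.OK) (C : ℝ) : ∃ η > 0, η ≤ 1 ∧ ∀ v, Gd v → ∀ b (m a : ℝ) k ε,
      0 < ε → ∃ R₀, ∃ ε' > 0, ∀ (W : Type) (T : W → Option e.YT) q c r, R₀ ≤ r → Sml T q 6 η →
        e.cyl.AdmOn c (univ ×ˢ ir b (a - 1)) → e.cyl.EqOn (pt T q) c (univ ×ˢ iv b a r) →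
        Sup c (ir b a) C → en c (iv b a r) ≤ ENNReal.ofReal C → Mom c b (L v) a m →
        Tz c v (ir b (r - 8)) (k + 6) ε' → ∀ R, R₀ ≤ R → TP c v b a R k ε := by
  obtain ⟨η, η0, η1, h⟩ := end_en hW hD hM hg C
  refine ⟨η, η0, η1, fun v hv b m a k ε hε => ?_⟩
  obtain ⟨o, ho⟩ := hg.all v hv.crit
  obtain ⟨η₁, e1, h1⟩ := end_dec hC hg.ok hg.w hv.crit hv.nd hv.irr hv.S k hε
  obtain ⟨ε₂, e2, h2⟩ := end_nr hW hg C hv.crit (lt_min e1 hε)
  obtain ⟨R, aR, ε₃, e3, h3⟩ := h o b m a ε₂ e2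
  obtain ⟨η₃, e4, h4⟩ := Cut71.lev hg.ok hv.crit e3
  obtain ⟨ε₄, e5, h5⟩ := sob hg.ok (k + 2) (lt_min e1 (lt_min e2 e4))
  rw [← hv.inv _ _ (hg.crit o).1 ho] at h3
  refine ⟨R + 20, min ε₄ η₁, lt_min e5 e1, fun W T q c r hr hs hA hE hS hen hm ht R' hR => ?_⟩
  have ad : ∀ {x}, a - 1 ≤ x → e.cyl.AdmOn c (univ ×ˢ ir b x) := fun h =>
    admOn_mono hA (prod_mono_right (ir_mono h))
  have c1 := h5 c v b _ hv.crit.1 (ad (by linarith)) (tz_of ht Subset.rfl le_rfl (min_le_left _ _))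
  have hE' : e.cyl.EqOn (pt T q) c (univ ×ˢ iv b R r) := fun x hx =>
    hE x (prod_mono_right (iv_mono aR le_rfl) hx)
  have n := h2 W T q c b R r (by linarith) (sml_mono hs le_rfl η1) (ad (by linarith)) hE'
    (fun x hx => hS x (prod_mono_right (ir_mono aR) hx))
    (h3 W T q c r (by linarith) hs hA hE hS hen hm fun t ht =>
      have k := h4 c _ (isOpen_ir b (r - 8 + 4))
        (fun x hx => .of_on (ad (by linarith)) (op (isOpen_ir _ _)) hx)
        (cl_mono c1 Subset.rfl (by omega) ((min_le_right _ _).trans (min_le_right _ _))) t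
        (show _ < pm b * t by linarith)
      ⟨k.1, k.2.2⟩)
    (cl_mono c1 (ir_mono (by linarith)) (by omega) ((min_le_right _ _).trans (min_le_left _ _)))
  obtain ⟨u, u1, u2, u3, u4⟩ := h1 W T q c b R r (by linarith) (ad (by linarith)) hE'
    (fun s hs => nr_mono (n s hs) le_rfl (min_le_left _ _))
    (cl_mono c1 (ir_mono (by linarith)) (by omega) (min_le_left _ _))
    (tz_of ht (ir_mono (by linarith)) (by omega) (min_le_right _ _))
  exact ⟨fun s hs => nr_mono (n s (by linarith)) le_rfl (min_le_right _ _), u, r, u1,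
    fun x hx => u2 x (hx.imp_left fun h => by linarith),
    cl_mono u3 (ir_mono (by linarith)) le_rfl le_rfl, tz_of u4 (ir_mono (by linarith)) le_rfl le_rfl⟩

theorem lint_ir {δ : ℝ} (hδ : 0 < δ) (b : Bool) (a A : ℝ) :
    ∫⁻ t in ir b a, ENNReal.ofReal (A * Real.exp (-δ * (pm b * t))) ≠ ⊤ := by
  cases b
  · have := ((integrableOn_exp_mul_Iic hδ (-a)).const_mul A).lintegral_lt_top
    refine ((lintegral_mono_set fun t ht => ?_).trans_lt (by simpa [pm] using this)).ne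
    have : a < -1 * t := ht
    exact show t ≤ -a by linarith
  · have := ((integrableOn_exp_mul_Ioi (neg_lt_zero.2 hδ) a).const_mul A).lintegral_lt_top
    refine ((lintegral_mono_set fun t ht => ?_).trans_lt (by simpa [pm] using this)).ne
    simpa [ir, pm] using ht

/-- decay on a half-line -/
theorem dec_half (hC : Dec1 κ lam ν) (H : e.OK) (hw : 0 < e.w) (hv : Gd v) (hε : 0 < ε) :
    ∀ᶠ η in 𝓝[>] 0, ∀ (W : Type) (T : W → Option e.YT) q c b a,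
      e.cyl.AdmOn c (univ ×ˢ ir b (a - 1)) → e.cyl.EqOn (pt T q) c (univ ×ˢ ir b a) →
      (∀ s, a ≤ pm b * s → Nr c v s 2 η) → ∃ u, GauOn e.Z.I u (univ ×ˢ ir b a) ∧
        Cl (e.cyl.act u c) (fz v) (ir b (a + 3)) 0 ε ∧
        ∀ w, tz (e.cyl.act u c) v (ir b (a + 3)) w ≠ ⊤ := by
  obtain ⟨δ, d0, η₀, e0, D, h⟩ := hC e v H hw hv.crit hv.nd hv.irr hv.S
  filter_upwards [ev_small (lt_min e0 (show 0 < ε / (|D 0| + 1) by positivity)) fun _ h => h,
    self_mem_nhdsWithin] with η h1 (h2 : 0 < η) W T q c b a hA hE hN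
  obtain ⟨p, p', j1, j2, j3⟩ : ∃ p p', Jv p p' = ir b a ∧
      Jv (p.map (· - 1)) (p'.map (· + 1)) = ir b (a - 1) ∧
      ∀ s, ex δ p p' s = Real.exp (δ * a) * Real.exp (-δ * (pm b * s)) := by
    cases b
    · refine ⟨none, some (-a), ?_, ?_, fun s => ?_⟩
      · ext t; simp [Jv, ir, pm, lt_neg]
      · ext t; simp only [Jv, ir, pm]; simp; constructor <;> intro h <;> linarith
      · simp only [ex, pm, ← Real.exp_add]; simp; ring
    · refine ⟨some a, none, ?_, ?_, fun s => ?_⟩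
      · ext t; simp [Jv, ir, pm]
      · ext t; simp [Jv, ir, pm]
      · simp only [ex, pm, ← Real.exp_add]; simp; ring
  obtain ⟨u, hu, h3⟩ := h W T q c p p' η (h1.trans (min_le_left _ _)) ⟨j2 ▸ hA, j1 ▸ hE⟩
    fun s hs => hN s (le_of_lt (j1 ▸ hs ⟨by linarith, by linarith⟩ : s ∈ ir b a))
  rw [j1] at hu h3
  have h4 := fun w (x : e.Y.M × ℝ) (hx : x ∈ univ ×ˢ ir b (a + 3)) => h3 _ x.2
    ((iv_eq' b _ _).trans_subset (iv_sub_ir (by linarith [mem_ofPred.1 hx.2]))) w le_rfl x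
    ⟨trivial, by linarith, by linarith⟩
  simp only [j3] at h4
  refine ⟨u, hu, fun w hw x hx => ?_, fun w => ?_⟩
  · obtain rfl := List.length_eq_zero_iff.1 (Nat.le_zero.1 hw)
    have k : D 0 * η * (Real.exp (δ * a) * Real.exp (-δ * (pm b * x.2))) ≤ ε := by
      rw [← Real.exp_add]
      have k1 : Real.exp (δ * a + -δ * (pm b * x.2)) ≤ 1 :=
        Real.exp_le_one_iff.2 (by nlinarith [mem_ofPred.1 hx.2])
      have k2 := (le_div_iff₀ (by positivity)).1 (h1.trans (min_le_right _ _))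
      calc _ ≤ |D 0| * η * 1 := by gcongr; exact le_abs_self _
        _ ≤ ε := by linarith
    exact ⟨fun i => ((h4 [] x hx).1 i).trans k, (h4 [] x hx).2.trans k⟩
  · have q : ∀ t, (D w.length * η * (Real.exp (δ * a) * Real.exp (-δ * (pm b * t)))) ^ 2 =
        (D w.length * η * Real.exp (δ * a)) ^ 2 * Real.exp (-(2 * δ) * (pm b * t)) := fun t => by
      rw [← mul_assoc, mul_pow, ← Real.exp_nat_mul]; congr 2; push_cast; ring
    exact ne_top_of_le_ne_top (ENNReal.mul_ne_top ENNReal.ofReal_ne_top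
      (lint_ir (by positivity) b _ _)) (tz_le (isOpen_ir _ _).measurableSet (by fun_prop) fun x hx =>
        ⟨fun i => (pow_le_pow_left₀ (abs_nonneg _) ((h4 w x hx).1 i) 2).trans (q _).le,
          (pow_le_pow_left₀ (norm_nonneg _) (h4 w x hx).2 2).trans (q _).le⟩)

theorem hh_of {N : Type} [NormedAddCommGroup N] [NormedSpace ℝ N] {f : e.Y.M × ℝ → N} {I : Set ℝ}
    (hI : IsOpen I) (hf : ∀ x ∈ univ ×ˢ I, SA (IC e.Y.I) f x)
    (h : ∀ w, ∫⁻ x in univ ×ˢ I, ‖e.D.Z.Dw w f x‖ₑ ^ 2 ∂e.D.Z.μ ≠ ⊤) :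
    Hh e.D.Z.toPre (univ ×ˢ I) f := fun w =>
  ⟨ContinuousOn.aestronglyMeasurable (fun x hx => ((Cut71.sa_Dw w
      (hf x hx)).continuousAt.norm.pow 2).continuousWithinAt) (op hI).measurableSet,
    by simpa [HasFiniteIntegral] using (h w).lt_top⟩

theorem cl_bdd {c' : e.ZC} {a x y : ℝ} (h : e.cyl.AdmOn c (univ ×ˢ ir b a))
    (h' : e.cyl.AdmOn c' (univ ×ˢ ir b a)) (hx : a < x) (k : ℕ) : ∃ B, Cl c c' (iv b x y) k B := by
  have K : IsCompact ((univ : Set e.Y.M) ×ˢ ((pm b * ·) '' Icc x y)) :=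
    isCompact_univ.prod (isCompact_Icc.image (by fun_prop))
  have bd : ∀ {N : Type} [NormedAddCommGroup N] [NormedSpace ℝ N] {f : e.Y.M × ℝ → N},
      (∀ z ∈ univ ×ˢ ir b a, SA (IC e.Y.I) f z) → ∀ w,
      ∀ᶠ B in atTop, ∀ z ∈ univ ×ˢ iv b x y, ‖e.D.Z.Dw w f z‖ ≤ B := fun hf w => by
    obtain ⟨B, hB⟩ := K.exists_bound_of_continuousOn (f := e.D.Z.Dw w _) fun z ⟨_, t, h1, h2⟩ =>
      (Cut71.sa_Dw w (hf z ⟨trivial, show a < _ by
        rw [← h2, pm_pm]; exact hx.trans_le h1.1⟩)).continuousAt.continuousWithinAt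
    exact (eventually_ge_atTop B).mono fun B' hB' z hz =>
      (hB z ⟨trivial, _, ⟨hz.2.1.le, hz.2.2.le⟩, pm_pm _ _⟩).trans hB'
  have o := op (e := e) (isOpen_ir b a)
  exact (ev_words k fun w => ((eventually_all.2 fun i => bd (f := c.a i - c'.a i) (fun z hz =>
    ((LA.of_on h o hz).sa i).sub ((LA.of_on h' o hz).sa i)) w).and (bd (f := c.Φ - c'.Φ)
      (fun z hz => (LA.of_on h o hz).sΦ.sub (LA.of_on h' o hz).sΦ) w)).mono
      fun B hB z hz => ⟨fun i => hB.1 i z hz, hB.2 z hz⟩).exists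

theorem ag_div (H : e.OK) {I : Set ℝ} (hI : IsOpen I) {u G : e.Y.M × ℝ → ℂ}
    (hu : GauOn e.Z.I u (univ ×ˢ I)) (hG : GauOn e.Z.I G (univ ×ˢ I)) (c : e.ZC) :
    Ag (e.cyl.act (fun x => G x * star (u x)) (e.cyl.act u c)) (e.cyl.act G c) I :=
  (ag_mul H hI hu (gauOn_mul (gauOn_star hu) hG) c).trans (ag_act hI (fun x hx => by
    rw [mul_assoc, Pb50.star_mul_one (hu.2 x hx), mul_one]) c)

/-- a good gauge for a neighbour -/
theorem trf (H : e.OK) (hv : e.cyl.Adm (fz v)) {a x y : ℝ} (h : e.cyl.AdmOn c (univ ×ˢ ir b a))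
    (hx : a < x) (k : ℕ) (hε : 0 < ε) : ∀ᶠ η in 𝓝[>] 0, ∀ (c' : e.ZC) u G ε₁, ε₁ ≤ 1 →
      e.cyl.AdmOn c' (univ ×ˢ iv b x y) → GauOn e.Z.I u (univ ×ˢ iv b x y) →
      GauOn e.Z.I G (univ ×ˢ iv b x y) → Cl (e.cyl.act u c') c (iv b x y) k η →
      Cl (e.cyl.act G c') (fz v) (iv b x y) k ε₁ →
      Cl (e.cyl.act (fun z => G z * star (u z)) c) (fz v) (iv b x y) k (ε₁ + ε) := by
  obtain ⟨B, hB⟩ := cl_bdd (y := y) h (admOn_of hv _) hx k
  obtain ⟨η, h0, hη⟩ := cl_act H k B hε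
  have o := isOpen_iv b x y
  exact ev_small h0 fun η' h1 c' u G ε₁ h2 h3 h4 h5 h6 h7 => hη _ c _ _ _ ε₁ o h2
    (admOn_act H o h3 h4) (admOn_mono h (prod_mono_right (iv_sub_ir hx.le))) (admOn_of hv _)
    (gauOn_mul (gauOn_star h4) h5) hB (cl_mono h6 Subset.rfl le_rfl h1)
    ((ag_div H o h4 h5 c').cl o h7)

end cyl

end Crest.Agent.X212.Sep15.S
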