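import Crest.Agent.X212.Pte3.Th

/-! X212 / NT-R (helper15): the maps of a chart and their derivatives. -/

set_option autoImplicit false
set_option linter.unusedSectionVars false
set_option maxHeartbeats 400000
noncomputable section
open scoped ContDiff Topology
open Set Function Filter

namespace Crest.Agent.X212.Sep15.Nr
open An M Mod61 Nk89 Cht98 Rf65 Pte3
open Fred93 hiding Fr

/-- the first component of a Fredholm map -/
theorem fin_of {E F H : Type} [NormedAddCommGroup E] [NormedSpace ℝ E] [NormedAddCommGroup F]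
    [NormedSpace ℝ F] [NormedAddCommGroup H] [NormedSpace ℝ H] {P : E →L[ℝ] F × H}
    {L : E →L[ℝ] F} (h : P.IsFredholm) (e : ∀ x, L x = (P x).1) :
    IsClosed (range L) ∧ ∃ (m : ℕ) (k : (Fin m → ℝ) →L[ℝ] F), Surjective (L.coprod k) := by
  have : FiniteDimensional ℝ ((F × H) ⧸ P.range) := h.finite_coker
  let A : Submodule ℝ F := P.range.comap (LinearMap.inl ℝ F H)
  have : FiniteDimensional ℝ (F ⧸ A) := .of_injective (A.mapQ P.range (LinearMap.inl ℝ F H) le_rfl)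
    (LinearMap.ker_eq_bot.1 (Submodule.ker_liftQ_eq_bot _ _ _ fun x hx =>
      (Submodule.Quotient.mk_eq_zero P.range).1 hx))
  obtain ⟨Q, hQ⟩ := P.range.exists_isCompl
  have : FiniteDimensional ℝ Q := (Submodule.quotientEquivOfIsCompl _ _ hQ).finiteDimensional
  let b := (Module.finBasis ℝ Q).equivFunL.symm
  refine ⟨Submodule.isClosed_mono_of_finiteDimensional_quotient (s := A) (t := L.range)
    (h.isClosed_range.preimage (ContinuousLinearMap.inl ℝ F H).continuous)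
    fun f ⟨x, hx⟩ => ⟨x, (e x).trans (congrArg Prod.fst hx)⟩,
    _, .fst ℝ F H ∘L Q.subtypeL ∘L b.toContinuousLinearMap, fun f => ?_⟩
  obtain ⟨_, ⟨x, rfl⟩, v, hv, k⟩ := Submodule.mem_sup.1
    (hQ.sup_eq_top ▸ Submodule.mem_top : ((f, 0) : F × H) ∈ P.range ⊔ Q)
  exact ⟨(x, b.symm ⟨v, hv⟩), by simpa [e] using congrArg Prod.fst k⟩

theorem aff {W C Y : Type} [NormedAddCommGroup C] [NormedSpace ℝ C] [NormedAddCommGroup Y]
    [NormedSpace ℝ Y] {U : Set C} (hU : IsOpen U) {F : (W →₀ ℝ) → C → Y} {τ : W → C → Y}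
    (hF : ∀ q, ContDiffOn ℝ ∞ (F q) U)
    (e : ∀ q q' v, F (q + q') v = F q v + q'.sum fun w c => c • τ w v) {v : C} (hv : v ∈ U) :
    ∃ D : (W →₀ ℝ) →ₗ[ℝ] C →L[ℝ] Y, ∀ q q', fderiv ℝ (F (q + q')) v = fderiv ℝ (F q) v + D q' := by
  have d : ∀ {f : C → Y}, ContDiffOn ℝ ∞ f U → HasFDerivAt f (fderiv ℝ f v) v := fun k =>
    ((k.contDiffAt (hU.mem_nhds hv)).differentiableAt (by simp)).hasFDerivAt
  have hτ : ∀ w, ContDiffOn ℝ ∞ (τ w) U := fun w =>
    ((hF (0 + .single w 1)).sub (hF 0)).congr fun v _ => by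
      rw [e, Finsupp.sum_single_index (by exact zero_smul _ _), one_smul, add_sub_cancel_left]
  refine ⟨Finsupp.linearCombination ℝ fun w => fderiv ℝ (τ w) v, fun q q' => ?_⟩
  rw [funext (e q q')]
  exact ((d (hF q)).add (HasFDerivAt.fun_sum fun w _ => (d (hτ w)).const_smul (q' w))).fderiv

theorem fin_fun {C Y H h : Type} [NormedAddCommGroup C] [NormedSpace ℝ C] [NormedAddCommGroup Y]
    [NormedSpace ℝ Y] [NormedAddCommGroup H] [NormedSpace ℝ H] [Fintype h] {K : h → Type}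
    [∀ i, NormedAddCommGroup (K i)] [∀ i, NormedSpace ℝ (K i)]
    {f : C × (∀ i, K i) → Y × (∀ i, K i) × (h → ℝ)} {v : C} {ψ : ∀ i, K i}
    {T : ∀ i, K i →L[ℝ] K i} {σ : C →L[ℝ] H} {d : ℤ} (hf : DifferentiableAt ℝ f (v, ψ))
    (h1 : ∀ χ, (f (v, χ)).1 = (f (v, ψ)).1) (h2 : ∀ χ i, (f (v, χ)).2.1 i = T i (χ i))
    (k : Fred93.Fr ((fderiv ℝ (fun u => (f (u, ψ)).1) v).prod σ) d) (t : ∀ i, Fred93.Fr (T i) 0) :
    IsClosed (range (fderiv ℝ f (v, ψ))) ∧ ∃ (m : ℕ) (k : (Fin m → ℝ) →L[ℝ] Y × (∀ i, K i) × (h → ℝ)),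
      Surjective ((fderiv ℝ f (v, ψ)).coprod k) := by
  have a := hf.hasFDerivAt
  generalize fderiv ℝ f (v, ψ) = L at a ⊢
  rw [(a.comp v (hasFDerivAt_prodMk_left v ψ)).fst.fderiv] at k
  have b := a.comp ψ (hasFDerivAt_prodMk_right v ψ)
  have b1 := b.fst.unique ((hasFDerivAt_const _ ψ).congr_of_eventuallyEq (.of_forall h1))
  have b2 := b.snd.fst.unique ((dgl T).hasFDerivAt.congr_of_eventuallyEq
    (.of_forall fun χ => funext (h2 χ)))
  have s : ∀ u, L u = L (u.1, 0) + L (0, u.2) := fun u => by rw [← map_add]; simp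
  let e : (((Y × H) × ∀ i, K i) × (h → ℝ)) ≃L[ℝ] (Y × (∀ i, K i) × (h → ℝ)) × H :=
    { toFun := fun z => ((z.1.1.1, z.1.2, z.2), z.1.1.2)
      invFun := fun z => (((z.1.1, z.2), z.1.2.1), z.1.2.2)
      map_add' := fun _ _ => rfl
      map_smul' := fun _ _ => rfl
      left_inv := fun _ => rfl
      right_inv := fun _ => rfl
      continuous_toFun := by fun_prop
      continuous_invFun := by fun_prop }
  refine fin_of ((Fr.equiv e).comp ((Fr.tri' (.fst ℝ _ _ ∘L .snd ℝ _ _ ∘L L ∘L .inl ℝ _ _) k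
    (fr_dgl t)).prod (.snd ℝ _ _ ∘L .snd ℝ _ _ ∘L L))).1 fun u => Prod.ext ?_ (Prod.ext ?_ rfl)
  · exact (congrArg Prod.fst (s u)).trans
      ((congrArg (_ + ·) (DFunLike.congr_fun b1 u.2)).trans (add_zero _))
  · exact (congrArg (·.2.1) (s u)).trans (congrArg (_ + ·) (DFunLike.congr_fun b2 u.2))

variable {Wi : Type} {X : Mf 4} {A κ lam : Type} [Fintype A] [Fintype κ] [Fintype lam]
  [DecidableEq lam] {M : Mark X A κ} {W : World M} {N : ML M lam} {Λ : Lns W N}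
  {A' h : Type} [Fintype A'] [DecidableEq A'] [Fintype h] {r n : ℕ}
  {J : Job Wi Λ A' h r n} {c : M.Cl} {σ : Cel A'} {p : Prt A A' h} {U : Type} [Fintype U] {δ : ℝ}
  {b : Bp J c} {E : EC b p U δ} {q : Wi →₀ ℝ} (H : CS σ E) (x : Pnt E.o r) (ψ : E.K)
include H

theorem g0 : (H.th (fun _ => True) (0 + 2 * r + Module.finrank ℝ (Tq p U) - 2 * n -
    (min r 1 : ℕ))).OK fun _ => False :=
  H.th_ok (fun _ _ _ _ _ _ _ => trivial) (fun _ _ => .of_forall fun _ _ _ => trivial)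
    fun _ _ => False.elim

theorem ld_eq {f g : E.C → E.Y} (hf : E.Map q f) (hg : E.Map q g) :
    fderiv ℝ f (x.pt 8, ψ) = fderiv ℝ g (x.pt 8, ψ) :=
  EventuallyEq.fderiv_eq (eventually_of_mem (((isOpen_U H.F).prod isOpen_univ).mem_nhds
    ⟨x.mem_U, trivial⟩) (H.map_eq hf hg))

theorem f_add {K : Pnt E.o r → Prop} {d : ℤ} (g : (H.th K d).OK fun _ => False) (q q' v) :
    ((H.pb g).F () (q + q') v : E.Y) = @HAdd.hAdd E.Y E.Y E.Y _ ((H.pb g).F () q v)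
      (q'.sum fun w c => @HSMul.hSMul ℝ E.Y E.Y _ c ((H.pb g).τ () w v)) :=
  (H.pb g).F_add () q q' v

theorem ex_F {K : Pnt E.o r → Prop} {d : ℤ} (g : (H.th K d).OK fun _ => False) :
    ∃ (F : (Wi →₀ ℝ) → E.C → E.Y) (τ : Wi → E.C → E.Y), (∀ q, E.Map q (F q)) ∧
      ∀ q q' v, F (q + q') v = F q v + q'.sum fun w c => c • τ w v := by
  refine ⟨fun q v => (H.pb g).F () q v, fun w v => (H.pb g).τ () w v, fun q => ?_, fun q q' v => ?_⟩
  · exact H.map g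
  · exact f_add H g q q' v

theorem ex_F' : ∃ (F : (Wi →₀ ℝ) → E.C → E.Y) (τ : Wi → E.C → E.Y), (∀ q, E.Map q (F q)) ∧
      ∀ q q' v, F (q + q') v = F q v + q'.sum fun w c => c • τ w v :=
  ex_F H (K := fun _ => True) (g0 H)

theorem ld_add : ∃ D : (Wi →₀ ℝ) →ₗ[ℝ] E.C →L[ℝ] E.Y, ∀ q q' f g, E.Map q f → E.Map (q + q') g →
    fderiv ℝ g (x.pt 8, ψ) = fderiv ℝ f (x.pt 8, ψ) + D q' :=
  (ex_F' H).elim fun _ h0 => h0.elim fun _ h1 =>
  (aff ((isOpen_U H.F).prod isOpen_univ) (fun q => (h1.1 q).sm) h1.2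
    (v := (x.pt 8, ψ)) ⟨x.mem_U, trivial⟩).imp fun _ hD q q' _ _ hf hg =>
      (ld_eq H x ψ hg (h1.1 _)).trans ((hD q q').trans
        (congrArg (· + _) (ld_eq H x ψ (h1.1 _) hf)))

theorem fr_row (i : p.H) : Fred93.Fr (E.row q x i) 0 :=
  have k : IsCompactOperator (J.σc c q (b.θ p U x.t) i x.cfg) :=
    Hol14.cpt_sum _ fun w _ => (Hol14.cpt_tc (c := x.cfg) (B := J.B c)
      (F := (J.G c (b.θ p U x.t)).F) (k := J.cut c i) ((J.tp c).tc (J.tc i w))).smul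
        (q w * J.cc i w (b.θ p U x.t))
  Hol14.fr_sub (B := J.B c) H.F.B E.o.ok (H.cut_ok H.hb x.ht i) (Hol14.cn0_of (x.ad0 H.F).conn) k

theorem ld_fin {d : ℤ} {f : E.C → E.Y} (i : Idx 8 (EC.tot b p U δ q) x d) (hf : E.Map q f) :
    IsClosed (range (fderiv ℝ f (x.pt 8, ψ))) ∧ ∃ (m : ℕ) (k : (Fin m → ℝ) →L[ℝ] E.Y),
      Surjective ((fderiv ℝ f (x.pt 8, ψ)).coprod k) :=
  fin_fun ((hf.sm.contDiffAt (((isOpen_U H.F).prod isOpen_univ).mem_nhds
      ⟨x.mem_U, trivial⟩)).differentiableAt (by simp))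
    (fun χ => (hf.e x χ).unique H.F (by norm_num) (hf.e x ψ)) (hf.row x)
    (i.slc H.F (by norm_num) ⟨(hf.sm.comp (contDiffOn_id.prodMk contDiffOn_const)
      fun _ k => ⟨k, trivial⟩).fst, fun y => hf.e y ψ⟩) (fr_row H x)

end Crest.Agent.X212.Sep15.Nr
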