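import Crest.Agent.X212.Cqn41.Nr0
import Crest.Agent.X212.Sep15.NrA

/-! X212 / NT-R (helper15): the leaves MAP and FIN. -/

set_option autoImplicit false
noncomputable section

namespace Crest.Agent.X212.Sep15.Nr
open An M Nk89

variable {Wi : Type} {X : Mf 4} {A κ lam : Type} [Fintype A] [Fintype κ] [Fintype lam]
  [DecidableEq lam] {M : Mark X A κ} {W : World M} {N : ML M lam} {Λ : Lns W N}
  {A' h : Type} [Fintype A'] [DecidableEq A'] [Fintype h] {r n : ℕ}
  (J : Job Wi Λ A' h r n) (c : M.Cl)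

theorem mapStmt : Nr41.MapStmt J c := fun _ _ _ _ _ _ _ x ψ H =>
  ⟨fun q => (ex_F' H).elim fun F h0 => h0.elim fun _ h1 => ⟨F q, h1.1 q⟩, ld_add H x ψ⟩

theorem finStmt : Nr41.FinStmt J c := fun _ _ _ _ _ _ _ x ψ _ _ _ H i hf => ld_fin H x ψ i hf

end Crest.Agent.X212.Sep15.Nr
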