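import Crest.Agent.X212.Eqv71.Cyl
import Crest.Agent.X212.Bki64.Lim

/-! X212 / GL-DG (helper15): uniqueness of limits along an end; `Near` and the stabiliser. -/

set_option autoImplicit false
set_option linter.unusedSectionVars false
set_option maxHeartbeats 200000
noncomputable section
open scoped Manifold ContDiff Topology
open Set Function Filter

namespace Crest.Agent.X212.Sep15.Trf
open An Nd18 Bki64
open Eqv71 (Ad0 admOn_pb)

variable {E3 : Type} [NormedAddCommGroup E3] [NormedSpace ℝ E3] [FiniteDimensional ℝ E3]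
  [MeasurableSpace E3] [BorelSpace E3]
  {H3 : Type} [TopologicalSpace H3] {I3 : ModelWithCorners ℝ E3 H3} [I3.Boundaryless]
  {Y : Type} [TopologicalSpace Y] [ChartedSpace H3 Y] [IsManifold I3 ∞ Y] [T2Space Y]
  [MeasurableSpace Y] [BorelSpace Y] [SecondCountableTopology Y] [CompactSpace Y]
  {κ : Type} [Fintype κ] {lam : Type} [Fintype lam] {D : YD I3 Y κ lam} {β β' : YC Y κ lam}
  {E : Type} [NormedAddCommGroup E] [NormedSpace ℝ E] [FiniteDimensional ℝ E]
  [MeasurableSpace E] [BorelSpace E]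
  {HM : Type} [TopologicalSpace HM] {I : ModelWithCorners ℝ E HM} [I.Boundaryless]
  {M : Type} [TopologicalSpace M] [ChartedSpace HM M] [IsManifold I ∞ M]
  [MeasurableSpace M] [BorelSpace M] [T2Space M] [SecondCountableTopology M]
  {B : Base M (Option κ) lam} {r : ℕ} (hβ : D.Adm β) (hβ' : D.Adm β')
include hβ hβ'

/-- **uniqueness of limits** -/
theorem lim_uniq {G : Geo I M (Option κ) lam} {K : Nk D B G} {c : Cfg M (Option κ) lam r}
    (h : Ad0 c B G) {l : Filter ℝ} [l.NeBot] (hl : IsEnd l) {ζ ζ' : Circle} (L : K.Lim c β ζ l)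
    (L' : K.Lim c β' ζ' l) : ∃ g, Stb D β β' g (ζ' / ζ) := by
  obtain ⟨w, L⟩ := L
  obtain ⟨w', L'⟩ := L'
  have a := admOn_pb K h Subset.rfl
  refine stb_of_eta hβ hβ' one_pos fun η hη => ?_
  obtain ⟨S, s1, s2, -⟩ := L 0 1 one_pos
  obtain ⟨s, ⟨s3, s4⟩, s5⟩ := (((cn_of_lim hβ hl a (fun k η hη =>
    let ⟨S, a, b, f⟩ := L k η hη; ⟨S, a, b, f.op, f.m, f.A, f.P⟩) hη 1).and
    (cn_of_lim hβ' hl a (fun k η hη =>
      let ⟨S, a, b, f⟩ := L' k η hη; ⟨S, a, b, f.op, f.m, f.A, f.P⟩) hη 1)).and (hl.ev s1 1)).exists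
  exact ⟨0, K.pb (noz c), s, w, w', ζ, ζ', a.mono (prod_mono_right
    ((Ioo_subset_Icc_self.trans s5).trans s2)), s3, s4, by simpa using hη.le, by simpa using hη.le⟩

/-- `Near` is invariant under exact isomorphisms of the limits -/
theorem near_stb {g : Y → CL β.m.V β'.m.V} {ξ : Circle} (e : Stb D β β' g ξ) {ε : ℝ} (hε : 0 < ε) :
    ∃ η > 0, ∀ (G : Geo I M (Option κ) lam) (K : Nk D B G) (c : Cfg M (Option κ) lam r) s,
      Ad0 c B G → K.Near c s β η → K.Near c s β' ε := by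
  obtain ⟨η, h0, h1⟩ := act_eta hβ hβ' hε
  have p := lt_min h0 hε
  refine ⟨_, p, fun G K c s h ⟨a, u, ζ, f⟩ => ?_⟩
  have i := inv_anti₀ p (min_le_right _ _)
  have j : Ioo (s - ε⁻¹) (s + ε⁻¹) ⊆ Ioo (s - (min η ε)⁻¹) (s + (min η ε)⁻¹) :=
    Ioo_subset_Ioo (by linarith) (by linarith)
  have k := (h1 _ _ _ _ _ _ _ e (Cn.mono (cl_of_cls (c := K.pb (noz c)) hβ (admOn_pb K h a)
    ⟨f.op, f.m, f.A, f.P⟩) (win_op s ε⁻¹) (prod_mono_right j) p (min_le_left _ _))).cls hβ'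
      isOpen_Ioo (admOn_pb K h (j.trans a))
  exact ⟨j.trans a, _, _, k.op, k.m, k.A, k.P⟩

end Crest.Agent.X212.Sep15.Trf
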