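import Crest.Agent.X212.Sep15.Glu
import Crest.Agent.X212.Sep15.CvD
import Crest.Agent.X212.Pb50.Pt

/-!
# X212/Sep15/Pg (helper15): SW-CONV, gluing of gauge transformations along the ends
-/

set_option autoImplicit false
set_option linter.unusedSectionVars false
set_option maxHeartbeats 200000
noncomputable section
open scoped Manifold ContDiff Topology InnerProductSpace
open MeasureTheory Set Function Filter

namespace Crest.Agent.X212.Sep15.S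
open An Cyf70 Sw Sw.En3
open M (Mf pm)
open Nd18 (Jv)
open Pb50 (LA LG ng_p ng_q ng_ψ ng_inf ng_far)
open Wz78 (SA)
open Win39 (nh gau_at)

variable {κ lam ν : Type} [Fintype κ] [Fintype lam] [Fintype ν] [DecidableEq ν]
  {X : Mf 4} {nc nr : ℕ}

section nk
variable {e : En3 κ lam ν} {B : Bg X.I X.M κ lam ν nc} (K : Nk e B) {b : Bool} {a : ℝ}

/-- the start of the ends -/
def a0 : ℝ := |K.p.getD 0| + |K.q.getD 0|

theorem a0_nonneg : 0 ≤ a0 K := add_nonneg (abs_nonneg _) (abs_nonneg _)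

theorem ir_deep (h : K.Inf b) {d : ℝ} (ha : a0 K + d ≤ a) : ir b a ⊆ K.deep d := fun t ht => by
  have ht : a < pm b * t := ht
  refine mem_Jv_map.2 ⟨fun x hx => ?_, fun x hx => ?_⟩ <;> cases b <;>
    simp only [a0, Nk.Inf, pm, if_true, Bool.false_eq_true, if_false, Option.mem_def.1 hx,
      Option.getD_some, reduceCtorEq] at h ht ha
  · linarith [le_abs_self x, abs_nonneg (K.q.getD 0)]
  · linarith [neg_abs_le x, abs_nonneg (K.p.getD 0)]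

theorem ir_J (h : K.Inf b) (ha : a0 K ≤ a) : ir b a ⊆ K.J := by
  simpa [Nk.deep] using ir_deep K h (d := 0) (by rwa [add_zero])

theorem far_ir (h : K.Inf b) (ha : a0 K ≤ a) : K.far b a = ir b a := inter_eq_right.2 (ir_J K h ha)

theorem tm_tgt (h : K.Inf b) (ha : a0 K ≤ a) {x : X.M} (hx : a < pm b * K.tm x) :
    x ∈ K.ψ.target ∧ (K.ψ.symm x).2 = K.tm x :=
  have k : x ∈ K.ψ.target := K.tgt ▸ ir_J K h ha hx
  ⟨k, (K.tm_ψ _ (K.ψ.map_target k)).symm.trans (congrArg _ (K.ψ.right_inv k))⟩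

theorem gauOn_ψ {u : X.M → ℂ} (hu : Gau X.I u) {I : Set ℝ} (h : I ⊆ K.J) :
    GauOn e.Z.I (fun x => u (K.ψ x)) (univ ×ˢ I) :=
  ⟨fun _ hx => (Pb50.sa_ψ K (K.mem_src.2 (h hx.2)) (hu.1 _)).contMDiffWithinAt, fun _ _ => hu.2 _⟩

theorem asy_of (h : K.Inf b) (ha : a0 K ≤ a) {c : Cfg X.M κ ν} {v : e.YC} (hv : e.cyl.Adm (fz v))
    (hc : e.cyl.AdmOn (K.pb c) (univ ×ˢ K.J)) (ht : ∀ w, tz (K.pb c) v (ir b a) w ≠ ⊤) :
    K.Asy b v c := by
  have l := fun x (hx : x ∈ univ ×ˢ ir b a) =>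
    LA.of_on hc (op (isOpen_Jv _ _)) (x := x) ⟨trivial, ir_J K h ha hx.2⟩
  refine ⟨a, far_ir K h ha ▸ ⟨fun i => hh_of (isOpen_ir b a) (fun x hx => ((l x hx).sa i).sub (hv.sa i x))
    fun w => ne_top_of_le_ne_top (ht w) (lintegral_mono fun x => ?_), hh_of (isOpen_ir b a)
    (fun x hx => (l x hx).sΦ.sub (hv.sΦ x)) fun w => ne_top_of_le_ne_top (ht w)
      (lintegral_mono fun x => le_add_self)⟩⟩
  exact (Finset.single_le_sum (f := fun i => ‖e.D.Z.Dw w ((K.pb c).a i - (fz v).a i) x‖ₑ ^ 2)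
    (fun _ _ => zero_le) (Finset.mem_univ i)).trans le_self_add

theorem tail (h : K.Inf b) {c : Cfg X.M κ ν} {v : e.YC} (hc : K.Asy b v c) (k : ℕ) {ε : ℝ}
    (hε : 0 < ε) : ∀ᶠ r in atTop, Tz (K.pb c) v (ir b r) k ε := by
  obtain ⟨T, h1, h2⟩ := hc
  obtain ⟨n, hn⟩ := (ev_words k fun w => (Cut71.tlz_tendsto (isOpen_Jv _ _).measurableSet h1 h2
    w).eventually (ge_mem_nhds (ENNReal.ofReal_pos.2 hε))).exists
  filter_upwards [eventually_ge_atTop (T + n), eventually_ge_atTop (a0 K)] with r a1 a2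
  exact tz_of hn (fun t ht => ⟨ir_J K h a2 ht, a1.trans_lt ht⟩) le_rfl le_rfl

end nk

section pz
variable {N : Type} [Fintype N] {e : N → En3 κ lam ν} {P : Pz X nc e}

theorem ev_ends {α : Type} {l : Filter α} {p : ∀ i, Bool → Nk (e i) P.bg → α → Prop}
    (h : ∀ i b, ∀ K ∈ P.nk i, K.Inf b → ∀ᶠ x in l, p i b K x) :
    ∀ᶠ x in l, ∀ i b, ∀ K ∈ P.nk i, K.Inf b → p i b K x := by
  refine eventually_all.2 fun i => eventually_all.2 fun b => ?_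
  cases e : P.nk i with
  | none => simp
  | some K =>
    by_cases k : K.Inf b
    · exact (h i b K e k).mono fun x hx K' h' _ => Option.some.inj h' ▸ hx
    · exact .of_forall fun x K' h' k' => (k (Option.some.inj h' ▸ k')).elim

theorem core_tm {r : ℝ} {x : X.M} (hx : x ∈ P.core r) {i : N} {b : Bool} {K : Nk (e i) P.bg}
    (hK : K ∈ P.nk i) (hb : K.Inf b) : pm b * K.tm x ≤ max r (a0 K) := by
  by_contra! h
  obtain ⟨h1, h2⟩ := tm_tgt K hb (le_max_right r _) h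
  exact hx i b K hK hb ⟨_, ⟨trivial, K.mem_src.1 (K.ψ.map_target h1),
    show r < _ from h2 ▸ (le_max_left _ _).trans_lt h⟩, K.ψ.right_inv h1⟩

theorem mem_reg (hP : P.OK) {i : N} {K : Nk (e i) P.bg} (hK : K ∈ P.nk i)
    {ρ : N → Bool → Option ℝ} {x : (e i).Y.M × ℝ} (hx : x.2 ∈ K.J)
    (hρ : ∀ b, ∀ r ∈ ρ i b, pm b * x.2 ≤ r) : K.ψ x ∈ P.reg ρ := by
  rintro j b K' h1 - r hr ⟨z, hz, e⟩
  have s1 := K'.mem_src.2 hz.2.1
  have s2 := K.mem_src.2 hx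
  by_cases hj : j = i
  · subst hj
    obtain rfl := Option.mem_unique hK h1
    obtain rfl := K.ψ.injOn s1 s2 e
    exact (hρ b r hr).not_gt hz.2.2
  · exact disjoint_left.1 (hP.dj hj K' h1 K hK) (K'.ψ.map_source s1) (e ▸ K.ψ.map_source s2)

theorem core_reg {ρ : N → Bool → Option ℝ} {r : ℝ} (h : ∀ i b, ∀ r' ∈ ρ i b, r ≤ r') :
    P.core r ⊆ P.reg ρ := fun _ hx i b K h1 h2 r' h3 k =>
  hx i b K h1 h2 (image_mono (Pb50.far_mono K (h i b r' h3)) k)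

/-- **gluing** -/
theorem glue (hP : P.OK) {R R' : ℝ} (hR : R < R') {w : X.M → ℂ} (hw : Gau X.I w)
    {Q : ∀ i, Bool → Nk (e i) P.bg → ((e i).Y.M × ℝ → ℂ) → Prop}
    (h : ∀ i b, ∀ K ∈ P.nk i, K.Inf b → a0 K ≤ R ∧ ∃ h, GauOn (e i).Z.I h (univ ×ˢ ir b R) ∧
      (∀ x ∈ univ ×ˢ iv b R R', h x = w (K.ψ x)) ∧ Q i b K h) :
    ∃ U, Gau X.I U ∧ (∀ r < R', ∀ x ∈ P.core r, U =ᶠ[𝓝 x] w) ∧ ∀ i b, ∀ K ∈ P.nk i, K.Inf b →
      ∃ h, (∀ x ∈ univ ×ˢ ir b R, U (K.ψ x) = h x) ∧ Q i b K h := by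
  classical
  have : ∀ p : N × Bool, ∃ f : X.M → ℂ, Gau X.I f ∧ (∀ x, (∀ K ∈ P.nk p.1, K.Inf p.2 →
      pm p.2 * K.tm x < R') → f =ᶠ[𝓝 x] 1) ∧ ∀ K ∈ P.nk p.1, K.Inf p.2 → ∃ h,
      (∀ x ∈ univ ×ˢ ir p.2 R, f (K.ψ x) * w (K.ψ x) = h x) ∧ Q p.1 p.2 K h := fun ⟨i, b⟩ => by
    by_cases k : P.Inf i b
    swap
    · exact ⟨1, ⟨contMDiff_const, fun _ => norm_one⟩, fun _ _ => .rfl,
        fun K h1 h2 => (k ⟨K, h1, h2⟩).elim⟩
    obtain ⟨K, h1, h2⟩ := k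
    obtain ⟨a, g, g1, g2, g3⟩ := h i b K h1 h2
    have ct : Continuous fun x => pm b * K.tm x := continuous_const.mul K.cont
    let f : X.M → ℂ := fun x => if R < pm b * K.tm x then g (K.ψ.symm x) * star (w x) else 1
    have m : ∀ {x}, R < pm b * K.tm x → K.ψ.symm x ∈ univ ×ˢ ir b R := fun k =>
      ⟨trivial, show R < _ from (tm_tgt K h2 a k).2 ▸ k⟩
    have f1 : ∀ x, pm b * K.tm x < R' → f =ᶠ[𝓝 x] 1 := fun x hx => by
      filter_upwards [(isOpen_lt ct continuous_const).mem_nhds hx] with y hy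
      refine ite_eq_right_iff.2 fun k => ?_
      rw [g2 _ ⟨trivial, (m k).2, (tm_tgt K h2 a k).2 ▸ hy⟩, K.ψ.right_inv (tm_tgt K h2 a k).1,
        mul_comm, Pb50.star_mul_one (hw.2 y)]
    refine ⟨f, ⟨fun x => ?_, fun x => ?_⟩, fun x hx => f1 x (hx K h1 h2), fun K' h3 _ => ?_⟩
    · rcases lt_or_ge R (pm b * K.tm x) with k | k
      · refine (Wz78.SA.mul ((gau_at (isOpen_ir b R) g1 (m k)).comp x (K.iso.sm'.contMDiffAt
          (K.ψ.open_target.mem_nhds (tm_tgt K h2 a k).1))) (Pb50.sa_star (hw.1 x))).congr_of_eventuallyEq ?_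
        filter_upwards [(isOpen_lt continuous_const ct).mem_nhds k] with y hy
        exact if_pos hy
      · exact contMDiffAt_const.congr_of_eventuallyEq (f1 x (k.trans_lt hR))
    · by_cases k : R < pm b * K.tm x
      · simp only [f, if_pos k, norm_mul, norm_star, hw.2, g1.2 _ (m k), mul_one]
      · simp only [f, if_neg k, norm_one]
    · obtain rfl := Option.mem_unique h1 h3
      refine ⟨g, fun x hx => ?_, g3⟩
      have s := K.mem_src.2 (ir_J K h2 a hx.2)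
      simp only [f, K.tm_ψ x s, if_pos (show R < _ from hx.2), K.ψ.left_inv s, mul_assoc,
        Pb50.star_mul_one (hw.2 _), mul_one]
  choose f f1 f2 f3 using this
  refine ⟨fun x => (∏ p, f p x) * w x, ⟨fun x => Wz78.SA.mul ?_ (hw.1 x), fun x => ?_⟩,
    fun r hr x hx => ?_, fun i b K h1 h2 => (f3 (i, b) K h1 h2).imp fun g k => ⟨fun x hx => ?_, k.2⟩⟩
  · rw [show (fun x => ∏ p, f p x) = ∏ p, f p from (Finset.prod_fn _ _).symm]
    exact Finset.prod_induction f (fun f => SA X.I f x) (fun _ _ => Wz78.SA.mul) contMDiffAt_const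
      fun p _ => (f1 p).1 x
  · simp only [norm_mul, norm_prod, (f1 _).2, hw.2, Finset.prod_const_one, mul_one]
  · filter_upwards [eventually_all.2 fun p => f2 p x fun K h1 h2 => (core_tm hx h1 h2).trans_lt
      (max_lt hr ((h _ _ K h1 h2).1.trans_lt hR))] with y hy
    simp only [hy, Pi.one_apply, Finset.prod_const_one, one_mul]
  · have a := (h i b K h1 h2).1
    have s := K.mem_src.2 (ir_J K h2 a hx.2)
    refine (congrArg (· * _) (Fintype.prod_eq_single (f := fun p => f p (K.ψ x)) (i, b)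
      fun ⟨j, b'⟩ hp => (f2 (j, b') _ fun K' h3 h4 => ?_).self_of_nhds)).trans (k.1 x hx)
    by_contra! k'
    by_cases hj : j = i
    · subst hj
      obtain rfl := Option.mem_unique h1 h3
      have : R < pm b * x.2 := hx.2
      rw [K.tm_ψ x s] at k'
      cases b <;> cases b' <;> simp only [pm, ne_eq, not_true, if_true, Bool.false_eq_true, if_false]
        at hp k' this <;> linarith [a0_nonneg K]
    · exact disjoint_left.1 (hP.dj hj K' h3 K h1) (tm_tgt K' h4 (h _ _ K' h3 h4).1 (hR.trans_le k')).1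
        (K.ψ.map_source s)

/-- **patching and gluing** -/
theorem pg (hP : P.OK) {β : BCs e} (hβ : P.Gd β) (k : ℕ) {ε : ℝ} (hε : 0 < ε) :
    ∀ᶠ η in 𝓝[>] 0, ∀ (s : ℝ) (c : Cfg X.M κ ν) w
      (Q : ∀ i, Bool → Nk (e i) P.bg → ((e i).Y.M × ℝ → ℂ) → Prop), Gau X.I w →
      (∀ i b, ∀ K ∈ P.nk i, K.Inf b → a0 K ≤ s - 3 / 4 ∧ (e i).cyl.AdmOn (K.pb c) (univ ×ˢ K.J) ∧
        Cl ((e i).cyl.act (fun x => w (K.ψ x)) (K.pb c)) (fz (β i b)) (iv b (s - 3 / 4) (s + 3 / 4)) k η ∧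
        ∃ G, GauOn (e i).Z.I G (univ ×ˢ ir b (s - 3 / 4)) ∧
          Cl ((e i).cyl.act G (K.pb c)) (fz (β i b)) (iv b (s - 3 / 4) (s + 3 / 4)) k η ∧ Q i b K G) →
      ∃ V, Gau X.I V ∧ (∀ r < s - 1 / 2, ∀ x ∈ P.core r, V =ᶠ[𝓝 x] w) ∧
        ∀ i b, ∀ K ∈ P.nk i, K.Inf b → Cl ((e i).cyl.act (fun x => V (K.ψ x)) (K.pb c)) (fz (β i b))
          (iv b (s - 3 / 4) (s + 3 / 4)) k ε ∧
          ∃ G, Q i b K G ∧ ∀ x, s + 1 / 2 ≤ pm b * x.2 → V (K.ψ x) = G x := by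
  filter_upwards [ev_ends (P := P) fun i b K h1 h2 =>
    let ⟨η, h0, h⟩ := pat (hP.en i) (hβ i b ⟨K, h1, h2⟩).crit.1 (hβ i b ⟨K, h1, h2⟩).irr k hε
    ev_small h0 fun η' h3 c u s a1 a2 a3 a4 => h c u b s _ (isOpen_iv b _ _) Subset.rfl a1 a2
      (cl_mono a3 Subset.rfl le_rfl h3) (cl_mono a4 Subset.rfl le_rfl h3)] with η hη s c w Q hw h
  have o := fun b => isOpen_iv b (s - 3 / 4) (s + 3 / 4)
  obtain ⟨V, v1, v2, v3⟩ := glue hP (show s - 3 / 4 < s - 1 / 2 by linarith) hw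
    (Q := fun i b K h => Cl ((e i).cyl.act h (K.pb c)) (fz (β i b)) (iv b (s - 3 / 4) (s + 3 / 4)) k ε ∧
      ∃ G, Q i b K G ∧ ∀ x, s + 1 / 2 ≤ pm b * x.2 → h x = G x) fun i b K h1 h2 => by
      obtain ⟨a1, a2, a3, G, a4, a5, a6⟩ := h i b K h1 h2
      have s1 := prod_mono_right (s := (univ : Set (e i).Y.M))
        (iv_sub_ir (b := b) (r := s + 3 / 4) (le_refl (s - 3 / 4)))
      have s2 := (iv_sub_ir (r := s + 3 / 4) le_rfl).trans (ir_J K h2 a1)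
      have g1 := gauOn_mono a4 s1
      have g2 := gauOn_ψ K hw s2
      obtain ⟨u, u1, u2, u3, u4⟩ := hη i b K h1 h2 _ _ s (admOn_act (hP.en i) (o b)
        (admOn_mono a2 (prod_mono_right s2)) g1) (gauOn_mul (gauOn_star g1) g2) a5
        ((ag_div (hP.en i) (o b) g1 g2 _).cl (o b) a3)
      have u5 := gauOn_mono u1 (prod_mono_right subset_union_right)
      refine ⟨a1, fun x => u x * G x, gauOn_mul a4 u5, fun x hx => ?_,
        (ag_mul (hP.en i) (o b) g1 (gauOn_mono u5 s1) _).symm.cl (o b) u4, G, a6,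
        fun x hx => by simp only [u3 x hx, one_mul]⟩
      simp only [u2 x ⟨trivial, hx.2.1, by linarith [hx.2.2]⟩ hx.2.2.le, mul_assoc,
        Pb50.star_mul_one (a4.2 x ⟨trivial, hx.2.1⟩), mul_one]
  refine ⟨V, v1, v2, fun i b K h1 h2 => ?_⟩
  obtain ⟨g, g1, g2, G, g3, g4⟩ := v3 i b K h1 h2
  exact ⟨(ag_act (o b) (fun x hx => g1 x ⟨trivial, hx.2.1⟩) _).cl (o b) g2, G, g3, fun x hx =>
    (g1 x ⟨trivial, show _ < pm b * x.2 by linarith⟩).trans (g4 x hx)⟩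

end pz

section fam
variable {d : Dt κ lam ν} {N : Type} [Fintype N] {ty : N → d.𝓔} {q : d.W →₀ ℝ} {c : Cfg X.M κ ν}

theorem small_mono {P : Pc d X nc ty} {k : ℕ} {η : ℝ} (h : P.Small k η q) (h1 : η ≤ 1) :
    P.Small 0 1 q :=
  let ⟨s, a, b⟩ := h
  ⟨s, a.trans h1, fun w hw => let ⟨b1, b2, b3, b4, b5⟩ := b w hw
    ⟨b1, Sob92.CB_of_le b2 k.zero_le, b3, b4, fun i T hT j hj r =>
      Sob92.CB_of_le (b5 i T hT j (hj.trans k.zero_le) r) k.zero_le⟩⟩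

theorem sml_of {P : Pc d X nc ty} {k : ℕ} {η : ℝ} (h : P.Small k η q) (i : N) :
    Sml (fun w => d.yt w (ty i)) q k η :=
  h.imp fun _ h => ⟨h.1, fun w hw => ⟨(h.2 w hw).1, (h.2 w hw).2.2.2.2 i⟩⟩

theorem sol_act {P : Pc d X nc ty} (hP : P.OK) (h : P.bg.Sol (P.pt q) c) {u : X.M → ℂ}
    (hu : Gau X.I u) : P.bg.Sol (P.pt q) (P.bg.act u c) := by
  obtain ⟨a, a1, a2, -, a3, a4, a5, -, -, a6⟩ := (Pb50.pb κ lam ν).act d X nc N ty P hP c u h.toAdm hu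
  refine ⟨a, fun x _ => ⟨(a1 x).trans ((congrArg _ (h.eq x trivial).1).trans (a2 x).symm), ?_⟩,
    fun j => ?_⟩
  · simpa only [Pc.pt, a3, a4, a5] using (h.eq x trivial).2
  · obtain ⟨z, -, hz⟩ := a6 j
    have := h.l j
    simp only [Pc.pt, Bg.l, hz _ (hP.bg.ct j).η, hz _ (hP.η _ j), Finsupp.sum] at this ⊢
    simp only [this, Finset.mul_sum, mul_smul_comm]

variable {T : Type} [NormedAddCommGroup T] [NormedSpace ℝ T] [FiniteDimensional ℝ T]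
  {s : Pz X 0 fun i => d.e (ty i)} {𝓕 : Fam s nc T} (h : 𝓕.OK) {t : T} (ht : t ∈ 𝓕.Q)
include h ht

theorem f_as {β : BCs fun i => d.e (ty i)} : (𝓕.P t).As β c ↔ (𝓕.P t).bg.Adm c ∧
    ∀ i b, ∀ K ∈ s.nk i, K.Inf b → K.Asy b (β i b) c :=
  and_congr_right fun _ => Pb50.ends_iff h ht fun _ _ _ _ _ k => Pb50.ng_asy k _ _

variable {i : N} {K : Nk (d.e (ty i)) s.bg} (hK : K ∈ s.nk i)
include hK

theorem f_nk : ∃ K' ∈ (𝓕.P t).nk i, K'.ψ = K.ψ ∧ K'.J = K.J ∧ K'.deep 2 = K.deep 2 :=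
  let ⟨K', a, k⟩ := h.en t ht i K hK
  ⟨K', a, ng_ψ k, by simp only [Nd18.Nk.J, ng_p k, ng_q k], by simp only [Nk.deep, ng_p k, ng_q k]⟩

theorem f_adm (hc : (𝓕.P t).bg.Adm c) : (d.e (ty i)).cyl.AdmOn (K.pb c) (univ ×ˢ K.J) := by
  obtain ⟨K', -, k1, k2, -⟩ := f_nk h ht hK
  simpa only [Nk.pb, k1, k2] using Pb50.admOn_pb K' hc

theorem f_act (u : X.M → ℂ) (c : Cfg X.M κ ν) : Ag (K.pb ((𝓕.P t).bg.act u c))
    ((d.e (ty i)).cyl.act (fun x => u (K.ψ x)) (K.pb c)) K.J := fun x hx => by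
  obtain ⟨K', -, k1, k2, -⟩ := f_nk h ht hK
  simpa only [Nk.pb, k1] using Pb50.pb_act K' (K'.mem_src.2 (k2 ▸ hx.2)) u c

theorem f_en (c : Cfg X.M κ ν) : en (K.pb c) (K.deep 2) ≤ (𝓕.P t).ean c := by
  obtain ⟨K', a, k1, -, k2⟩ := f_nk h ht hK
  refine le_trans (le_trans ?_ (Finset.single_le_sum (fun _ _ => zero_le) (Finset.mem_univ i)))
    le_add_self
  simp only [Option.mem_def.1 a, Option.elim_some, Nk.pb, k1, k2, le_refl]

theorem f_eq {I : Set ℝ} (hI : I ⊆ K.deep 2) {O : Set X.M}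
    (e : (𝓕.P t).bg.EqOn ((𝓕.P t).pt q) c O) (hO : ∀ x ∈ univ ×ˢ I, K.ψ x ∈ O)
    (h0 : ∀ w ∈ q.support, ∀ x ∈ univ ×ˢ I, (𝓕.P t).fo w (K.ψ x) = 0) :
    (d.e (ty i)).cyl.EqOn (pt (fun w => d.yt w (ty i)) q) (K.pb c) (univ ×ˢ I) := fun x hx => by
  obtain ⟨K', a, k1, -, k2⟩ := f_nk h ht hK
  rw [Nk.pb, ← k1]
  rw [← k1] at hO h0
  rw [← k2] at hI
  have hs := K'.mem_src.2 (Pb50.deep_J K' two_pos (hI hx.2))
  obtain ⟨h1, h2⟩ := Pb50.pt_ψ (h.ok t ht).toOK q c a (hI hx.2) fun w hw => h0 w hw x hx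
  rw [← Pb50.eD_ψ K' hs, ← Pb50.eC_ψ K' hs, ← h1, ← h2]
  exact e _ (hO x hx)

end fam

end Crest.Agent.X212.Sep15.S
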