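import Crest.Agent.X212.Qab60.Frm

/-! X212 / QA (helper15): the Hodge star of the area form on `S¹ × S² × ℝ`. -/

set_option autoImplicit false
set_option linter.unusedSectionVars false
set_option maxHeartbeats 200000
noncomputable section
open scoped Manifold ContDiff Topology InnerProductSpace
open MeasureTheory Finset Function Filter
open Crest.Agent.R208.F (Ext io)
open Crest.Agent.R208.FI (IsDeg)

namespace Crest.Agent.X212.Sep15.Qa
open An Map77 Num57 Int54 Qab60
open Dr59 (SmAt dM df CAt)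
open Wz78 (Pr)

section pt
variable {ι : Type} [Fintype ι] {P : ι → ι → ℝ} {o : ι → ι → ι → ι → ℝ}

theorem on_of (h : Pr P) (ht : ∑ a, P a a = 4) {u : ι → Fin 4 → ℝ}
    (h1 : ∀ i j, ∑ a, u a i * u a j = if i = j then 1 else 0)
    (h2 : ∀ a i, ∑ k, P a k * u k i = u a i) : ON P u := by
  classical
  refine ⟨h1, fun a b => ?_⟩
  let A : Matrix ι ι ℝ := Matrix.of P
  let U : Matrix ι (Fin 4) ℝ := Matrix.of u
  have e1 : U.transpose * U = 1 := by
    ext i j; simpa [U, Matrix.mul_apply, Matrix.one_apply] using h1 i j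
  have e2 : A * U = U := by ext a i; simpa [A, U, Matrix.mul_apply] using h2 a i
  have e3 : A.transpose = A := by ext a b; simpa [A] using h.symm b a
  have e4 : A * A = A := by ext a b; simpa [A, Matrix.mul_apply] using h.idem a b
  have e5 : U.transpose * A = U.transpose := by
    rw [← e3, ← Matrix.transpose_mul, e2]
  have e6 : (A - U * U.transpose).conjTranspose * (A - U * U.transpose) = A - U * U.transpose := by
    rw [Matrix.conjTranspose_eq_transpose_of_trivial, Matrix.transpose_sub, Matrix.transpose_mul,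
      Matrix.transpose_transpose, e3, sub_mul, mul_sub, mul_sub, e4, ← Matrix.mul_assoc A, e2,
      Matrix.mul_assoc U _ A, e5, Matrix.mul_assoc U, ← Matrix.mul_assoc U.transpose, e1,
      Matrix.one_mul]
    abel
  have e7 : (A - U * U.transpose).trace = 0 := by
    rw [Matrix.trace_sub, Matrix.trace_mul_comm, e1, Matrix.trace_one]
    simpa [A, Matrix.trace, sub_eq_zero] using ht
  have e8 := Matrix.trace_conjTranspose_mul_self_eq_zero_iff.1 (e6.symm ▸ e7)
  simpa [A, U, Matrix.mul_apply, sub_eq_zero] using congrFun (congrFun e8 a) b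

theorem cof_lin (x y : Fin 4 → ℝ) (f : ι → ℝ) (z : ι → Fin 4 → ℝ) (l : Fin 4) :
    ∑ c, f c * cof x y (z c) l = cof x y (fun i => ∑ c, f c * z c i) l := by
  fin_cases l <;>
  · simp only [cof, Matrix.cons_val_zero, Matrix.cons_val_one, Matrix.cons_val, Fin.zero_eta,
      Fin.mk_one, Fin.reduceFinMk, mul_sum, ← sum_sub_distrib, ← sum_add_distrib,
      ← sum_neg_distrib]
    exact sum_congr rfl fun c _ => by ring

theorem frame1 (h : Vol P o) {u : ι → Fin 4 → ℝ} (hu : ON P u) : ∃ s : ℝ, s ^ 2 = 1 ∧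
    ∀ (a b : ι) (x y : ι → ℝ), ∑ c, ∑ d, o a b c d * (x c * y d) =
      s * ∑ l, cof (u a) (u b) (fun i => ∑ c, x c * u c i) l * ∑ d, y d * u d l := by
  obtain ⟨s, hs⟩ := h.frame hu
  have k : ∀ a b c e f g, ∑ d, o a b c d * o e f g d = s ^ 2 * det3 P a b c e f g := by
    intro a b c e f g
    have e1 : det3 P a b c e f g = ∑ l, cof (u a) (u b) (u c) l * cof (u e) (u f) (u g) l := by
      rw [cof_dot]; simp only [det3, hu.pr]
    have e2 : ∑ l, cof (u a) (u b) (u c) l * cof (u e) (u f) (u g) l = ∑ l, ∑ m,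
        cof (u a) (u b) (u c) l * cof (u e) (u f) (u g) m * ∑ d, u d l * u d m := by
      simp only [hu.on, mul_ite, mul_one, mul_zero, sum_ite_eq, mem_univ, if_true]
    rw [e1, e2]
    simp only [hs, Fin.sum_univ_four, mul_sum, ← sum_add_distrib, mul_add]
    exact sum_congr rfl fun d _ => by ring
  refine ⟨s, ?_, fun a b x y => ?_⟩
  · have h1 := h.nm
    simp only [sq (o _ _ _ _), k, ← mul_sum, h.sum_det, sum_sub_distrib, h.tr,
      h.pr.idem, ← sum_mul] at h1
    linarith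
  · simp only [← cof_lin, sum_mul_sum]
    rw [sum_comm (s := univ (α := Fin 4)), mul_sum]
    refine sum_congr rfl fun c _ => ?_
    rw [sum_comm (s := univ (α := Fin 4)), mul_sum]
    refine sum_congr rfl fun d _ => ?_
    simp only [hs, mul_sum, sum_mul]
    exact sum_congr rfl fun l _ => by ring

/-- the Gram matrix of `dt`, `dθ`, `dϖ` -/
structure Gm (τ ν : ι → ℝ) (p : Fin 3 → ι → ℝ) (w : Fin 3 → ℝ) : Prop where
  tt : ∑ a, τ a * τ a = 1
  nn : ∑ a, ν a * ν a = 1
  tn : ∑ a, τ a * ν a = 0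
  tp : ∀ j, ∑ a, τ a * p j a = 0
  np : ∀ j, ∑ a, ν a * p j a = 0
  pp : ∀ i j, ∑ a, p i a * p j a = (if i = j then 1 else 0) - w i * w j
  ww : ∑ j, w j * w j = 1

variable {τ ν : ι → ℝ} {p : Fin 3 → ι → ℝ} {w : Fin 3 → ℝ}

theorem Gm.wp (g : Gm τ ν p w) (a : ι) : ∑ j, w j * p j a = 0 := by
  have e : ∑ a, (∑ j, w j * p j a) ^ 2 = ∑ i, ∑ j, w i * w j * ∑ a, p i a * p j a := by
    simp only [Fin.sum_univ_three, mul_sum, ← sum_add_distrib]
    exact sum_congr rfl fun a _ => by ring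
  have e2 : ∑ a, (∑ j, w j * p j a) ^ 2 = 0 := by
    have := g.ww
    rw [e]
    simp only [g.pp, Fin.sum_univ_three] at this ⊢
    simp
    linear_combination (-(w 0 * w 0 + w 1 * w 1 + w 2 * w 2)) * this
  exact pow_eq_zero_iff two_ne_zero |>.1
    ((sum_eq_zero_iff_of_nonneg fun _ _ => sq_nonneg _).1 e2 a (mem_univ _))

theorem star_pt (h : Vol P o) (g : Gm τ ν p w) (hτ : ∀ a, ∑ k, P a k * τ k = τ a)
    (hν : ∀ a, ∑ k, P a k * ν k = ν a) (hp : ∀ j a, ∑ k, P a k * p j k = p j a) :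
    ∃ s : ℝ, s ^ 2 = 1 ∧ ∀ a b, ∑ c, ∑ d, o a b c d / 2 *
      ∑ k : Fin 3, w k * (p (k + 1) c * p (k + 2) d - p (k + 1) d * p (k + 2) c) =
        s * (τ a * ν b - τ b * ν a) := by
  let u : ι → Fin 4 → ℝ := fun a => Fin.cons (ν a) fun j => w j * τ a + p j a
  have q1 : ∀ j, ∑ a, ν a * (w j * τ a + p j a) = 0 := fun j => by
    have : ∀ a, ν a * (w j * τ a + p j a) = w j * (τ a * ν a) + ν a * p j a := fun a => by ring
    simp only [this, sum_add_distrib, ← mul_sum, g.tn, g.np]; ring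
  have q2 : ∀ i j, ∑ a, p i a * (w j * τ a + p j a) = (if i = j then 1 else 0) - w i * w j :=
    fun i j => by
      have : ∀ a, p i a * (w j * τ a + p j a) = w j * (τ a * p i a) + p i a * p j a :=
        fun a => by ring
      simp only [this, sum_add_distrib, ← mul_sum, g.tp, g.pp]; ring
  have q3 : ∀ i j, ∑ a, (w i * τ a + p i a) * (w j * τ a + p j a) = if i = j then 1 else 0 :=
    fun i j => by
      have : ∀ a, (w i * τ a + p i a) * (w j * τ a + p j a) = w i * w j * (τ a * τ a) +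
          w i * (τ a * p j a) + p i a * (w j * τ a + p j a) := fun a => by ring
      simp only [this, sum_add_distrib, ← mul_sum, g.tt, g.tp, q2]; ring
  have hu : ON P u := on_of h.pr h.tr (fun i j => by
    refine Fin.cases ?_ (fun i => ?_) i <;> refine Fin.cases ?_ (fun j => ?_) j
    · simpa [u] using g.nn
    · simpa [u, (Fin.succ_ne_zero j).symm] using q1 j
    · simpa [u, mul_comm] using q1 i
    · simpa [u] using q3 i j) fun a i => by
    refine Fin.cases (hν a) (fun i => ?_) i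
    simp only [u, Fin.cons_succ, mul_add, sum_add_distrib, hp, mul_left_comm _ (w i), ← mul_sum, hτ]
  obtain ⟨s, h1, h2⟩ := frame1 h hu
  refine ⟨-s, by rw [neg_sq, h1], fun a b => ?_⟩
  have e : ∀ i l, ∑ c, p i c * u c l = ![0, (if i = 0 then 1 else 0) - w i * w 0,
      (if i = 1 then 1 else 0) - w i * w 1, (if i = 2 then 1 else 0) - w i * w 2] l := fun i l => by
    fin_cases l
    exacts [by simpa [u, mul_comm] using g.np i, q2 i 0, q2 i 1, q2 i 2]
  have e2 : ∑ c, ∑ d, o a b c d / 2 *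
      ∑ k : Fin 3, w k * (p (k + 1) c * p (k + 2) d - p (k + 1) d * p (k + 2) c) =
      ∑ k : Fin 3, w k / 2 * (∑ c, ∑ d, o a b c d * (p (k + 1) c * p (k + 2) d) -
        ∑ c, ∑ d, o a b c d * (p (k + 2) c * p (k + 1) d)) := by
    simp only [Fin.sum_univ_three, mul_sum, ← sum_sub_distrib, ← sum_add_distrib]
    exact sum_congr rfl fun c _ => sum_congr rfl fun d _ => by ring
  have e3 : ∀ a, τ a = ∑ j, w j * u a j.succ := fun a => by
    simp only [u, Fin.cons_succ, mul_add, sum_add_distrib, g.wp, ← mul_assoc, ← sum_mul, g.ww]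
    ring
  have e4 : ∀ a, ν a = u a 0 := fun a => rfl
  rw [e2, e3 a, e3 b, e4 a, e4 b]
  simp only [h2, e]
  generalize u a = x
  generalize u b = y
  simp [Fin.sum_univ_succ, cof]
  ring

end pt

variable {E : Type} [NormedAddCommGroup E] [NormedSpace ℝ E] [FiniteDimensional ℝ E]
  [MeasurableSpace E] [BorelSpace E]
  {HM : Type} [TopologicalSpace HM] {I : ModelWithCorners ℝ E HM} [I.Boundaryless]
  {M : Type} [TopologicalSpace M] [ChartedSpace HM M] [IsManifold I ∞ M]
  [MeasurableSpace M] [BorelSpace M] [SecondCountableTopology M] {ι : Type} [Fintype ι]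
  {F : Fr I M ι} {o : ι → ι → ι → ι → M → ℝ} {t ν a b a' b' f : M → Ext E} {w : Fin 3 → M → ℝ}
  {x : M}

variable (I) in
/-- the area form -/
def aw (w : Fin 3 → M → ℝ) (y : M) : Ext E :=
  ∑ k : Fin 3, w k y • (df I (w (k + 1)) y * df I (w (k + 2)) y)

theorem aw_eq : aw I w = ∑ k : Fin 3, w k • (df I (w (k + 1)) * df I (w (k + 2))) :=
  funext fun y => by rw [Finset.sum_apply]; rfl

theorem fo_aw (hw : ∀ k, Sm I (w k)) : Fo I 2 (aw I w) := by
  have := fun k : Fin 3 => ((fo_df (hw (k + 1))).mul (fo_df (hw (k + 2)))).fsmul (hw k)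
  rw [aw_eq, Fin.sum_univ_three]
  exact ((this 0).add (this 1)).add (this 2)

variable (F t ν w x) in
/-- the Gram matrix at a point -/
abbrev GA : Prop :=
  Gm (fun i => c1 F t x i) (fun i => c1 F ν x i) (fun j i => F.D i (w j) x) fun j => w j x

theorem d_aw (hw : ∀ k, Sm I (w k)) (g : GA F t ν w x) : dM I (aw I w) x = 0 := by
  have h1 := fun k : Fin 3 => (fo_df (hw (k + 1))).mul (fo_df (hw (k + 2)))
  have h2 : ∀ k : Fin 3, dM I (w k • (df I (w (k + 1)) * df I (w (k + 2)))) x =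
      df I (w k) x * (df I (w (k + 1)) x * df I (w (k + 2)) x) := fun k => by
    rw [(h1 k).d_fsmul (hw k), (fo_df (hw _)).d_mul (fo_df (hw _)), d_df (hw _), d_df (hw _)]
    simp
  have h3 : (∑ k, w k • df I (w k)) x = 0 := eq_zero_of_c1 (F := F)
    (Dr59.dg_sum (U := Set.univ) (fun k _ => (Dr59.dg_df _).fsmul _) x trivial) (fm_ext fun i => by
      rw [Fin.sum_univ_three, c1_add, c1_add, c1_fsmul, c1_fsmul, c1_fsmul]
      simpa [c1_df, Fin.sum_univ_three] using g.wp i)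
  have h4 := g.ww
  rw [aw_eq, Dr59.dM_sum Dr59.ne0 fun k _ => ((h1 k).fsmul (hw k)).sm x]
  simp only [h2, Fin.sum_univ_three, Pi.add_apply, Pi.smul_apply', df] at h3 h4 ⊢
  simp only [Fin.reduceAdd, zero_add]
  generalize (Dr59.mf I 𝓘(ℝ, ℝ) (w 0) x : E →ₗ[ℝ] ℝ) = l0 at *
  generalize (Dr59.mf I 𝓘(ℝ, ℝ) (w 1) x : E →ₗ[ℝ] ℝ) = l1 at *
  generalize (Dr59.mf I 𝓘(ℝ, ℝ) (w 2) x : E →ₗ[ℝ] ℝ) = l2 at *
  have sq : ∀ (l : Module.Dual ℝ E) (c : Ext E), io l * (io l * c) = 0 := fun l c => by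
    rw [← mul_assoc, R208.F.io_sq, zero_mul]
  have an : ∀ (l m : Module.Dual ℝ E) (c : Ext E), io l * (io m * c) = -(io m * (io l * c)) :=
    fun l m c => by rw [← mul_assoc, R208.F.io_anti, neg_mul, mul_assoc]
  have c1 : io l1 * (io l2 * io l0) = io l0 * (io l1 * io l2) := by
    rw [R208.F.io_anti l2, mul_neg, an l1, neg_neg]
  have c2 : io l2 * (io l0 * io l1) = io l0 * (io l1 * io l2) := by
    rw [an l2, R208.F.io_anti l2, mul_neg, neg_neg]
  have z0 := congrArg (· * (io l1 * io l2)) h3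
  have z1 := congrArg (· * (io l2 * io l0)) h3
  have z2 := congrArg (· * (io l0 * io l1)) h3
  simp only [add_mul, smul_mul_assoc, sq, an l2 l1, an l0 l2, an l1 l0, R208.F.io_sq, mul_zero,
    neg_zero, smul_zero, add_zero, zero_add, zero_mul] at z0 z1 z2
  rw [c1] at z1
  rw [c2] at z2
  rw [c1, c2]
  have : io l0 * (io l1 * io l2) = 0 := by
    rw [← one_smul ℝ (_ * _), ← h4, add_smul, add_smul, mul_smul, mul_smul, mul_smul, z0, z1, z2]
    simp
  simp [this]

theorem inner_c2_mul (ha : IsDeg 1 (a x)) (ha' : IsDeg 1 (a' x)) :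
    ⟪c2 F (a * b) x, c2 F (a' * b') x⟫_ℝ = 2 * (⟪c1 F a x, c1 F a' x⟫_ℝ * ⟪c1 F b x, c1 F b' x⟫_ℝ -
      ⟪c1 F a x, c1 F b' x⟫_ℝ * ⟪c1 F b x, c1 F a' x⟫_ℝ) := by
  simp only [inner_fm, Fintype.sum_prod_type, c2_mul ha, c2_mul ha', RCLike.inner_apply,
    conj_trivial, sum_mul_sum]
  generalize c1 F a x = u
  generalize c1 F a' x = u'
  generalize c1 F b x = v
  generalize c1 F b' x = v'
  have e1 : ∑ i, ∑ j, u' j * u j * (v' i * v i) = ∑ i, ∑ j, u' i * u i * (v' j * v j) := sum_comm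
  have e2 : ∑ i, ∑ j, v' j * u j * (u' i * v i) = ∑ i, ∑ j, v' i * u i * (u' j * v j) := sum_comm
  rw [two_mul]
  nth_rewrite 1 [← e1, ← e2]
  simp only [← sum_sub_distrib, ← sum_add_distrib]
  exact sum_congr rfl fun i _ => sum_congr rfl fun j _ => by ring

theorem st_aw (h : OK F o) (ht : IsDeg 1 (t x)) (g : GA F t ν w x) :
    ∃ s : ℝ, s ^ 2 = 1 ∧ st o x (c2 F (aw I w) x) = s • c2 F (t * ν) x := by
  obtain ⟨s, h1, h2⟩ := star_pt (h.vo x) g (fun i => k1_P F t i x) (fun i => k1_P F ν i x)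
    fun j i => by simpa only [k1_df] using k1_P F (df I (w j)) i x
  refine ⟨s, h1, fm_ext fun q => ?_⟩
  rw [PiLp.smul_apply, c2_mul ht, smul_eq_mul, ← h2, st, idx_apply, Fintype.sum_prod_type]
  refine sum_congr rfl fun c _ => sum_congr rfl fun d _ => ?_
  have e : ∀ i j, c2 F (df I (w i) * df I (w j)) x (c, d) =
      F.D c (w i) x * F.D d (w j) x - F.D d (w i) x * F.D c (w j) x := fun i j => by
    rw [c2_mul (a := df I (w i)) (Dr59.dg_df (U := Set.univ) _ x trivial)]
    simp only [c1_df]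
  rw [aw_eq, Fin.sum_univ_three, c2_add, c2_add, c2_fsmul, c2_fsmul, c2_fsmul]
  simp only [ContinuousLinearMap.id_apply, Pi.add_apply, PiLp.add_apply, PiLp.smul_apply,
    e, smul_eq_mul, Fin.sum_univ_three]

variable {s : M → Ext E} {ε : ℝ}

theorem rat_t (h : OK F o) (ht : IsDeg 1 (t x)) (hb : IsDeg 1 (b x)) (g : GA F t ν w x)
    (e : st o x (c2 F s x) = ε • c2 F (t * ν) x) :
    rat (vol F o) (t * (b * s)) x = ε * ⟪c1 F b x, c1 F ν x⟫_ℝ := by
  have h1 : ⟪c1 F t x, c1 F t x⟫_ℝ = 1 := (inner_fm _ _).trans g.tt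
  have h2 : ⟪c1 F t x, c1 F ν x⟫_ℝ = 0 := by
    rw [real_inner_comm]; exact (inner_fm _ _).trans g.tn
  rw [← mul_assoc, rat_mul (w := t * b) h (R208.T.isDeg_mul ht hb), e, inner_smul_right,
    inner_c2_mul ht ht, h1, h2]
  ring

theorem rat_asd (h : OK F o) (hf : IsDeg 2 (f x)) (asd : hs F o x (c2 F f x) = 0)
    (e : st o x (c2 F s x) = ε • c2 F (t * ν) x) :
    rat (vol F o) (f * s) x = -ε * rat (vol F o) (f * (t * ν)) x := by
  have h1 : st o x (c2 F f x) = -c2 F f x := by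
    have := hs_add (F := F) (o := o) f x
    rw [asd, zero_add] at this
    rw [← hs_sub (F := F), asd, this, zero_sub]
  rw [rat_mul h hf, rat_mul h hf, e, ← st_symm h, h1, inner_smul_right, inner_neg_left]
  ring

end Crest.Agent.X212.Sep15.Qa
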