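import Crest.Agent.X212.Qab60.Props
import Crest.Agent.X212.Sep15.QaA

/-! X212 / QA (helper15): the leaves FLX and END. -/

set_option autoImplicit false
set_option linter.unusedSectionVars false
set_option maxHeartbeats 200000
noncomputable section
open scoped Manifold ContDiff Topology InnerProductSpace Real
open MeasureTheory Set Function Filter
open Crest.Agent.R208.F (Ext io)
open Crest.Agent.R208.FI (IsDeg)

namespace Crest.Agent.X212.Sep15.Qa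
open An Nd18 Num57 Cyf70 Qab60
open Int54 (integ rat IntOn)
open M (Mf)
open Dr59 (SmAt dM df CAt Dg)
open Line51 (ang)
open Rf65 (PR V3)
open Map77 (inner_fm fm_ext)

variable {Y : Mf 3} [CompactSpace Y.M] {κ : Type} [Fintype κ] {lam : Type} [Fintype lam]
  {F : Fr Y.I Y.M κ} {D : YD Y.I Y.M κ lam} {θ : Y.M → Circle} {ϖ : Y.M → V3}

/-- the form `dt` -/
abbrev tZ (Y : Mf 3) : Y.M × ℝ → Ext (Y.E × ℝ) := df (IC Y.I) fun q => q.2
/-- the differential of a function of the height -/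
abbrev dh (Y : Mf 3) (χ : ℝ → ℝ) : Y.M × ℝ → Ext (Y.E × ℝ) := df (IC Y.I) fun q => χ q.2

theorem okZ (h : D.OK) : OK D.Z D.B.o :=
  OK.of_base (by rw [Module.finrank_prod, Y.dim, Module.finrank_self]) h.B h.G

theorem sm_θ (h : PR F θ ϖ) : ContMDiff Y.I (𝓡 1) ∞ θ :=
  h.oe.contMDiff.fst.comp (contMDiff_id.prodMk (contMDiff_const (c := 0)))

theorem sm_ϖ (h : PR F θ ϖ) : Sm Y.I ϖ := by
  simpa [comp_def] using
    h.oe.contMDiff.snd.comp (contMDiff_id.prodMk (contMDiff_const (c := (0 : ℝ))))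

theorem sm_ϖk (h : PR F θ ϖ) (k : Fin 3) : Sm Y.I fun y => ϖ y k :=
  (EuclideanSpace.proj (𝕜 := ℝ) k).contMDiff.comp (sm_ϖ h)

theorem fo_aZ (h : PR F θ ϖ) : Fo (IC Y.I) 1 (aZ θ) :=
  ⟨fun x => Line51.smAt_ang ((sm_θ h).comp contMDiff_fst x),
    fun x => Line51.dg_ang (U := univ) _ x trivial⟩

theorem d_aZ (h : PR F θ ϖ) : dM (IC Y.I) (aZ θ) = 0 :=
  funext fun x => Line51.dM_ang ((sm_θ h).comp contMDiff_fst x)

theorem fo_sZ (h : PR F θ ϖ) : Fo (IC Y.I) 2 (sZ ϖ) :=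
  fo_aw (w := fun k (q : Y.M × ℝ) => ϖ q.1 k) fun k => sm_fst (sm_ϖk h k)

theorem fo_tZ : Fo (IC Y.I) 1 (tZ Y) := fo_df contMDiff_snd

theorem c1_aZ (h : PR F θ ϖ) (x : Y.M × ℝ) (a : Option κ) : c1 (cyl F) (aZ θ) x a =
    a.elim 0 fun k => ⟪Complex.I * θ x.1, F.D k (fun y => (θ y : ℂ)) x.1⟫_ℝ := by
  have s : Sm Y.I fun y => (θ y : ℂ) := Line51.contMDiff_coe.comp (sm_θ h)
  have e : c1 (cyl F) (aZ θ) x a =
      ⟪Complex.I * θ x.1, (cylP F.toPre).D a (fun q => (θ q.1 : ℂ)) x⟫_ℝ := by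
    refine (e1_io _ _).trans ((Line51.tl_eq_sum _).trans ?_)
    simp only [Finset.univ_unique, Finset.sum_singleton, Line51.sc, Matrix.of_apply]
    change (star (θ x.1 : ℂ) * (cylP F.toPre).D a (fun q => (θ q.1 : ℂ)) x).im = _
    simp
    ring
  rw [e]
  cases a
  · rw [D_none_fst F.toPre s]; exact inner_zero_right _
  · rw [D_some_fst F.toPre s]; rfl

theorem c1_tZ (x : Y.M × ℝ) (a : Option κ) : c1 (cyl F) (tZ Y) x a = a.elim 1 fun _ => 0 := by
  rw [c1_df]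
  cases a
  · exact (congrFun (D_none_snd F.toPre (f := id) contDiff_id) x).trans (deriv_id _)
  · exact congrFun (D_some_snd F.toPre (f := id) contDiff_id _) x

theorem D_ϖ (h : PR F θ ϖ) (j : Fin 3) (x : Y.M × ℝ) (a : Option κ) :
    (cyl F).D a (fun q => ϖ q.1 j) x =
      a.elim 0 fun k => ⟪EuclideanSpace.single j (1 : ℝ), F.D k ϖ x.1⟫_ℝ := by
  cases a
  · exact congrFun (D_none_fst F.toPre (sm_ϖk h j)) x
  · refine (congrFun (D_some_fst F.toPre (sm_ϖk h j) _) x).trans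
      ((Sob92.dv_clm (EuclideanSpace.proj (𝕜 := ℝ) j)
        ((sm_ϖ h _).mdifferentiableAt (by simp))).trans ?_)
    simp [EuclideanSpace.inner_single_left, Pre.D_def]

theorem gA (h : PR F θ ϖ) (x : Y.M × ℝ) :
    GA (cyl F) (tZ Y) (aZ θ) (fun k q => ϖ q.1 k) x := by
  refine ⟨?_, ?_, ?_, fun j => ?_, fun j => ?_, fun i j => ?_, ?_⟩ <;>
    simp only [c1_aZ h, c1_tZ, D_ϖ h, Fintype.sum_option, Option.elim, mul_zero, zero_mul,
      Finset.sum_const_zero, zero_add, add_zero, mul_one]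
  · exact (h.g1 _ _ _).trans (by simp; ring)
  · exact h.g12 _ _ _
  · refine (h.g2 _ _ _).trans ?_
    simp [EuclideanSpace.inner_single_left]
  · have := EuclideanSpace.real_norm_sq_eq (ϖ x.1)
    rw [h.nrm] at this
    simpa [sq] using this.symm

theorem d_sZ (h : PR F θ ϖ) : dM (IC Y.I) (sZ ϖ) = 0 := funext fun x =>
  d_aw (w := fun k (q : Y.M × ℝ) => ϖ q.1 k) (fun k => sm_fst (sm_ϖk h k)) (gA h x)

theorem norm_aZ (h : PR F θ ϖ) (x : Y.M × ℝ) : ‖c1 (cyl F) (aZ θ) x‖ = 1 := by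
  rw [← sq_eq_sq₀ (norm_nonneg _) zero_le_one, ← real_inner_self_eq_norm_sq, one_pow]
  exact (inner_fm _ _).trans (gA h x).nn

theorem precon (h : PR F θ ϖ) : IsPreconnected (univ : Set (Y.M × ℝ)) := by
  have im : (fun p : Y.M × ℝ => (θ p.1, Real.exp p.2 • ϖ p.1)) '' univ = univ ×ˢ {0}ᶜ := by
    refine Subset.antisymm ?_ fun p hp => ?_
    · rintro _ ⟨p, -, rfl⟩
      exact ⟨trivial, norm_pos_iff.1 (by simp [norm_smul, h.nrm, Real.exp_pos])⟩
    · have h0 : 0 < ‖p.2‖ := norm_pos_iff.2 hp.2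
      obtain ⟨y, h1, h2⟩ := h.surj p.1 (‖p.2‖⁻¹ • p.2) (norm_smul_inv_norm hp.2)
      exact ⟨(y, Real.log ‖p.2‖), trivial, by simp [h1, h2, Real.exp_log h0, smul_smul, h0.ne']⟩
  exact h.oe.isOpenEmbedding.isInducing.isPreconnected_image.1 (im ▸ isPreconnected_univ.prod
    (isConnected_compl_singleton_of_one_lt_rank (by rw [← Module.finrank_eq_rank]; simp)
      _).isPreconnected)

variable (D θ ϖ) in
/-- the star of the area form -/
def St (ε : ℝ) : Prop :=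
  ε ^ 2 = 1 ∧ ∀ x, st D.B.o x (c2 D.Z (sZ ϖ) x) = ε • c2 D.Z (tZ Y * aZ θ) x

theorem exists_st (hD : D.OK) (h : PR D.F θ ϖ) : ∃ ε, St D θ ϖ ε := by
  choose s h1 h2 using fun x => st_aw (okZ hD) (fo_tZ.dg x) (gA h x)
  have e : s = rat (oZ D) (tZ Y * (aZ θ * sZ ϖ)) := funext fun x =>
    ((rat_t (okZ hD) (fo_tZ.dg x) ((fo_aZ h).dg x) (gA h x) (h2 x)).trans (by
      rw [real_inner_self_eq_norm_sq, norm_aZ h]; ring)).symm
  have c : Continuous s := e ▸ (ori (okZ hD)).continuous_rat fun x =>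
    ((fo_tZ.mul ((fo_aZ h).mul (fo_sZ h))).sm x).of_le (by simp)
  rcases (precon h).eq_one_or_eq_neg_one_of_sq_eq c.continuousOn fun x _ => h1 x with k | k
  · exact ⟨1, by simp, fun x => (h2 x).trans (by rw [k (mem_univ x)]; rfl)⟩
  · exact ⟨-1, by simp, fun x => (h2 x).trans (by rw [k (mem_univ x)]; rfl)⟩

/-! ### the pairing -/

variable {χ χ' : ℝ → ℝ} {T ε : ℝ} {a b c : Y.M × ℝ → Ext (Y.E × ℝ)}

theorem dh_eq (hχ : ContDiff ℝ ∞ χ) :
    dh Y χ = (fun q : Y.M × ℝ => deriv χ q.2) • tZ Y := by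
  have e := Int54.df_snd (I := Y.I) (M := Y.M) (χ := id) differentiable_id
  funext z
  rw [Pi.smul_apply', show tZ Y = _ from e, dh, Int54.df_snd (hχ.differentiable (by simp)),
    Int54.pm_snd, Int54.pm_snd, Pi.smul_apply', Pi.smul_apply', map_smul, map_smul, deriv_id,
    one_smul]

theorem op_hZ (T : ℝ) : IsOpen (hZ Y T) := isOpen_univ.prod isOpen_Ioi

theorem ts_dh (hχ : ContDiff ℝ ∞ χ) (c : Y.M × ℝ → Ext (Y.E × ℝ)) :
    tsupport (dh Y χ * c) ⊆ univ ×ˢ tsupport (deriv χ) :=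
  closure_minimal (fun z hz => ⟨trivial, subset_tsupport _ fun h => hz (by
    rw [dh_eq hχ, Pi.mul_apply, Pi.smul_apply', h, zero_smul, zero_mul])⟩)
    (isClosed_univ.prod (isClosed_tsupport _))

theorem sm_dh (hχ : Cf T χ) (hc : Dr59.Sm (IC Y.I) (hZ Y T) c) (x : Y.M × ℝ) :
    SmAt (IC Y.I) (dh Y χ * c) x := Int54.cAt_of_tsupport (fun z hz =>
  ((fo_df (sm_snd hχ.sm)).sm z).mul (hc z ⟨trivial, hχ.sub (ts_dh hχ.sm c hz).2⟩)) x

theorem hcs_dh (hχ : Cf T χ) : HasCompactSupport (dh Y χ * c) :=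
  (isCompact_univ.prod hχ.hc.isCompact).of_isClosed_subset (isClosed_tsupport _) (ts_dh hχ.sm c)

theorem int_dh (hD : D.OK) (hχ : Cf T χ) (hc : Dr59.Sm (IC Y.I) (hZ Y T) c) :
    IntOn (IC Y.I) (oZ D) (dh Y χ * c) univ :=
  (ori (okZ hD)).intOn_of_hcs (fun x => (sm_dh hχ hc x).of_le (by simp)) (hcs_dh hχ) _

theorem Cf.zero (hχ : Cf T χ) {x : Y.M × ℝ} (hx : x ∉ hZ Y T) : deriv χ x.2 = 0 :=
  image_eq_zero_of_notMem_tsupport fun h => hx ⟨trivial, hχ.sub h⟩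

theorem Cf.mono (hχ : Cf T χ) {T' : ℝ} (h : T' ≤ T) : Cf T' χ :=
  ⟨hχ.sm, hχ.hc, hχ.sub.trans (Ioi_subset_Ioi h), hχ.int⟩

theorem hpr_congr (hχ : Cf T χ) (e : EqOn a b (hZ Y T)) : hpr D ϖ χ a = hpr D ϖ χ b :=
  Int54.integ_congr fun x => by
    by_cases hx : x ∈ hZ Y T
    · simp only [Pi.mul_apply, e hx]
    · simp only [Pi.mul_apply, show df (IC Y.I) (fun q : Y.M × ℝ => χ q.2) = _ from dh_eq hχ.sm,
        Pi.smul_apply', Cf.zero hχ hx, zero_smul, zero_mul]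

theorem hpr_add (hD : D.OK) (h : PR D.F θ ϖ) (hχ : Cf T χ) (ha : Dr59.Sm (IC Y.I) (hZ Y T) a)
    (hb : Dr59.Sm (IC Y.I) (hZ Y T) b) : hpr D ϖ χ (a + b) = hpr D ϖ χ a + hpr D ϖ χ b := by
  rw [hpr, add_mul, mul_add]
  exact Int54.integ_add (int_dh hD hχ (ha.mul fun x _ => (fo_sZ h).sm x))
    (int_dh hD hχ (hb.mul fun x _ => (fo_sZ h).sm x))

theorem hpr_smul (r : ℝ) : hpr D ϖ χ (r • a) = r * hpr D ϖ χ a := by
  rw [hpr, smul_mul_assoc, mul_smul_comm, Int54.integ_smul]; rfl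

theorem hpr_eq (hD : D.OK) (h : PR D.F θ ϖ) (hε : St D θ ϖ ε) (hχ : Cf T χ)
    (hb : Dg 1 (hZ Y T) b) :
    hpr D ϖ χ b = ∫ x, deriv χ x.2 * (ε * ⟪c1 D.Z b x, c1 D.Z (aZ θ) x⟫_ℝ) ∂D.Z.μ := by
  rw [hpr, (unitV (okZ hD)).integ_eq (okZ hD).isv]
  refine integral_congr_ae (.of_forall fun x => ?_)
  rw [show df (IC Y.I) (fun q : Y.M × ℝ => χ q.2) = _ from dh_eq hχ.sm, smul_mul_assoc,
    Int54.rat_fsmul, Pi.mul_apply]
  by_cases hx : x ∈ hZ Y T
  · exact congrArg (deriv χ x.2 * ·) (rat_t (okZ hD) (fo_tZ.dg x) (hb x hx) (gA h x) (hε.2 x))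
  · simp only [Cf.zero hχ hx, zero_mul]

theorem hpr_aZ (hD : D.OK) (h : PR D.F θ ϖ) (hε : St D θ ϖ ε) (hχ : Cf T χ) :
    hpr D ϖ χ (aZ θ) = -(ε * D.F.μ.real univ) := by
  rw [hpr_eq hD h hε hχ fun x _ => (fo_aZ h).dg x]
  simp only [real_inner_self_eq_norm_sq, norm_aZ h]
  refine (integral_fun_snd (μ := D.F.μ) fun t => deriv χ t * (ε * 1 ^ 2)).trans ?_
  rw [integral_mul_const, hχ.int, smul_eq_mul]
  ring

theorem vol_pos (h : PR F θ ϖ) : 0 < F.μ.real univ := by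
  have := Sob92.openPos F.toPre
  obtain ⟨y, -⟩ := h.surj 1 (EuclideanSpace.single 0 1) (by simp)
  exact ENNReal.toReal_pos (isOpen_univ.measure_pos _ ⟨y, trivial⟩).ne' (measure_ne_top _ _)

theorem hpr_le (hD : D.OK) (h : PR D.F θ ϖ) (hχ : Cf T χ) (hb : Dg 1 (hZ Y T) b) {K : ℝ}
    (hK : ∀ x ∈ hZ Y T, ‖c1 D.Z b x‖ ≤ K) :
    |hpr D ϖ χ b| ≤ D.F.μ.real univ * ((∫ t, |deriv χ t|) * K) := by
  obtain ⟨ε, hε⟩ := exists_st hD h
  have c : Continuous fun t => |deriv χ t| * K :=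
    (hχ.sm.continuous_deriv (by simp)).abs.mul continuous_const
  have s : HasCompactSupport fun t => |deriv χ t| * K := (hχ.hc.comp_left abs_zero).mul_right
  rw [hpr_eq hD h hε hχ hb, ← integral_mul_const, ← smul_eq_mul (D.F.μ.real univ),
    ← integral_fun_snd (μ := D.F.μ) fun t => |deriv χ t| * K]
  refine (Real.norm_eq_abs _).symm.trans_le (norm_integral_le_of_norm_le (μ := D.Z.μ)
    ((c.comp continuous_snd).integrable_of_hasCompactSupport (Int54.hcs_snd s))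
    (.of_forall fun x => ?_))
  by_cases hx : x ∈ hZ Y T
  · rw [norm_mul, norm_mul, Real.norm_eq_abs, Real.norm_eq_abs ε,
      (sq_eq_sq₀ (abs_nonneg ε) zero_le_one).1 (by rw [sq_abs, hε.1, one_pow]), one_mul]
    refine mul_le_mul_of_nonneg_left ((norm_inner_le_norm _ _).trans ?_) (abs_nonneg _)
    rw [norm_aZ h, mul_one]; exact hK x hx
  · simp [Cf.zero hχ hx]

theorem hpr_df (hD : D.OK) (h : PR D.F θ ϖ) (hχ : Cf T χ) {φ : Y.M × ℝ → ℝ}
    (hφ : ContMDiffOn (IC Y.I) 𝓘(ℝ, ℝ) ∞ φ (hZ Y T)) : hpr D ϖ χ (df (IC Y.I) φ) = 0 := by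
  have s := fun x (hx : x ∈ hZ Y T) => hφ.contMDiffAt ((op_hZ T).mem_nhds hx)
  have s1 : ∀ x, SmAt (IC Y.I) (dh Y χ * sZ ϖ) x := sm_dh hχ fun x _ => (fo_sZ h).sm x
  have t : tsupport (φ • (dh Y χ * sZ ϖ)) ⊆ hZ Y T := fun x hx =>
    ⟨trivial, hχ.sub (ts_dh hχ.sm (sZ ϖ) (tsupport_smul_subset_right φ _ hx)).2⟩
  have k : HasCompactSupport (φ • (dh Y χ * sZ ϖ)) := (hcs_dh hχ).smul_left
  have : integ (IC Y.I) (oZ D) (dM (IC Y.I) (φ • (dh Y χ * sZ ϖ))) = 0 := Int54.stokes_sm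
    (ori (okZ hD)) (Int54.cAt_of_tsupport fun x hx => (s1 x).fsmul le_rfl (s x (t hx))) k
  rw [← neg_eq_zero, ← this, hpr, ← Int54.integ_neg]
  refine Int54.integ_congr fun x => congrArg _ ?_
  by_cases hx : x ∈ hZ Y T
  · rw [Dr59.dM_fsmul Dr59.ne0 ((s x hx).mdifferentiableAt (by simp)) (s1 x),
      (fo_df (sm_snd hχ.sm)).d_mul (fo_sZ h), d_df (sm_snd hχ.sm), d_sZ h]
    simp only [Pi.neg_apply, Pi.mul_apply, zero_mul, mul_zero, smul_zero, add_zero, Pi.zero_apply,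
      ← mul_assoc, df]
    rw [R208.F.io_anti, neg_mul, neg_neg]
  · rw [Int54.dM_eq_zero fun k => hx (t k)]
    simp only [Pi.neg_apply, Pi.mul_apply, Pi.smul_apply', Cf.zero hχ hx, zero_smul, zero_mul,
      neg_zero, show df (IC Y.I) (fun q : Y.M × ℝ => χ q.2) = _ from dh_eq hχ.sm]

theorem exists_prim (h : Cf T χ) (h' : Cf T χ') : ∃ g : ℝ → ℝ, ContDiff ℝ ∞ g ∧
    HasCompactSupport g ∧ tsupport g ⊆ Ioi T ∧ deriv g = deriv χ - deriv χ' := by
  have k : IsCompact (insert (T + 1) (tsupport (deriv χ) ∪ tsupport (deriv χ'))) :=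
    (h.hc.isCompact.union h'.hc.isCompact).insert _
  obtain ⟨m, hm, lm⟩ := k.exists_isLeast (insert_nonempty _ _)
  obtain ⟨n, -, un⟩ := k.exists_isGreatest (insert_nonempty _ _)
  have hT : T < m := insert_subset (lt_add_one T) (union_subset h.sub h'.sub) hm
  have c := h.sm.continuous_deriv (by simp)
  have c' := h'.sm.continuous_deriv (by simp)
  have s : support (deriv χ - deriv χ') ⊆ Icc m n := fun t ht => by
    have : t ∈ tsupport (deriv χ) ∪ tsupport (deriv χ') := by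
      by_contra k
      rw [mem_union, not_or] at k
      exact ht (by rw [Pi.sub_apply, image_eq_zero_of_notMem_tsupport k.1,
        image_eq_zero_of_notMem_tsupport k.2, sub_zero])
    exact ⟨lm (mem_insert_of_mem _ this), un (mem_insert_of_mem _ this)⟩
  have d : ∀ t, HasDerivAt (fun t => χ t - χ' t) ((deriv χ - deriv χ') t) t := fun t =>
    (h.sm.differentiable (by simp) t).hasDerivAt.sub (h'.sm.differentiable (by simp) t).hasDerivAt
  let l := (T + m) / 2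
  have f : ∀ t, ∫ u in l..t, (deriv χ - deriv χ') u = χ t - χ' t - (χ l - χ' l) := fun t =>
    intervalIntegral.integral_eq_sub_of_hasDerivAt (fun u _ => d u)
      ((c.sub c').intervalIntegrable _ _)
  have z : ∀ t, t ∉ Icc l n → χ t - χ' t - (χ l - χ' l) = 0 := fun t ht => by
    rw [← f]
    rcases lt_or_ge t l with k | k
    · refine (intervalIntegral.integral_congr (g := fun _ => 0) fun u hu => ?_).trans
        intervalIntegral.integral_zero
      rw [uIcc_of_ge k.le] at hu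
      by_contra e
      linarith [(s e).1, hu.2, show l < m by simp only [l]; linarith]
    · rw [intervalIntegral.integral_eq_integral_of_support_subset fun u hu =>
        ⟨lt_of_lt_of_le (by simp only [l]; linarith) (s hu).1,
          (s hu).2.trans (not_le.1 fun e => ht ⟨k, e⟩).le⟩]
      simp only [Pi.sub_apply]
      rw [integral_sub (c.integrable_of_hasCompactSupport h.hc)
        (c'.integrable_of_hasCompactSupport h'.hc), h.int, h'.int, sub_self]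
  refine ⟨fun t => χ t - χ' t - (χ l - χ' l), (h.sm.sub h'.sm).sub contDiff_const,
    .intro isCompact_Icc z, (closure_minimal (support_subset_iff'.2 z)
      isClosed_Icc).trans fun t ht => lt_of_lt_of_le (by simp only [l]; linarith) ht.1,
    funext fun t => ((d t).sub_const _).deriv⟩

theorem hpr_ind (hD : D.OK) (h : PR D.F θ ϖ) (ha : Asd D T a) (hχ : Cf T χ) (hχ' : Cf T χ') :
    hpr D ϖ χ a = hpr D ϖ χ' a := by
  obtain ⟨ε, hε⟩ := exists_st hD h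
  obtain ⟨g, g1, g2, g3, g4⟩ := exists_prim hχ hχ'
  have m : ∀ x ∈ tsupport fun q : Y.M × ℝ => g q.2, x ∈ hZ Y T := fun x hx =>
    ⟨trivial, g3 (Int54.tsupport_snd g hx)⟩
  have sS : Dr59.Sm (IC Y.I) (hZ Y T) (a * sZ ϖ) := ha.sm.mul fun x _ => (fo_sZ h).sm x
  have fo := fo_tZ.mul (fo_aZ h)
  have p := fun b (hb : Dr59.Sm (IC Y.I) (hZ Y T) b) => Int54.integ_fsmul_dM (ori (okZ hD))
    (sm_snd g1) (Int54.hcs_snd g2) fun x hx => hb x (m x hx)
  have e1 : dh Y χ * (a * sZ ϖ) - dh Y χ' * (a * sZ ϖ) = dh Y g * (a * sZ ϖ) := by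
    rw [← sub_mul, dh_eq hχ.sm, dh_eq hχ'.sm, dh_eq g1, ← sub_smul, g4]; rfl
  have e2 : dh Y g * (a * (tZ Y * aZ θ)) = 0 := funext fun x => by
    simp only [dh_eq g1, Pi.mul_apply, Pi.smul_apply', smul_mul_assoc, tZ, df, Pi.zero_apply]
    rw [← mul_assoc, R208.F.io_mul, mul_assoc, ← mul_assoc (io _), R208.F.io_sq]
    simp
  have e3 : dM (IC Y.I) (tZ Y * aZ θ) = 0 := by
    rw [fo_tZ.d_mul (fo_aZ h), d_df contMDiff_snd, d_aZ h]; simp
  have p1 := p _ sS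
  have p2 := p _ (ha.sm.mul fun x _ => fo.sm x)
  rw [show df (IC Y.I) (fun q : Y.M × ℝ => g q.2) * _ = _ from e2] at p2
  rw [← sub_eq_zero, hpr, hpr, ← Int54.integ_sub (int_dh hD hχ sS) (int_dh hD hχ' sS), e1,
    ← neg_eq_zero, ← p1]
  have p3 := congrArg (-ε * ·) p2
  simp only [integ, Int54.rat_zero, Pi.zero_apply, integral_zero, neg_zero, mul_zero,
    ← integral_const_mul] at p3
  refine (integral_congr_ae (.of_forall fun x => ?_)).trans p3
  simp only [Int54.rat_fsmul, Pi.mul_apply]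
  by_cases hx : x ∈ hZ Y T
  · have k : ∀ {s}, Fo (IC Y.I) 2 s → dM (IC Y.I) s = 0 →
        rat (oZ D) (dM (IC Y.I) (a * s)) x = rat (oZ D) (dM (IC Y.I) a * s) x := fun hs e => by
      rw [rat, rat, Dr59.dM_mul Dr59.ne0 (ha.sm x hx) (hs.sm x), e]
      simp
    rw [k (fo_sZ h) (d_sZ h), k fo e3,
      rat_asd (okZ hD) (ha.dg.dM (op_hZ T) x hx) (ha.asd x hx) (hε.2 x)]
    ring
  · rw [image_eq_zero_of_notMem_tsupport (f := g) fun k => hx ⟨trivial, g3 k⟩]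
    simp

/-- **LEAF FLX** -/
theorem flx (D : YD Y.I Y.M κ lam) : FlxStmt D := fun θ ϖ hD h => by
  obtain ⟨ε, hε⟩ := exists_st hD h
  exact ⟨_, neg_ne_zero.2 (mul_ne_zero (fun e => by simpa [e] using hε.1) (vol_pos h).ne'),
    fun T χ hχ => hpr_aZ hD h hε hχ, fun T a χ χ' ha hχ hχ' => hpr_ind hD h ha hχ hχ'⟩

theorem Cf.shift (hχ : Cf T χ) (n : ℝ) : Cf (T + n) (fun t => χ (t - n)) ∧
    ∫ t, |deriv (fun t => χ (t - n)) t| = ∫ t, |deriv χ t| := by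
  have e : deriv (fun t => χ (t - n)) = fun t => deriv χ (t - n) :=
    funext fun t => deriv_comp_sub_const χ n t
  refine ⟨⟨hχ.sm.comp (contDiff_id.sub contDiff_const), ?_, ?_, ?_⟩, ?_⟩ <;> rw [e]
  · exact hχ.hc.comp_homeomorph (Homeomorph.subRight n)
  · exact (closure_minimal (t := (· - n) ⁻¹' tsupport (deriv χ))
      (fun t ht => subset_tsupport (deriv χ) ht) ((isClosed_tsupport _).preimage
      (continuous_sub_right n))).trans fun t ht => mem_Ioi.2 (lt_sub_iff_add_lt.1 (hχ.sub ht))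
  · rw [integral_sub_right_eq_self, hχ.int]
  · exact integral_sub_right_eq_self (fun t => |deriv χ t|) n

/-- **LEAF END** -/
theorem endS (D : YD Y.I Y.M κ lam) (h1 : DecStmt D) (h2 : TailStmt D.F) (h3 : H1Stmt D.F) :
    EndStmt D := fun θ ϖ hD h => by
  obtain ⟨V, V0, hV, hI⟩ := flx D θ ϖ hD h
  obtain ⟨d, hd, dec⟩ := h1 hD
  refine ⟨V, V0, d, hd, hV, fun T a χ ha hχ => ?_⟩
  have sub : hZ Y (T + 1) ⊆ hZ Y T := prod_mono_right (Ioi_subset_Ioi (by linarith))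
  have as := ha.sm.mono sub
  have ad := ha.dg.mono sub
  obtain ⟨b, b1, b2, b3, b4⟩ := h2 (T + 1) d _ hd
    ⟨fun x hx => (as x hx).dM, ad.dM (op_hZ _), fun x hx => (as x hx).dd⟩ (dec T a ha)
  obtain ⟨r, φ, p1, p2⟩ := h3 θ ϖ h (T + 1) (a - b) ⟨as.sub b1, ad.sub b2, fun x hx => by
    rw [Dr59.dM_sub Dr59.ne0 (as x hx) (b1 x hx), b3 hx, sub_self]⟩
  have e : EqOn a (r • aZ θ + df (IC Y.I) φ + b) (hZ Y (T + 1)) := fun x hx =>
    sub_eq_iff_eq_add.1 (p2 hx)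
  obtain ⟨C, hC⟩ := b4 []
  have s1 : Dr59.Sm (IC Y.I) (hZ Y (T + 1)) (r • aZ θ) := fun x _ => ((fo_aZ h).smul r).sm x
  have s2 : Dr59.Sm (IC Y.I) (hZ Y (T + 1)) (df (IC Y.I) φ) := fun x hx =>
    Dr59.smAt_df (p1.contMDiffAt ((op_hZ _).mem_nhds hx))
  have k : ∀ n ≥ (1 : ℝ), |hpr D ϖ χ a - r * V| ≤
      D.F.μ.real univ * ((∫ t, |deriv χ t|) * (|C| * Real.exp (-(d * (T + n))))) := fun n hn => by
    obtain ⟨c1, c2⟩ := Cf.shift hχ n
    have c3 : Cf (T + 1) _ := Cf.mono c1 (by linarith)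
    have sb : hZ Y (T + n) ⊆ hZ Y (T + 1) := prod_mono_right (Ioi_subset_Ioi (by linarith))
    rw [hI T a χ _ ha hχ (Cf.mono c1 (by linarith)), hpr_congr c3 e,
      hpr_add hD h c3 (s1.add s2) b1, hpr_add hD h c3 s1 s2, hpr_smul, hV _ _ c3,
      hpr_df hD h c3 p1, add_zero, add_sub_cancel_left, ← c2]
    refine hpr_le hD h c1 (b2.mono sb) fun x hx => (hC x (sb hx)).trans ?_
    refine mul_le_mul (le_abs_self C) (Real.exp_le_exp.2 ?_) (Real.exp_pos _).le (abs_nonneg _)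
    nlinarith [show T + n < x.2 from hx.2]
  have l := ((((Real.tendsto_exp_neg_atTop_nhds_zero.comp ((tendsto_atTop_add_const_left _ T
    tendsto_id).const_mul_atTop hd)).const_mul |C|).const_mul (∫ t, |deriv χ t|)).const_mul
      (D.F.μ.real univ))
  have z := ge_of_tendsto l ((eventually_ge_atTop 1).mono k)
  simp only [mul_zero, abs_nonpos_iff, sub_eq_zero] at z
  rw [z, mul_div_cancel_right₀ _ V0]
  exact ⟨φ, b, p1, b1, b2, e, b4⟩

end Crest.Agent.X212.Sep15.Qa
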