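import Crest.Agent.X212.Sep15.Gl

/-!
# X212/Sep15/Raw (helper15): the square, its root, and the glued four-manifold of `Op`
-/

set_option autoImplicit false
set_option linter.unusedSectionVars false

open Set Filter Topology Function
open scoped ContDiff Manifold
open Crest.Agent.X212.Cyl58

noncomputable section

namespace Crest.Agent.X212.Sep15

/-! ### the square and its root -/

/-- `(Im z², Re z²)` -/
def sz (z : ℂ) : ℝ × ℝ := ((z ^ 2).im, (z ^ 2).re)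

theorem sq_re (z : ℂ) : (z ^ 2).re = z.re ^ 2 - z.im ^ 2 := by rw [pow_two, Complex.mul_re]; ring

theorem sq_im (z : ℂ) : (z ^ 2).im = 2 * z.re * z.im := by rw [pow_two, Complex.mul_im]; ring

theorem contDiff_sz : ContDiff ℝ ∞ sz :=
  (Complex.imCLM.contDiff.comp (contDiff_id.pow 2)).prodMk
    (Complex.reCLM.contDiff.comp (contDiff_id.pow 2))

theorem eq_or_neg_of_sz {z w : ℂ} (h : sz z = sz w) : z = w ∨ z = -w :=
  sq_eq_sq_iff_eq_or_eq_neg.1 (Complex.ext (congrArg Prod.snd h) (congrArg Prod.fst h))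

/-- `(Im w, Re w)` -/
def ir : ℂ ≃L[ℝ] ℝ × ℝ := Complex.equivRealProdCLM.trans (ContinuousLinearEquiv.prodComm ℝ ℝ ℝ)

theorem ld_sz {z : ℂ} (h : z ≠ 0) :
    IsLocalDiffeomorphAt 𝓘(ℝ, ℂ) (𝓘(ℝ, ℝ).prod 𝓘(ℝ, ℝ)) ∞ sz z := by
  have h2 : (2 * z) ≠ 0 := mul_ne_zero two_ne_zero h
  have h1 : IsLocalDiffeomorphAt 𝓘(ℝ, ℂ) 𝓘(ℝ, ℝ × ℝ) ∞ sz z := by
    refine Glue52.ld_of_fderiv isOpen_univ (mem_univ z) contDiff_sz.contDiffOn
      ((((ContinuousLinearEquiv.unitsEquivAut ℂ) (Units.mk0 _ h2)).restrictScalars ℝ).trans ir) ?_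
    have h3 : HasDerivAt (fun w : ℂ => w ^ 2) (2 * z) z := by simpa using hasDerivAt_pow 2 z
    refine (ir.hasFDerivAt.comp z (h3.hasFDerivAt.restrictScalars ℝ)).congr_fderiv ?_
    refine ContinuousLinearMap.ext fun w => ?_
    simp
  rwa [modelWithCornersSelf_prod, ← chartedSpaceSelf_prod] at h1

/-- the root of `eˢ + i v` with positive real part -/
def rt (p : ℝ × ℝ) : ℂ := Complex.exp (Complex.log (Real.exp p.2 + p.1 * Complex.I) / 2)

theorem rt_sq (p : ℝ × ℝ) : rt p ^ 2 = Real.exp p.2 + p.1 * Complex.I := by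
  rw [rt, ← Complex.exp_nat_mul, Nat.cast_ofNat, mul_div_cancel₀ _ two_ne_zero, Complex.exp_log]
  intro h
  have := congrArg Complex.re h
  simp only [Complex.add_re, Complex.ofReal_re, Complex.mul_re, Complex.I_re, mul_zero,
    Complex.ofReal_im, Complex.I_im, zero_mul, sub_self, add_zero, Complex.zero_re] at this
  exact (Real.exp_pos _).ne' this

theorem rt_sq_re (p : ℝ × ℝ) : (rt p ^ 2).re = Real.exp p.2 := by
  rw [rt_sq]; simp [-Complex.ofReal_exp]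

theorem rt_sq_im (p : ℝ × ℝ) : (rt p ^ 2).im = p.1 := by
  rw [rt_sq]; simp [-Complex.ofReal_exp]

theorem mem_slit (p : ℝ × ℝ) : (Real.exp p.2 + p.1 * Complex.I : ℂ) ∈ Complex.slitPlane :=
  Or.inl (by simpa [-Complex.ofReal_exp] using Real.exp_pos p.2)

theorem rt_re_pos (p : ℝ × ℝ) : 0 < (rt p).re := by
  rw [rt, Complex.exp_re]
  refine mul_pos (Real.exp_pos _) (Real.cos_pos_of_mem_Ioo ?_)
  rw [show (Complex.log (Real.exp p.2 + p.1 * Complex.I) / 2).im =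
    Complex.arg (Real.exp p.2 + p.1 * Complex.I) / 2 by simp [Complex.log_im, -Complex.ofReal_exp]]
  have h1 := Complex.neg_pi_lt_arg (Real.exp p.2 + p.1 * Complex.I)
  have h2 := lt_of_le_of_ne (Complex.arg_le_pi _) (Complex.slitPlane_arg_ne_pi (mem_slit p))
  constructor <;> linarith

theorem contDiff_rt : ContDiff ℝ ∞ rt := by
  refine contDiff_iff_contDiffAt.2 fun p => Complex.contDiff_exp.contDiffAt.comp p ?_
  refine ContDiffAt.div_const ?_ 2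
  refine ((Complex.contDiffAt_log (mem_slit p)).restrict_scalars ℝ).comp p
    (f := fun p : ℝ × ℝ => (Real.exp p.2 + p.1 * Complex.I : ℂ)) ?_
  exact ((Complex.ofRealCLM.contDiff.comp (Real.contDiff_exp.comp contDiff_snd)).add
    ((Complex.ofRealCLM.contDiff.comp contDiff_fst).mul contDiff_const)).contDiffAt

theorem sz_rt (p : ℝ × ℝ) : sz (rt p) = (p.1, Real.exp p.2) := Prod.ext (rt_sq_im p) (rt_sq_re p)

theorem sz_neg (z : ℂ) : sz (-z) = sz z := by simp [sz]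

theorem rt_log {z : ℂ} (h : 0 < (z ^ 2).re) (h' : 0 < z.re) :
    rt ((z ^ 2).im, Real.log (z ^ 2).re) = z := by
  rcases eq_or_neg_of_sz (show sz (rt ((z ^ 2).im, Real.log (z ^ 2).re)) = sz z by
    rw [sz_rt, Real.exp_log h]; rfl) with e | e
  · exact e
  · have := rt_re_pos ((z ^ 2).im, Real.log (z ^ 2).re)
    rw [e, Complex.neg_re] at this
    linarith

theorem rt_im_pos {p : ℝ × ℝ} (h : 0 < p.1) : 0 < (rt p).im := by
  have := rt_sq_im p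
  rw [sq_im] at this
  exact (pos_iff_pos_of_mul_pos (this ▸ h)).1 (mul_pos two_pos (rt_re_pos p))

theorem rt_im_neg {p : ℝ × ℝ} (h : p.1 < 0) : (rt p).im < 0 := by
  have := rt_sq_im p
  rw [sq_im] at this
  exact neg_of_mul_neg_right (this ▸ h) (mul_pos two_pos (rt_re_pos p)).le

theorem rt_im_zero {p : ℝ × ℝ} (h : p.1 = 0) : (rt p).im = 0 := by
  have := rt_sq_im p
  rw [sq_im, h] at this
  exact (mul_eq_zero.1 this).resolve_left (mul_pos two_pos (rt_re_pos p)).ne'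

theorem rt_ne (p : ℝ × ℝ) : rt p ≠ 0 := fun h => (rt_re_pos p).ne' (by rw [h]; rfl)

theorem isOE_rt : IsOE (𝓘(ℝ, ℝ).prod 𝓘(ℝ, ℝ)) 𝓘(ℝ, ℂ) rt := by
  have h : IsOE (𝓘(ℝ, ℝ).prod 𝓘(ℝ, ℝ)) (𝓘(ℝ, ℝ).prod 𝓘(ℝ, ℝ)) (sz ∘ rt) := by
    rw [show sz ∘ rt = Prod.map id Real.exp from funext sz_rt]
    exact IsOE.id.prodMap isOE_exp
  exact ⟨h.inj.of_comp, fun p => ld_of_comp_left (ld_sz (rt_ne p))
    contDiff_rt.continuous.continuousAt (h.loc p)⟩

theorem isOE_negC : IsOE 𝓘(ℝ, ℂ) 𝓘(ℝ, ℂ) (fun z : ℂ => -z) :=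
  IsOE.of_diffeo (ContinuousLinearEquiv.neg ℝ (M := ℂ)).toDiffeomorph

/-- every point off the positive axis has a root in the upper half plane -/
theorem exists_root (v u : ℝ) (h : v ≠ 0 ∨ u < 0) : ∃ z : ℂ, 0 < z.im ∧ sz z = (v, u) := by
  obtain ⟨z, hz⟩ := IsAlgClosed.exists_pow_nat_eq (⟨u, v⟩ : ℂ) two_pos
  have h1 : sz z = (v, u) := by rw [sz, hz]
  have h2 : z.im ≠ 0 := fun h0 => by
    have a := congrArg Prod.fst h1
    have b := congrArg Prod.snd h1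
    simp only [sz, sq_re, sq_im, h0] at a b
    rcases h with h | h
    · exact h (by rw [← a]; ring)
    · nlinarith [sq_nonneg z.re]
  rcases h2.lt_or_gt with h2 | h2
  · exact ⟨-z, by simpa using h2, (sz_neg z).trans h1⟩
  · exact ⟨z, h2, h1⟩

theorem isCompact_sz (T : ℝ) : IsCompact {z : ℂ | |z.im| ≤ 1 ∧ (z ^ 2).re ≤ T} := by
  refine Metric.isCompact_of_isClosed_isBounded ((isClosed_le Complex.continuous_im.abs
    continuous_const).inter (isClosed_le (contDiff_sz.continuous.snd) continuous_const)) ?_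
  refine (Metric.isBounded_closedBall (x := (0 : ℂ)) (r := |T| + 3)).subset fun z hz => ?_
  rw [mem_closedBall_zero_iff]
  have h1 := Complex.norm_le_abs_re_add_abs_im z
  have h2 := hz.2
  rw [sq_re] at h2
  have h3 : z.im ^ 2 ≤ 1 := by rw [← sq_abs]; nlinarith [hz.1, abs_nonneg z.im]
  have h4 : |z.re| ≤ |T| + 2 := by
    rw [← sq_abs z.re] at h2
    nlinarith [le_abs_self T, abs_nonneg z.re, abs_nonneg T, sq_nonneg (|z.re| - 1)]
  linarith [hz.1]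

variable {Y Y' : CM 3} {R : CM 2} {b b₁ b₂ : R × ℝ → Y} {b₁' b₂' : R × ℝ → Y'}

theorem ld_sq (hb : Box b) {p : R × ℂ} (h : p.2 ≠ 0) : IsLocalDiffeomorphAt IC (IR 3) ∞ (sq b) p := by
  have h1 : IsLocalDiffeomorphAt ((𝓡 2).prod (𝓘(ℝ, ℝ).prod 𝓘(ℝ, ℝ))) (IR 3) ∞
      (fun q : R × ℝ × ℝ => (b (q.1, q.2.1), q.2.2)) (p.1, sz p.2) :=
    ld_of_comp (f := fun q : (R × ℝ) × ℝ => (q.1.1, q.1.2, q.2)) (x := ((p.1, (sz p.2).1), (sz p.2).2))
      (isOE_assoc.loc _) ((hb.prodMap IsOE.id).loc _)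
  exact ld_comp (f := Prod.map id sz) h1 (ld_prodMap (ld_id p.1) (ld_sz h))

theorem continuous_sq (hb : Box b) : Continuous (sq b) :=
  (hb.continuous.comp (continuous_fst.prodMk (contDiff_sz.continuous.fst.comp continuous_snd))).prodMk
    (contDiff_sz.continuous.snd.comp continuous_snd)

theorem sq_eq (hb : Box b) {p q : R × ℂ} (e : sq b p = sq b q) : p.1 = q.1 ∧ sz p.2 = sz q.2 :=
  have h := Prod.ext_iff.1 (hb.inj (congrArg Prod.fst e))
  ⟨h.1, Prod.ext h.2 (Prod.ext_iff.1 e).2⟩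

theorem sq_inj (hb : Box b) {p q : R × ℂ} (e : sq b p = sq b q) (h : 0 < p.2.im * q.2.im) : p = q := by
  obtain ⟨h1, h2⟩ := sq_eq hb e
  refine Prod.ext h1 ((eq_or_neg_of_sz h2).resolve_right fun h3 => ?_)
  rw [h3, Complex.neg_im] at h
  nlinarith [sq_nonneg q.2.im]

theorem sq_rt (b : R × ℝ → Y) (x : R) (v s : ℝ) : sq b (x, rt (v, s)) = (b (x, v), Real.exp s) := by
  simp only [sq, rt_sq_im, rt_sq_re]

theorem sq_neg (b : R × ℝ → Y) (x : R) (z : ℂ) : sq b (x, -z) = sq b (x, z) := by simp [sq]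

namespace Sw

variable (S : Sw b₁ b₂ b₁' b₂')

theorem b₁_mem {p : R × ℝ} : b₁ p ∈ S.φ.source ↔ p.2 ≠ 0 := by
  rw [S.src, mem_compl_iff, mem_union, mem_slab S.o₁, not_or]
  exact and_iff_left fun ⟨q, _, e⟩ => S.dj _ _ e.symm

theorem b₂_mem {p : R × ℝ} : b₂ p ∈ S.φ.source ↔ p.2 ≠ 0 := by
  rw [S.src, mem_compl_iff, mem_union, mem_slab S.o₂, not_or]
  exact and_iff_right fun ⟨q, _, e⟩ => S.dj _ _ e

theorem b₁'_mem {p : R × ℝ} : b₁' p ∈ S.φ.target ↔ p.2 ≠ 0 := by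
  rw [S.tgt, mem_compl_iff, mem_union, mem_slab S.o₁', not_or]
  exact and_iff_left fun ⟨q, _, e⟩ => S.dj' _ _ e.symm

theorem b₂'_mem {p : R × ℝ} : b₂' p ∈ S.φ.target ↔ p.2 ≠ 0 := by
  rw [S.tgt, mem_compl_iff, mem_union, mem_slab S.o₂', not_or]
  exact and_iff_right fun ⟨q, _, e⟩ => S.dj' _ _ e

/-- the three kinds of points of `Y'` -/
theorem cases' (y : Y') : (∃ x ∈ S.φ.source, S.φ x = y) ∨ (∃ x, b₁' (x, 0) = y) ∨
    ∃ x, b₂' (x, 0) = y := by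
  by_cases h : y ∈ S.φ.target
  · exact .inl ⟨_, S.φ.map_target h, S.φ.right_inv h⟩
  · rw [S.tgt, mem_compl_iff, not_not] at h
    rcases h with ⟨⟨x, v⟩, ⟨-, rfl⟩, e⟩ | ⟨⟨x, v⟩, ⟨-, rfl⟩, e⟩
    exacts [.inr (.inl ⟨x, e⟩), .inr (.inr ⟨x, e⟩)]

include S in
theorem isClosed_slit (C : End Y) :
    IsClosed (C.j '' ((slab b₁ {0} ∪ slab b₂ {0}) ×ˢ Ici 0)) :=
  C.isEnd.isClosed_image (((isClosed_slab S.o₁ isCompact_singleton).union
    (isClosed_slab S.o₂ isCompact_singleton)).prod isClosed_Ici)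
    (prod_mono (subset_univ _) Subset.rfl)

theorem j_mem (C : End Y) {q : Y × ℝ} :
    C.j q ∈ (C.j '' ((slab b₁ {0} ∪ slab b₂ {0}) ×ˢ Ici 0))ᶜ ↔ q.1 ∈ S.φ.source ∨ q.2 < 0 := by
  rw [mem_compl_iff, C.oe.inj.mem_set_image, S.src, mem_prod, not_and_or, mem_Ici, not_le]
  rfl

theorem sq₁_mem {p : R × ℂ} (h : p.2.im ≠ 0) : (sq b₁ p).1 ∈ S.φ.source ∨ (sq b₁ p).2 < 0 := by
  by_cases h1 : p.2.re = 0
  · refine .inr ?_
    show (p.2 ^ 2).re < 0
    rw [sq_re, h1]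
    nlinarith [sq_pos_of_ne_zero h]
  · refine .inl (S.b₁_mem.2 ?_)
    show (p.2 ^ 2).im ≠ 0
    rw [sq_im]
    exact mul_ne_zero (mul_ne_zero two_ne_zero h1) h

theorem sq₂_mem {p : R × ℂ} (h : p.2.im ≠ 0) : (sq b₂ p).1 ∈ S.φ.source ∨ (sq b₂ p).2 < 0 :=
  (S.sq₁_mem h).imp (fun h => S.b₂_mem.2 (S.b₁_mem.1 h)) id

end Sw

/-- the data of `Op` on a bare manifold -/
structure Raw (S : Sw b₁ b₂ b₁' b₂') (C : End Y) {X : Type} [TopologicalSpace X]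
    [ChartedSpace (EE 4) X] (i : PartialDiffeomorph (𝓡 4) (𝓡 4) C.X X ∞) (e : R × ℂ → X) : Prop where
  oe : IsOE IC (𝓡 4) e
  src : i.source = (C.j '' ((slab b₁ {0} ∪ slab b₂ {0}) ×ˢ Ici 0))ᶜ
  tgt : i.target = (e '' {p | p.2.im = 0})ᶜ
  up : ∀ p : R × ℂ, 0 < p.2.im → e p = i (C.j (sq b₁ p))
  dn : ∀ p : R × ℂ, p.2.im < 0 → e p = i (C.j (sq b₂ p))

theorem Op.raw {S : Sw b₁ b₂ b₁' b₂'} {C : End Y} {C' : End Y'} (O : Op S C C') :
    Raw S C O.i O.e := ⟨O.oe, O.src, O.tgt, O.up, O.dn⟩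

theorem exists_raw (S : Sw b₁ b₂ b₁' b₂') (C : End Y) :
    ∃ (X : Type) (_ : TopologicalSpace X) (_ : ChartedSpace (EE 4) X) (_ : IsManifold (𝓡 4) ∞ X)
      (_ : T2Space X) (_ : SecondCountableTopology X)
      (i : PartialDiffeomorph (𝓡 4) (𝓡 4) C.X X ∞) (e : R × ℂ → X), Raw S C i e := by
  classical
  let f : R × ℂ → C.X := fun p => C.j (if 0 < p.2.im then sq b₁ p else sq b₂ p)
  have f1 : ∀ p : R × ℂ, 0 < p.2.im → f p = C.j (sq b₁ p) := fun p hp => congrArg C.j (if_pos hp)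
  have f2 : ∀ p : R × ℂ, p.2.im < 0 → f p = C.j (sq b₂ p) := fun p hp =>
    congrArg C.j (if_neg hp.not_gt)
  have c : Continuous fun p : R × ℂ => p.2.im := Complex.continuous_im.comp continuous_snd
  have ne : ∀ {p : R × ℂ}, p.2.im ≠ 0 → p.2 ≠ 0 := fun h h0 => h (by rw [h0]; rfl)
  have cl : ∀ {b : R × ℝ → Y}, Box b → IsClosed (C.j '' (sq b '' {p | |p.2.im| ≤ 1})) := by
    intro b hb
    refine C.isClosed_image fun T => ?_
    convert ((isCompact_univ (X := R)).prod (isCompact_sz T)).image (continuous_sq hb) using 1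
    ext q
    constructor
    · rintro ⟨⟨p, hp, rfl⟩, h⟩
      exact ⟨p, ⟨mem_univ _, hp, h⟩, rfl⟩
    · rintro ⟨p, hp, rfl⟩
      exact ⟨⟨p, hp.2.1, rfl⟩, hp.2.2⟩
  obtain ⟨X, _, _, _, _, _, i, e, he, hs, ht, hq⟩ := glue2 (J := IC) L4
    (S.isClosed_slit C).isOpen_compl (W := {p : R × ℂ | p.2.im ≠ 0}) (isOpen_ne.preimage c) (f := f)
    (fun p hp => by
      rcases hp.lt_or_gt with h | h
      · refine ld_congr (ld_comp (C.oe.loc _) (ld_sq S.o₂ (ne hp))) ?_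
        filter_upwards [(isOpen_Iio.preimage c).mem_nhds h] with q hq using f2 q hq
      · refine ld_congr (ld_comp (C.oe.loc _) (ld_sq S.o₁ (ne hp))) ?_
        filter_upwards [(isOpen_Ioi.preimage c).mem_nhds h] with q hq using f1 q hq)
    (fun p hp q hq e => by
      rcases hp.lt_or_gt with h | h <;> rcases hq.lt_or_gt with h' | h'
      · rw [f2 p h, f2 q h'] at e
        exact sq_inj S.o₂ (C.oe.inj e) (mul_pos_of_neg_of_neg h h')
      · rw [f2 p h, f1 q h'] at e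
        exact (S.dj _ _ (congrArg Prod.fst (C.oe.inj e)).symm).elim
      · rw [f1 p h, f2 q h'] at e
        exact (S.dj _ _ (congrArg Prod.fst (C.oe.inj e))).elim
      · rw [f1 p h, f1 q h'] at e
        exact sq_inj S.o₁ (C.oe.inj e) (mul_pos h h'))
    (fun p hp => by
      rcases hp.lt_or_gt with h | h
      · rw [f2 p h]; exact (S.j_mem C).2 (S.sq₂_mem hp)
      · rw [f1 p h]; exact (S.j_mem C).2 (S.sq₁_mem hp))
    (fun x hx => by
      obtain ⟨q, ⟨⟨p, -⟩ | ⟨p, -⟩, -⟩, -⟩ := not_not.1 hx <;> exact ⟨(p.1, 0)⟩)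
    (B := {p | 1 ≤ |p.2.im|}) (isClosed_le continuous_const c.abs)
    (fun p (hp : 1 ≤ |p.2.im|) (h0 : p.2.im = 0) => by rw [h0, abs_zero] at hp; linarith)
    (A := {p | |p.2.im| ≤ 1}) (fun p _ => le_total |p.2.im| 1) ((cl S.o₁).union (cl S.o₂))
    (fun p hp => by
      rcases hp.2.lt_or_gt with h | h
      · rw [f2 p h]; exact .inr ⟨_, ⟨p, hp.1, rfl⟩, rfl⟩
      · rw [f1 p h]; exact .inl ⟨_, ⟨p, hp.1, rfl⟩, rfl⟩)
    (by
      have key : ∀ p : R × ℂ, (p.2 ^ 2).im ≠ 0 ∨ (p.2 ^ 2).re < 0 → p.2.im ≠ 0 := by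
        intro p hp h0
        rw [sq_re, sq_im, h0] at hp
        rcases hp with h | h
        · exact h (mul_zero _)
        · nlinarith [sq_nonneg p.2.re]
      have ng : ∀ p : R × ℂ, |p.2.im| ≤ 1 → p.2.im ≠ 0 →
          (p.1, -p.2) ∈ {p : R × ℂ | |p.2.im| ≤ 1} ∩ {p | p.2.im ≠ 0} := fun p h h' =>
        ⟨by simpa using h, by simpa using h'⟩
      rintro _ ⟨⟨_, ⟨p, hp, rfl⟩, rfl⟩ | ⟨_, ⟨p, hp, rfl⟩, rfl⟩, h⟩
      · have h1 := key p (((S.j_mem C).1 h).imp S.b₁_mem.1 id)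
        rcases h1.lt_or_gt with h2 | h2
        · exact ⟨_, ng p hp h1, (f1 _ (by simpa using h2)).trans (by rw [sq_neg])⟩
        · exact ⟨p, ⟨hp, h1⟩, f1 p h2⟩
      · have h1 := key p (((S.j_mem C).1 h).imp S.b₂_mem.1 id)
        rcases h1.lt_or_gt with h2 | h2
        · exact ⟨p, ⟨hp, h1⟩, f2 p h2⟩
        · exact ⟨_, ng p hp h1, (f2 _ (by simpa using h2)).trans (by rw [sq_neg])⟩)
  refine ⟨X, _, _, ‹_›, ‹_›, ‹_›, i, e, he, hs, ?_, fun p hp => ?_, fun p hp => ?_⟩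
  · rw [ht]
    congr 2
    ext p
    simp
  · rw [hq p hp.ne', f1 p hp]
  · rw [hq p hp.ne, f2 p hp]

end Crest.Agent.X212.Sep15
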