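import Crest.Agent.X212.Sep15.CmL
import Crest.Agent.X212.Bb31.Reg
import Crest.Agent.X212.Hel3.Base
import Crest.Agent.X212.H7.Defs
import Crest.Agent.X212.Line51.Cm

/-!
# X212/Sep15/Top (helper15): the cap of `R × S¹` over which all lines extend

`Tw` (twisting a line along a box by a circle valued function), `KL`, `baseQ`.
-/

set_option autoImplicit false
set_option linter.unusedSectionVars false
set_option maxHeartbeats 200000

open Set Filter Topology Function Matrix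
open scoped ContDiff Manifold
open Crest.Agent.R208.F Crest.Agent.X212.Dr59 Crest.Agent.X212.Cyl58 Crest.Agent.X212.Pj41
  Crest.Agent.X212.Line51 Crest.Agent.X212.Int54
open Crest.Agent.X212.Bb31 (OE Df Fm Pos OC AA Mt Cy Dy)

noncomputable section

namespace Crest.Agent.X212.Sep15

variable {Y : CM 3} {R : CM 2} {κ κ' κ'' μ : Type} [Fintype κ] [Fintype κ'] [Fintype κ''] [Fintype μ]
  {b : R × ℝ → Y} {m : R → Matrix μ μ ℂ} {l : Y → Matrix κ κ ℂ} {l' : Y → Matrix κ' κ' ℂ}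
  {l'' : Y → Matrix κ'' κ'' ℂ} {a : R × ℝ → Matrix κ μ ℂ} {a' : R × ℝ → Matrix κ' μ ℂ}
  {a'' : R × ℝ → Matrix κ'' μ ℂ} {u u' : R → Circle}

/-- smooth circle valued functions -/
abbrev SC (u : R → Circle) : Prop := ContMDiff (𝓡 2) (𝓡 1) ∞ u

/-- `l'` is `l` twisted by `u` along the box `b` -/
structure Tw (b : R × ℝ → Y) (m : R → Matrix μ μ ℂ) (u : R → Circle) (l : Y → Matrix κ κ ℂ)
    (a : R × ℝ → Matrix κ μ ℂ) (l' : Y → Matrix κ' κ' ℂ) (a' : R × ℝ → Matrix κ' μ ℂ) : Prop where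
  t : Tr b (Ioo (-1) 1) m l a
  t' : Tr b (Ioo (-1) 1) m l' a'
  ex : ∃ w, Uni (𝓡 3) l l' w (slab b {0})ᶜ ∧ ∀ p : R × ℝ, p.2 ∈ Ioo (-1 : ℝ) 1 →
    (p.2 < 0 → w (b p) * a p = a' p) ∧ (0 < p.2 → w (b p) * a p = (u p.1 : ℂ) • a' p)

theorem Tw.trans (h : Tw b m u l a l' a') (h' : Tw b m u' l' a' l'' a'') :
    Tw b m (u * u') l a l'' a'' := by
  obtain ⟨w, h1, h2⟩ := h.ex
  obtain ⟨w', h3, h4⟩ := h'.ex
  refine ⟨h.t, h'.t', _, h1.trans h3, fun p hp => ⟨fun k => ?_, fun k => ?_⟩⟩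
  · rw [Matrix.mul_assoc, (h2 p hp).1 k, (h4 p hp).1 k]
  · rw [Matrix.mul_assoc, (h2 p hp).2 k, Matrix.mul_smul, (h4 p hp).2 k, smul_smul, Pi.mul_apply,
      Circle.coe_mul]

theorem Tw.symm (hb : Box b) (h : Tw b m u l a l' a') : Tw b m u⁻¹ l' a' l a := by
  obtain ⟨w, h1, h2⟩ := h.ex
  have k1 : ∀ p : R × ℝ, p.2 ∈ Ioo (-1 : ℝ) 1 → p.2 ≠ 0 → (w (b p))ᴴ * (w (b p) * a p) = a p :=
    fun p hp k => by
      rw [← Matrix.mul_assoc, (h1.iso _ fun e => k ((mem_slab hb).1 e)).src,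
        (h.t.iso p ⟨trivial, hp⟩).left]
  refine ⟨h.t', h.t, _, h1.symm, fun p hp => ⟨fun k => ?_, fun k => ?_⟩⟩
  · rw [← (h2 p hp).1 k, k1 p hp k.ne]
  · rw [← k1 p hp k.ne', (h2 p hp).2 k, Matrix.mul_smul, smul_smul, Pi.inv_apply, Circle.coe_inv,
      inv_mul_cancel₀ (Circle.coe_ne_zero _), one_smul]

theorem Tw.refl (hl : Pl (𝓡 3) l univ) (t : Tr b (Ioo (-1) 1) m l a) : Tw b m 1 l a l a :=
  ⟨t, t, l, hl.refl.mono (subset_univ _), fun p hp => ⟨fun _ => (t.iso p ⟨trivial, hp⟩).left,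
    fun _ => by simpa using (t.iso p ⟨trivial, hp⟩).left⟩⟩

theorem Tw.rgL (h : Tw b m u l a l' a') {G : Rg b id b} (hG : ∀ y, G.φ y = y) :
    ∃ w, RgL G (Ioo (-1) 1) m l l' a a' w fun x => (u x : ℂ) • m x := by
  obtain ⟨w, h1, h2⟩ := h.ex
  refine ⟨w, h.t, h.t', G.src ▸ uni_congr h1 (fun _ _ => rfl) fun y _ => by rw [hG],
    fun p hp => (h2 p hp).1, fun p hp k => ?_⟩
  rw [(h2 p hp).2 k, Matrix.mul_smul]
  exact congrArg _ (h.t'.iso p ⟨trivial, hp⟩).idem.symm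

theorem exists_tw {G : Rg b id b} (hG : ∀ y, G.φ y = y) (hm : Pl (𝓡 2) m univ)
    (hl : Pl (𝓡 3) l' univ) (t' : Tr b (Ioo (-1) 1) m l' a') (hu : SC u) :
    ∃ (n : Type) (_ : Fintype n) (l : Y → Matrix n n ℂ) (a : R × ℝ → Matrix n μ ℂ),
      Pl (𝓡 3) l univ ∧ Tw b m u l a l' a' := by
  obtain ⟨n, i, l, a, w, h1, L⟩ := exists_rgL G contMDiff_id isOpen_Ioo (by norm_num) hm hl t'
    (uni_smul hm.refl fun x _ => hu x)
  refine ⟨n, i, l, a, h1, L.t, t', w, G.src ▸ uni_congr L.hw (fun _ _ => rfl) fun y _ => by rw [hG],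
    fun p hp => ⟨L.lo p hp, fun k => ?_⟩⟩
  rw [L.hi p hp k, Matrix.mul_smul]
  exact congrArg _ (t'.iso p ⟨trivial, hp⟩).idem

theorem Tw.uni (hb : Box b) {f : R → ℝ} (hf : ContMDiff (𝓡 2) 𝓘(ℝ, ℝ) ∞ f)
    (h : Tw b m (fun x => Circle.exp (f x)) l a l' a') : ∃ v, Uni (𝓡 3) l l' v univ := by
  obtain ⟨w, h1, h2⟩ := h.ex
  let χ : R × ℝ → Circle := fun p => Circle.exp (Real.smoothTransition (2 * p.2) * f p.1)
  have hχ : ContMDiff (IR 2) (𝓡 1) ∞ χ := contMDiff_circleExp.comp fun p => FSm.mul'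
    (((Real.smoothTransition.contDiff.comp (contDiff_const.mul contDiff_id)).contMDiff.comp
      contMDiff_snd) p) ((hf.comp contMDiff_fst) p)
  have o := hb.oe (isOpen_Ioo (a := -1) (b := 1))
  have o' := (isClosed_slab hb (isCompact_Icc (a := 0) (b := 2⁻¹))).isOpen_compl
  have s : (slab b (Icc 0 2⁻¹))ᶜ ⊆ (slab b {0})ᶜ :=
    compl_subset_compl.2 (slab_mono b (by norm_num))
  obtain ⟨v, v1, v2⟩ := exists_fun2 (injOn_id (slab b (Icc 0 2⁻¹))ᶜ) o.inj (a := w)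
    (c := fun p => (χ p : ℂ) • (a' p * (a p)ᴴ)) fun y hy p hp e => by
      obtain rfl : y = b p := e
      have k : w (b p) = w (b p) * a p * (a p)ᴴ := by
        rw [Matrix.mul_assoc, (h.t.iso p hp).tgt, (h1.iso _ (s hy)).idem]
      rcases not_and_or.1 (fun k : 0 ≤ p.2 ∧ p.2 ≤ 2⁻¹ => hy ((mem_slab hb).2 k)) with k1 | k1
      · rw [k, (h2 p hp.2).1 (not_le.1 k1)]
        simp [χ, Real.smoothTransition.zero_of_nonpos (show 2 * p.2 ≤ 0 by linarith)]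
      · rw [k, (h2 p hp.2).2 (by linarith), Matrix.smul_mul]
        simp [χ, Real.smoothTransition.one_of_one_le (show 1 ≤ 2 * p.2 by linarith)]
  refine ⟨v, (uni_union ⟨fun y hy => (h1.sm y (s hy)).congr (eventually_of_mem (o'.mem_nhds hy) v1),
    fun y hy => (v1 y hy).symm ▸ h1.iso y (s hy)⟩
    (uni_oe o v2 (uni_smul (h.t.symm.trans h.t') fun p _ => hχ p))).mono fun y _ => ?_⟩
  exact (_root_.em _).symm.imp id fun k => slab_mono b (Icc_subset_Ioo (by norm_num) (by norm_num)) k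

theorem exists_scalar {X : R → Matrix μ μ ℂ} (hm : Pl (𝓡 2) m univ) (h : Uni (𝓡 2) m m X univ) :
    ∃ u : R → Circle, SC u ∧ ∀ x, X x = (u x : ℂ) • m x := by
  have k : ∀ x, X x = (X x).trace • m x := fun x => by
    have := Line51.rank_one (hm.prj x trivial) (hm.tr x trivial) (X x)
    rwa [(h.iso x trivial).left, (h.iso x trivial).idem] at this
  have k1 : ∀ x, (X x).trace ∈ Metric.sphere (0 : ℂ) 1 := fun x => by
    have := congrArg trace (h.iso x trivial).src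
    rw [k x, conjTranspose_smul, Matrix.smul_mul, Matrix.mul_smul, smul_smul, (hm.prj x trivial).herm,
      (hm.prj x trivial).idem, trace_smul, hm.tr x trivial, smul_eq_mul, mul_one, Complex.star_def,
      Complex.conj_mul', ← Complex.ofReal_pow, Complex.ofReal_eq_one] at this
    rwa [mem_sphere_zero_iff_norm, ← sq_eq_sq₀ (norm_nonneg _) zero_le_one, one_pow]
  have : Fact (Module.finrank ℝ ℂ = 1 + 1) := ⟨Complex.finrank_real_complex⟩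
  exact ⟨fun x => ⟨_, k1 x⟩, ContMDiff.codRestrict_sphere (fun x => (h.sm x trivial).trace) k1, k⟩

/-- a line which is trivial along two complementary boxes is a twisted pull-back -/
theorem base_tw {c : R × ℝ → Y} (hc : Box c) (e : ∀ x y, y ≠ 0 → b (x, y) = c (x, -y⁻¹))
    (rc : range c = (slab b {0})ᶜ) (hm : Pl (𝓡 2) m univ) (t' : Tr b univ m l' a')
    {m' : R → Matrix κ κ ℂ} (hm' : Pl (𝓡 2) m' univ) {g : R × ℝ → Matrix κ' κ ℂ}
    (hg : Tr c univ m' l' g) {π : Y → R} (π1 : ∀ p, π (b p) = p.1) (π2 : ∀ p, π (c p) = p.1) :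
    ∃ u, SC u ∧ Tw b m u (fun y => m (π y)) (fun p => m p.1) l' a' := by
  rw [Tr, univ_prod_univ] at t' hg
  let γ : ℝ → ℝ := fun s => 2⁻¹ + Real.smoothTransition (2 * s - 1) * (s - 2⁻¹)
  have γ1 : ∀ s, 1 ≤ s → γ s = s := fun s hs => by
    simp [γ, Real.smoothTransition.one_of_one_le (show 1 ≤ 2 * s - 1 by linarith)]
  have γ2 : ∀ s, s ≤ 2⁻¹ → (γ s)⁻¹ = 2 := fun s hs => by
    simp [γ, Real.smoothTransition.zero_of_nonpos (show 2 * s - 1 ≤ 0 by linarith)]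
  have γ3 : ∀ s, γ s ≠ 0 := fun s => by
    rcases le_total s 2⁻¹ with hs | hs
    · exact fun h0 => two_ne_zero ((γ2 s hs).symm.trans (by rw [h0, _root_.inv_zero]))
    · exact (add_pos_of_pos_of_nonneg (by norm_num) (mul_nonneg (Real.smoothTransition.nonneg _)
        (sub_nonneg.2 hs))).ne'
  have γ4 : ContDiff ℝ ∞ fun s => (γ s)⁻¹ := (contDiff_const.add ((Real.smoothTransition.contDiff.comp
    ((contDiff_const.mul contDiff_id).sub contDiff_const)).mul (contDiff_id.sub contDiff_const))).inv γ3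
  let k : R × ℝ → Matrix κ μ ℂ := fun p => (g (p.1, -p.2⁻¹))ᴴ * a' p
  have hk : Uni (IR 2) (fun p => m p.1) (fun p => m' p.1) k {p | p.2 ≠ 0} :=
    (t'.mono (subset_univ _)).trans (uni_congr (hg.symm.comp (f := fun p : R × ℝ => (p.1, -p.2⁻¹))
      ⟨fun p hp => contMDiffAt_fst.prodMk (((contDiffAt_inv ℝ hp).neg.contMDiffAt).comp p
        contMDiffAt_snd), mapsTo_univ _ _⟩) (fun p hp => congrArg l' (e _ _ hp)) fun _ _ => rfl)
  have hf : ∀ {r : ℝ → ℝ}, ContDiff ℝ ∞ r → (∀ s, r s ≠ 0) → Uni (IR 2) (fun p : R × ℝ => m p.1)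
      (fun p => m' p.1) (fun p => k (p.1, r p.2)) univ := fun hr h0 =>
    hk.comp (f := fun p : R × ℝ => (p.1, _))
      ⟨fun p _ => (contMDiff_fst.prodMk (hr.contMDiff.comp contMDiff_snd)) p, fun p _ => h0 _⟩
  have h2 := hf (r := fun _ => 2) contDiff_const fun _ => two_ne_zero
  have h3 := hf (r := fun _ => -2) contDiff_const fun _ => by norm_num
  obtain ⟨u, hu, e1⟩ := exists_scalar hm' ((h2.symm.trans h3).comp (f := fun x : R => (x, (0 : ℝ)))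
    (mp_univ (contMDiff_id.prodMk contMDiff_const)))
  have h4 := (((hf (γ4.comp contDiff_neg) fun s => inv_ne_zero (γ3 _)).trans h2.symm).trans
    (hf γ4.neg fun s => neg_ne_zero.2 (inv_ne_zero (γ3 _)))).trans hg
  obtain ⟨w, hw⟩ := exists_fun1 (OE.of_oe hc).inj fun p : R × ℝ =>
    g p * (k (p.1, -(γ p.2)⁻¹) * ((k (p.1, 2))ᴴ * k (p.1, (γ (-p.2))⁻¹)))
  have h5 := uni_oe (p := fun y => m (π y)) (q := l') (OE.of_oe hc) hw
    (uni_congr h4 (fun p _ => by rw [π2]) fun _ _ => rfl)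
  rw [image_univ, rc] at h5
  refine ⟨u, hu, uni_congr (hm.refl.comp (mp_univ contMDiff_fst)) (fun _ _ => rfl)
    fun p _ => congrArg m (π1 p), t'.mono (subset_univ _), w, h5, ?_⟩
  rintro ⟨x, y⟩ hp
  have k1 : y ≠ 0 → g (x, -y⁻¹) * k (x, y) = a' (x, y) := fun h0 => by
    rw [← Matrix.mul_assoc, (hg.iso _ trivial).tgt, ← e x y h0]
    exact (t'.iso (x, y) trivial).left
  refine ⟨fun h0 => ?_, fun h0 => ?_⟩
  · have h6 : 1 ≤ -y⁻¹ := by
      rw [← inv_neg]; exact (one_le_inv₀ (neg_pos.2 h0)).2 (by linarith [hp.1])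
    rw [e x y h0.ne, hw _ trivial]
    refine (h4.iso (x, -y⁻¹) trivial).idem.trans ?_
    dsimp only [Function.comp]
    rw [γ1 _ h6, γ2 _ (by linarith), inv_neg, _root_.inv_inv, neg_neg, (hk.iso (x, 2) two_ne_zero).src,
      (hk.iso (x, y) h0.ne).idem, k1 h0.ne]
  · have h6 : 1 ≤ y⁻¹ := (one_le_inv₀ h0).2 hp.2.le
    rw [e x y h0.ne', hw _ trivial]
    refine (h4.iso (x, -y⁻¹) trivial).idem.trans ?_
    dsimp only [Function.comp]
    rw [neg_neg, γ1 _ h6, γ2 _ (by linarith), _root_.inv_inv, ← Matrix.mul_assoc (k _), e1 x,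
      Matrix.smul_mul, (hk.iso (x, y) h0.ne').left, Matrix.mul_smul, k1 h0.ne']

/-- the twists of a line by a coset of `Γ` extend -/
def KL (b : R × ℝ → Y) (Γ : Set (R → Circle)) (C : End Y) : Prop :=
  ∀ (κ' : Type) [Fintype κ'] (l' : Y → Matrix κ' κ' ℂ), Pl (𝓡 3) l' univ →
    ∃ (μ : Type) (_ : Fintype μ) (m : R → Matrix μ μ ℂ) (a' : R × ℝ → Matrix κ' μ ℂ) (u : R → Circle),
      Pl (𝓡 2) m univ ∧ Tr b (Ioo (-1) 1) m l' a' ∧ SC u ∧ ∀ δ ∈ Γ, ∀ (κ : Type) [Fintype κ]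
        (l : Y → Matrix κ κ ℂ) (a : R × ℝ → Matrix κ μ ℂ), Pl (𝓡 3) l univ →
        Tw b m (u * δ) l a l' a' → Ext C l

theorem KL.ext {Γ : Set (R → Circle)} {C : End Y} (h : KL b Γ C) (hΓ : ∀ u, SC u → u ∈ Γ) :
    EXT Y C := fun κ _ l hl =>
  let ⟨_, _, _, a, u, _, t, hu, k⟩ := h κ l hl
  k u⁻¹ (hΓ _ hu.inv) κ l a hl (by rw [mul_inv_cancel]; exact Tw.refl hl t)

theorem KL.step [PreconnectedSpace R] {o : Fm 2 R} (ho : Ori (𝓡 2) o) {t : Df R} (ht : Pos o t)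
    {G : Rg b id b} (hG : ∀ y, G.φ y = y) {σ₁ σ₂ : ℝ → ℝ}
    (M : Cm G t (Diffeomorph.refl (𝓡 2) R ∞) σ₁ σ₂) (hσ : Icc (σ₁ 0) (σ₂ 0) ⊆ Ioo (-1) 1)
    {C : End Y} {C₁ : End M.Y₁} {C₂ : End Y} (O₁ : Op M.S₁ C C₁) (O₂ : Op M.S₂ C₁ C₂)
    {Γ Γ' : Set (R → Circle)} (h : KL b Γ C)
    (hΓ : ∀ δ ∈ Γ', ∃ γ ∈ Γ, ∃ v, SC v ∧ δ = γ * ((v ∘ t) / v)) : KL b Γ' C₂ := by
  intro κ' _ l' hl
  obtain ⟨μ, i, m, a', u, hm, t', hu, k⟩ := h κ' l' hl
  refine ⟨μ, i, m, a', u, hm, t', hu, fun δ hδ κ _ l a h1 h2 => ?_⟩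
  obtain ⟨γ, hγ, v, hv, rfl⟩ := hΓ δ hδ
  have hv' : SC (v ∘ t) := hv.comp t.contMDiff
  obtain ⟨n, _, l₀, a₀, h3, h4⟩ := exists_tw (u := ((v ∘ t) / v)⁻¹) hG hm h1 h2.t (hv'.div hv).inv
  have h5 := h4.trans h2
  rw [mul_comm, ← mul_assoc, mul_inv_cancel_right] at h5
  obtain ⟨w, L⟩ := h4.rgL hG
  obtain ⟨T, hT⟩ := exists_lift ho ht hm
  refine cm_ext M O₁ O₂ isOpen_Ioo hσ hm L (uni_smul hm.refl fun x _ => hv' x) hT (fun x => ?_)
    (k γ hγ n l₀ a₀ h3 h5)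
  show (((v (t (t x)) / v (t x))⁻¹ : Circle) : ℂ) • m (t x) * T x =
    ((v (t (t x)) : ℂ) • m (t x))ᴴ * (T x * (v (t x) : ℂ) • m x)
  rw [conjTranspose_smul, Matrix.mul_smul, Matrix.mul_smul, Matrix.smul_mul, Matrix.smul_mul,
    (hm.prj _ trivial).herm, (hT.iso x trivial).idem, smul_smul, inv_div, div_eq_mul_inv,
    Circle.coe_mul, Circle.coe_inv_eq_conj]
  rfl

/-! ### the product -/

/-- a parametrisation of the circle minus a point -/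
def ce (c s : ℝ) : Circle := Circle.exp (c + 2 * Real.arctan s)

theorem up_ce (c : ℝ) : Up (fun s => c + 2 * Real.arctan s) univ :=
  (Up.aff c two_pos univ).comp (Up.of_hasDerivAt (fun _ _ => Real.contDiff_arctan.contDiffAt)
    (fun x _ => Real.hasDerivAt_arctan x) fun x _ => by positivity) (mapsTo_univ _ _)

theorem isOE_ce (c : ℝ) : IsOE 𝓘(ℝ, ℝ) (𝓡 1) (ce c) := by
  refine ⟨fun s t e => (up_ce c).strictMono.injective (Circle.exp_injOn_Ioc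
    (a := c - Real.pi) (b := c + Real.pi) (by linarith) ⟨?_, ?_⟩ ⟨?_, ?_⟩ e),
    fun s => ld_comp (Glue52.ld_circleExp _) ((up_ce c).isOE.loc s)⟩ <;>
  linarith [Real.arctan_lt_pi_div_two s, Real.neg_pi_div_two_lt_arctan s,
    Real.arctan_lt_pi_div_two t, Real.neg_pi_div_two_lt_arctan t]

theorem ce_inv {y : ℝ} (h : y ≠ 0) : ce Real.pi y = ce 0 (-y⁻¹) := by
  rw [ce, ce, Real.arctan_neg, Circle.exp_eq_exp]
  rcases h.lt_or_gt with h | h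
  · exact ⟨0, by rw [Real.arctan_inv_of_neg h]; push_cast; ring⟩
  · exact ⟨1, by rw [Real.arctan_inv_of_pos h]; push_cast; ring⟩

theorem range_ce : range (ce 0) = {ce Real.pi 0}ᶜ := by
  have e : ce Real.pi 0 = Circle.exp Real.pi := by simp [ce]
  have hp := Real.pi_pos
  ext z
  rw [e, mem_compl_singleton_iff]
  constructor
  · rintro ⟨s, rfl⟩ h
    have := Circle.exp_injOn_Ioc (a := -Real.pi) (b := Real.pi) (by linarith)
      ⟨by linarith [Real.neg_pi_div_two_lt_arctan s], by linarith [Real.arctan_lt_pi_div_two s]⟩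
      ⟨by linarith, le_rfl⟩ h
    linarith [Real.arctan_lt_pi_div_two s]
  · intro h
    have h1 : Complex.arg z < Real.pi := lt_of_le_of_ne (Complex.arg_le_pi _) fun k =>
      h (by rw [← k, Circle.exp_arg])
    refine ⟨Real.tan (Complex.arg z / 2), ?_⟩
    rw [ce, Real.arctan_tan (by linarith [Complex.neg_pi_lt_arg (z : ℂ)]) (by linarith), zero_add,
      mul_div_cancel₀ _ two_ne_zero, Circle.exp_arg]

theorem exists_rg_id (hb : Box b) : ∃ G : Rg b id b, ∀ y, G.φ y = y := by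
  obtain ⟨Φ, h1, h2, h3⟩ := exists_pd (IA := 𝓡 3) (IB := 𝓡 3) id (f := id)
    (isClosed_slab hb (isCompact_singleton (x := 0))).isOpen_compl (fun y _ => IsOE.id.loc y)
    (injOn_id _)
  exact ⟨⟨hb, hb, Φ, h1, h2.trans (image_id _), fun _ _ => h3 _, fun _ _ => h3 _⟩, h3⟩

theorem mt_id {G : Rg b id b} (hG : ∀ y, G.φ y = y) {oR : Fm 2 R} {o β τ : Fm 3 Y}
    (hR : Ori (𝓡 2) oR) (ho : Ori (𝓡 3) o) (h1 : Cy oR o b) (h2 : Dy b τ (Ioo (-1) 1)) :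
    Mt G oR o β univ τ o β univ τ := by
  have e : (G.φ : Y → Y) = id := funext hG
  exact ⟨hR, ho, ho, h1, by rw [e, pm_id]; exact (Orx52.oriOn ho _).same, subset_univ _,
    subset_univ _, h2, h2, fun _ _ => Iff.rfl, fun p _ => by rw [e, pm_id],
    fun p _ _ => ⟨1, one_pos, by rw [e, pm_id, one_smul]⟩⟩

section base

variable {C : End Y} (B : Bs R C)

/-- the boxes of the product -/
def Bs.bx (c : ℝ) (p : R × ℝ) : Y := B.f (p.1, ce c p.2)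

theorem Bs.box (c : ℝ) : Box (B.bx c) := (IsOE.of_diffeo B.f).comp (IsOE.id.prodMap (isOE_ce c))

theorem Bs.exists_tr (c : ℝ) (hl : Pl (𝓡 3) l univ) : ∃ (m : R → Matrix κ κ ℂ) (a : _),
    Pl (𝓡 2) m univ ∧ Tr (B.bx c) univ m l a := by
  have h := hl.comp (W := univ) (f := fun z : R × ℝ => B.f (z.1, Circle.exp (c + z.2)))
    (mp_univ (B.f.contMDiff.comp (contMDiff_fst.prodMk (contMDiff_circleExp.comp
      ((contDiff_const.add contDiff_id).contMDiff.comp contMDiff_snd)))))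
  obtain ⟨u, hu⟩ := exists_uni_htpy (fun z => h.sm z trivial) (fun z => h.on.rk1 trivial)
    (c := fun s => 2 * Real.arctan s) (contDiff_const.mul Real.contDiff_arctan) (R := Real.pi)
    fun s => abs_le.2 ⟨by linarith [Real.neg_pi_div_two_lt_arctan s],
      by linarith [Real.arctan_lt_pi_div_two s]⟩
  exact ⟨_, u, h.comp (f := fun x : R => (x, (0 : ℝ)))
    (mp_univ (contMDiff_id.prodMk contMDiff_const)), hu.mono (subset_univ _)⟩

theorem Bs.ext (hm : Pl (𝓡 2) m univ) : Ext C fun y => m (B.f.symm y).1 := by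
  refine ⟨μ, inferInstance, fun x => m (B.g.symm x).1, fun p => m (B.f.symm p.1).1,
    hm.comp (mp_univ (contMDiff_fst.comp B.g.symm.contMDiff)), uni_congr (hm.refl.comp
      (mp_univ (contMDiff_fst.comp (B.f.symm.contMDiff.comp contMDiff_fst)))) (fun _ _ => rfl) ?_⟩
  rintro ⟨y, s⟩ -
  obtain ⟨⟨x, θ⟩, rfl⟩ := (show Surjective B.f from B.f.surjective) y
  simp [B.eq]

theorem Bs.kl : KL (B.bx Real.pi)
    {δ | ∃ f : R → ℝ, ContMDiff (𝓡 2) 𝓘(ℝ, ℝ) ∞ f ∧ δ = fun x => Circle.exp (f x)} C := by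
  intro κ' _ l' hl
  obtain ⟨m, a', hm, t'⟩ := B.exists_tr Real.pi hl
  obtain ⟨m', g, hm', hg⟩ := B.exists_tr 0 hl
  obtain ⟨u, hu, h⟩ := base_tw (B.box 0) (fun x y hy => by simp only [Bs.bx, ce_inv hy]) (by
      ext y
      obtain ⟨⟨x, θ⟩, rfl⟩ := (show Surjective B.f from B.f.surjective) y
      constructor
      · rintro ⟨p, e⟩ ⟨q, hq, e'⟩
        have h1 : ce 0 p.2 = ce Real.pi q.2 := congrArg Prod.snd (B.f.injective (e.trans e'.symm))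
        exact (range_ce ▸ mem_range_self p.2 : ce 0 p.2 ∈ ({ce Real.pi 0}ᶜ : Set Circle))
          (h1.trans (congrArg _ hq.2))
      · intro h
        obtain ⟨s, rfl⟩ : θ ∈ range (ce 0) := range_ce ▸ fun e : θ = _ =>
          h ⟨(x, 0), ⟨trivial, rfl⟩, e ▸ rfl⟩
        exact ⟨(x, s), rfl⟩) hm t' hm' hg (π := fun y => (B.f.symm y).1)
    (fun p => by simp [Bs.bx]) fun p => by simp [Bs.bx]
  refine ⟨_, inferInstance, m, a', u, hm, h.t', hu, ?_⟩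
  rintro _ ⟨f, hf, rfl⟩ κ _ l a - h1
  have h2 := h1.trans (h.symm (B.box _))
  rw [mul_comm u, mul_inv_cancel_right] at h2
  obtain ⟨v, hv⟩ := h2.uni (B.box _) hf
  exact (B.ext hm).of_uni hv

theorem Bs.dy {τ : Fm 3 Y} (h : ∀ p, ∃ f > (0 : ℝ), pm ((𝓡 2).prod (𝓡 1)) (𝓡 3) B.f τ p =
    f • pm ((𝓡 2).prod (𝓡 1)) (𝓡 1) Prod.snd Orx52.oC p) (c : ℝ) (s : Set ℝ) : Dy (B.bx c) τ s := by
  intro x y _
  obtain ⟨f, f0, e⟩ := h (x, ce c y)
  have d : MDifferentiableAt (IR 2) ((𝓡 2).prod (𝓡 1)) (Prod.map id (ce c)) (x, y) :=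
    ((IsOE.id.prodMap (isOE_ce c)).contMDiff _).mdifferentiableAt (by simp)
  refine ⟨f * deriv (fun s => c + 2 * Real.arctan s) y, mul_pos f0 (up_ce c y trivial).2, ?_⟩
  rw [show B.bx c = B.f ∘ Prod.map id (ce c) from rfl,
    ← pm_comp (B.f.contMDiff.mdifferentiableAt (by simp)) d, pm_apply]
  erw [e]
  rw [map_smul, mul_smul]
  refine congrArg (f • ·) ((pm_comp (f := Prod.map id (ce c)) mdifferentiableAt_snd d).trans ?_)
  rw [Orx52.pm_oC (mdifferentiableAt_snd.comp _ d)]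
  exact (ang_exp (f := (fun s => c + 2 * Real.arctan s) ∘ Prod.snd)
    (((up_ce c).contDiff.contMDiff.comp contMDiff_snd) _)).trans
    (Orx52.df_snd_comp ((up_ce c).hasDerivAt trivial))

end base

theorem exists_cy [PreconnectedSpace R] (hb : Box b) {oR : Fm 2 R} {o : Fm 3 Y} (hR : Ori (𝓡 2) oR)
    (ho : Ori (𝓡 3) o) : ∃ o', Ori (𝓡 2) o' ∧ Cy o' o b := by
  rcases Orx52.pos_or isPreconnected_univ (Orx52.oriOn (Orx52.ori_cy hR) _) (Orx52.oriOn ho univ)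
    (fun y _ => hb.loc y) (mapsTo_univ _ _) with h | h
  · exact ⟨oR, hR, h⟩
  · refine ⟨-oR, hR.neg, ?_⟩
    have e : Sym24.dt (EE 2) R * Sym24.pu (-oR) = -Orx52.cy oR := funext fun p => by
      simp [Sym24.pu, Orx52.cy]
    rw [Cy, e]
    exact Orx52.pos_neg_left.2 h

/-- one handle -/
theorem exists_hd {G : Rg b id b} {oR : Fm 2 R} {o β τ : Fm 3 Y} (m : Mt G oR o β univ τ o β univ τ)
    {t : Df R} (ht : Pos oR t) {C : End Y} (h : OC C o (AA o β univ τ)) :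
    ∃ (σ₁ σ₂ : ℝ → ℝ) (M : Cm G t (Diffeomorph.refl (𝓡 2) R ∞) σ₁ σ₂) (C₁ : End M.Y₁) (C₂ : End Y)
      (_ : Op M.S₁ C C₁) (_ : Op M.S₂ C₁ C₂), Icc (σ₁ 0) (σ₂ 0) ⊆ Ioo (-1) 1 ∧
      OC C₂ o (AA o β univ τ) := by
  obtain ⟨σ₁, σ₂, L, r₁, r₂⟩ := exists_lv (r := 2⁻¹) (by norm_num)
  obtain ⟨M⟩ : Nonempty (Cm G t (Diffeomorph.refl (𝓡 2) R ∞) σ₁ σ₂) :=
    exists_cm (h := Diffeomorph.refl (𝓡 2) R ∞) G t (Diffeomorph.refl (𝓡 2) R ∞) (fun _ => rfl) L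
  obtain ⟨C₁, ⟨P₁⟩⟩ := opStmt _ _ _ _ _ _ _ M.S₁ C
  obtain ⟨C₂, ⟨P₂⟩⟩ := opStmt _ _ _ _ _ _ _ M.S₂ C₁
  exact ⟨σ₁, σ₂, M, C₁, C₂, P₁, P₂,
    Icc_subset_Ioo (by linarith [(r₁ 0).1]) (by linarith [(r₂ 0).2]),
    Bb31.regOc _ _ _ _ _ _ G _ t oR o β _ τ o β _ τ _ _ M C C₁ C₂ (Bb31.same_id m.hR :) ht
      (fun y => ⟨(r₁ y).1, (r₁ y).2.trans (by norm_num)⟩)
      (fun y => ⟨lt_trans (by norm_num) (r₂ y).1, (r₂ y).2⟩) m P₁ P₂ h⟩

theorem pos_refl {o : Fm 2 R} (ho : Ori (𝓡 2) o) : Pos o (Diffeomorph.refl (𝓡 2) R ∞) :=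
  Bb31.same_id ho

/-- the functions which are killed by the handles -/
def Gam {n : ℕ} (t : Fin n → Df R) : Set (R → Circle) :=
  {u | ∃ (v : Fin n → R → Circle) (f : R → ℝ), (∀ k, SC (v k)) ∧ ContMDiff (𝓡 2) 𝓘(ℝ, ℝ) ∞ f ∧
    ∀ x, u x = Circle.exp (f x) * ∏ k, v k (t k x) / v k x}

theorem exists_kl [PreconnectedSpace R] {G : Rg b id b} (hG : ∀ y, G.φ y = y) {oR : Fm 2 R}
    {o β τ : Fm 3 Y} (m : Mt G oR o β univ τ o β univ τ) {C : End Y} (h1 : OC C o (AA o β univ τ))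
    (h2 : PreconnectedSpace C.X) (h3 : KL b
      {δ | ∃ f : R → ℝ, ContMDiff (𝓡 2) 𝓘(ℝ, ℝ) ∞ f ∧ δ = fun x => Circle.exp (f x)} C)
    (n : ℕ) : ∀ t : Fin n → Df R, (∀ k, Pos oR (t k)) → ∃ C' : End Y,
      OC C' o (AA o β univ τ) ∧ PreconnectedSpace C'.X ∧ KL b (Gam t) C' := by
  induction n with
  | zero =>
    refine fun t _ => ⟨C, h1, h2, fun κ _ l hl => ?_⟩
    obtain ⟨μ, i, m, a, u, k1, k2, k3, k4⟩ := h3 κ l hl
    exact ⟨μ, i, m, a, u, k1, k2, k3, fun δ ⟨_, f, _, hf, e⟩ =>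
      k4 δ ⟨f, hf, funext fun x => by simpa using e x⟩⟩
  | succ n ih =>
    intro t ht
    obtain ⟨C', k1, k2, k3⟩ := ih (fun k => t k.succ) fun k => ht _
    obtain ⟨σ₁, σ₂, M, C₁, C₂, P₁, P₂, k4, k5⟩ := exists_hd m (ht 0) k1
    have := P₁.conn
    refine ⟨C₂, k5, P₂.conn, k3.step m.hR (ht 0) hG M k4 P₁ P₂ ?_⟩
    rintro δ ⟨v, f, hv, hf, e⟩
    refine ⟨_, ⟨fun k => v k.succ, f, fun k => hv _, hf, fun _ => rfl⟩, v 0, hv 0,
      funext fun x => ?_⟩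
    rw [e, Fin.prod_univ_succ, mul_comm (_ / _), ← mul_assoc]
    rfl

theorem Bs.conn [PreconnectedSpace R] {C : End Y} (B : Bs R C) : PreconnectedSpace C.X :=
  ⟨by
    rw [← (show Surjective B.g from B.g.surjective).range_eq]
    exact isPreconnected_range B.g.continuous⟩

/-- **the top cap** -/
theorem baseQ (hK : KillH1) (hB : HpBase)
    (hS : ∀ (R : CM 2) (o : Fm 2 R), Ori (𝓡 2) o → H7.G3 o → HS R) : H7.BaseQ Q := by
  intro Y R C B o β τ oR hR ⟨o₀, h₀, g₀⟩ ho hoR h1 h2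
  obtain ⟨G, hG⟩ := exists_rg_id (B.box Real.pi)
  obtain ⟨o', ho', hc⟩ := exists_cy (B.box Real.pi) hoR ho
  have m := mt_id (β := β) hG ho' ho hc (B.dy h2 _ _)
  obtain ⟨n, t, ht, hk⟩ := hK R o' hR ho'
  obtain ⟨C', k1, k2, k3⟩ := exists_kl hG m (Hel3.base Y R C B o β τ oR ho hoR h1 h2) B.conn B.kl
    n t ht
  obtain ⟨σ₁, σ₂, M, C₁, C₂, P₁, P₂, -, k5⟩ := exists_hd m (pos_refl ho') k1
  have := P₁.conn
  exact ⟨C₂, ⟨(k3.ext hk).cm ho' (pos_refl ho') (pos_refl ho') M P₁ P₂, P₂.conn,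
    hB _ _ _ _ _ G _ _ M C' C₁ C₂ (hS R o₀ h₀ g₀) P₁ P₂⟩, k5⟩

end Crest.Agent.X212.Sep15
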